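import Vale.Agent.P292.Mo.DefD

/-! # Part II.a: lifts over a small extension, second chart -/

namespace Vale.Agent.P292.Mo

open TensorProduct

section lifts
variable {k : Type*} [Field k] {R : Type*} [CommRing R] [Algebra k R] {𝒜 : ℕ → Submodule k R}
  [GradedAlgebra 𝒜] {K : Type*} [Field K] [Algebra k K]
  {A₁ : Subalgebra k K} {u : K} {φ : R →ₐ[k] K}
  {O₁ O : Type*} [CommRing O₁] [CommRing O] [Algebra k O₁] [Algebra k O]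
  {π : O₁ →ₐ[k] O} {e₁ : O₁ →ₐ[k] k}

/-- the residue kernel of the smaller ring is nilpotent -/
theorem lift1_nil (hs : IsSmall π e₁) (e : O →ₐ[k] k) (he : ∀ a, e (π a) = e₁ a) :
    IsNilpotent (RingHom.ker e) := by
  obtain ⟨N, hN⟩ := hs.nil
  refine ⟨N, ?_⟩
  have h1 : RingHom.ker e = (RingHom.ker e₁).map π := by
    apply le_antisymm
    · intro y hy
      obtain ⟨a, rfl⟩ := hs.surj y
      refine Ideal.mem_map_of_mem _ ?_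
      rw [RingHom.mem_ker] at hy ⊢
      rw [← he]
      exact hy
    · rw [Ideal.map_le_iff_le_comap]
      intro a ha
      rw [Ideal.mem_comap, RingHom.mem_ker, he]
      exact ha
  rw [h1, ← Ideal.map_pow, hN, Ideal.zero_eq_bot, Ideal.map_bot, Ideal.zero_eq_bot]

theorem lift1_pow {B : Type*} [CommRing B] [Algebra k B] (a : K) (n : ℕ) :
    ((1 : B) ⊗ₜ[k] a) ^ n = 1 ⊗ₜ (a ^ n) := by
  rw [Algebra.TensorProduct.tmul_pow, one_pow]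

/-- the lift on the second chart -/
theorem exists_lift1 (hs : IsSmall π e₁) (hu : u ≠ 0) {n : ℕ} {s : R} (hsA : s ∈ 𝒜 n)
    (hsm : Algebra.FormallySmooth k (Localization.Away s)) (hs0 : φ s ≠ 0)
    (hs1 : (u ^ n * φ s)⁻¹ ∈ A₁) (e : O →ₐ[k] k) (he : ∀ a, e (π a) = e₁ a)
    (Ψ : R →ₐ[k] O ⊗[k] K) (hΨe : ∀ r, ez K e (Ψ r) = φ r)
    (hΨ : ∀ n, ∀ r ∈ 𝒜 n, (1 ⊗ₜ (u ^ n)) * Ψ r ∈ subB O A₁) :
    ∃ Ψ₁ : R →ₐ[k] O₁ ⊗[k] K, (∀ r, chg K π (Ψ₁ r) = Ψ r) ∧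
      (∀ n, ∀ r ∈ 𝒜 n, (1 ⊗ₜ (u ^ n)) * Ψ₁ r ∈ subB O₁ A₁) := by
  have hΦa : ∀ n, ∀ r ∈ 𝒜 n, tw 𝒜 (1 ⊗ₜ u) Ψ r = (1 ⊗ₜ (u ^ n)) * Ψ r := fun n r hr => by
    rw [tw_apply _ _ _ hr, lift1_pow]
  have hΦm : ∀ r, tw 𝒜 (1 ⊗ₜ u) Ψ r ∈ subB O A₁ := by
    classical
    intro r
    rw [← DirectSum.sum_support_decompose 𝒜 r, map_sum]
    refine sum_mem fun i _ => ?_
    rw [hΦa i _ (SetLike.coe_mem _)]
    exact hΨ i _ (SetLike.coe_mem _)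
  obtain ⟨g, hg⟩ := exists_factor (S := A₁) (tw 𝒜 (1 ⊗ₜ u) Ψ) hΦm
  have hunit : IsUnit (g s) := by
    refine isUnit_of_ez (lift1_nil hs e he) ?_
    have h1 : ((ez A₁ e (g s) : A₁) : K) = u ^ n * φ s := by
      rw [coe_ez, hg, hΦa n s hsA, map_mul, ez_tmul, map_one, one_smul, hΨe]
    refine isUnit_iff_exists_inv.2 ⟨⟨(u ^ n * φ s)⁻¹, hs1⟩, ?_⟩
    apply Subtype.ext
    change ((ez A₁ e (g s) : A₁) : K) * (u ^ n * φ s)⁻¹ = 1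
    rw [h1, mul_inv_cancel₀ (mul_ne_zero (pow_ne_zero _ hu) hs0)]
  have hnil : IsNilpotent (RingHom.ker (chg A₁ π)) :=
    ⟨2, by rw [Ideal.zero_eq_bot]; exact hs.ker_sq (K := A₁)⟩
  obtain ⟨g', hg'⟩ := exists_lift_of_smooth hsm (chg A₁ π) (chg_surjective hs) hnil g hunit
  refine ⟨tw 𝒜 (1 ⊗ₜ u⁻¹) ((incB O₁ A₁).comp g'), fun r => ?_, fun m r hr => ?_⟩
  · refine linearMap_eq_of_homog 𝒜
      ((chg K π).comp (tw 𝒜 (1 ⊗ₜ u⁻¹) ((incB O₁ A₁).comp g'))).toLinearMap Ψ.toLinearMap ?_ r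
    intro m r hr
    change chg K π (tw 𝒜 _ _ r) = Ψ r
    rw [tw_apply _ _ _ hr, map_mul, lift1_pow, chg_tmul, map_one, AlgHom.comp_apply, ← incB_chg,
      hg', hg, hΦa m r hr, ← mul_assoc, Algebra.TensorProduct.tmul_mul_tmul, mul_one, ← mul_pow,
      inv_mul_cancel₀ hu, one_pow, ← Algebra.TensorProduct.one_def, one_mul]
  · rw [tw_apply _ _ _ hr, lift1_pow, ← mul_assoc, Algebra.TensorProduct.tmul_mul_tmul, mul_one,
      ← mul_pow, mul_inv_cancel₀ hu, one_pow, ← Algebra.TensorProduct.one_def, one_mul,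
      AlgHom.comp_apply]
    exact mem_subB_iff.2 ⟨g' r, rfl⟩

end lifts

end Vale.Agent.P292.Mo
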