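import Mathlib

/-! # Part II.a: homogeneous generators -/

namespace Vale.Agent.P292.Mo

theorem exists_homog_gens {k : Type*} [Field k] {R : Type*} [CommRing R] [Algebra k R]
    [Algebra.FiniteType k R] (𝒜 : ℕ → Submodule k R) [GradedAlgebra 𝒜] :
    ∃ (M : ℕ) (x : Fin M → R) (d : Fin M → ℕ), (∀ i, x i ∈ 𝒜 (d i)) ∧
      Function.Surjective (MvPolynomial.aeval (R := k) x) := by
  classical
  obtain ⟨S, hS⟩ := (inferInstance : Algebra.FiniteType k R).out
  let T : Finset R := S.biUnion fun s =>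
    (DirectSum.decompose 𝒜 s).support.image fun i => (DirectSum.decompose 𝒜 s i : R)
  have hT : ∀ t ∈ T, ∃ n, t ∈ 𝒜 n := by
    intro t ht
    obtain ⟨s, -, h⟩ := Finset.mem_biUnion.1 ht
    obtain ⟨i, -, rfl⟩ := Finset.mem_image.1 h
    exact ⟨i, SetLike.coe_mem _⟩
  let x : Fin T.card → R := fun i => (T.equivFin.symm i : R)
  have hx : ∀ i, ∃ n, x i ∈ 𝒜 n := fun i => hT _ (T.equivFin.symm i).2
  choose d hd using hx
  have hrange : Set.range x = (T : Set R) := by
    ext t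
    constructor
    · rintro ⟨i, rfl⟩
      exact (T.equivFin.symm i).2
    · intro ht
      refine ⟨T.equivFin ⟨t, ht⟩, ?_⟩
      change ((T.equivFin.symm (T.equivFin ⟨t, ht⟩)) : R) = t
      rw [Equiv.symm_apply_apply]
  have hadj : Algebra.adjoin k (Set.range x) = ⊤ := by
    rw [hrange, eq_top_iff, ← hS, Algebra.adjoin_le_iff]
    intro s hs
    rw [SetLike.mem_coe, ← DirectSum.sum_support_decompose 𝒜 s]
    refine sum_mem fun i hi => Algebra.subset_adjoin ?_
    exact Finset.mem_biUnion.2 ⟨s, hs, Finset.mem_image.2 ⟨i, hi, rfl⟩⟩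
  refine ⟨T.card, x, d, hd, ?_⟩
  rw [← AlgHom.range_eq_top, ← Algebra.adjoin_range_eq_range_aeval, hadj]

end Vale.Agent.P292.Mo
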