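import Vale.Agent.P292.Mo.DefS0

/-! # Part II.a (B): an artinian localisation at the origin -/

namespace Vale.Agent.P292.Mo

open TensorProduct MvPolynomial

theorem exists_pow_le {k : Type*} [Field k] {σ : Type*} [Fintype σ]
    (J : Ideal (MvPolynomial σ k)) (hJ : J ≤ m0 k σ)
    (e : (MvPolynomial σ k ⧸ J) →ₐ[k] k)
    (he : ∀ f, e (Ideal.Quotient.mk J f) = MvPolynomial.constantCoeff f)
    (m : Ideal (MvPolynomial σ k ⧸ J)) [m.IsMaximal] (hm : m = RingHom.ker e)
    (hArt : IsArtinianRing (Localization.AtPrime m)) :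
    ∃ N, 0 < N ∧ m0 k σ ^ N ≤ J ⊔ m0 k σ ^ (N + 1) := by
  have hnoeth : IsNoetherianRing (Localization.AtPrime m) :=
    IsLocalization.isNoetherianRing m.primeCompl _ inferInstance
  obtain ⟨N, hN⟩ := (isArtinianRing_iff_isNilpotent_maximalIdeal (Localization.AtPrime m)).mp hArt
  have hN' : IsLocalRing.maximalIdeal (Localization.AtPrime m) ^ (N + 1) = 0 := by
    rw [pow_succ, hN, zero_mul]
  refine ⟨N + 1, Nat.succ_pos N, fun g hg => ?_⟩
  have hmem : ∀ f, Ideal.Quotient.mk J f ∈ m ↔ f ∈ m0 k σ := by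
    intro f
    rw [hm, RingHom.mem_ker, RingHom.mem_ker, he]
  have h1 : Ideal.Quotient.mk J g ∈ m ^ (N + 1) := by
    have h2 : Ideal.map (Ideal.Quotient.mk J) (m0 k σ) ≤ m :=
      Ideal.map_le_iff_le_comap.mpr fun f hf => (hmem f).mpr hf
    have h3 : Ideal.Quotient.mk J g ∈ Ideal.map (Ideal.Quotient.mk J) (m0 k σ ^ (N + 1)) :=
      Ideal.mem_map_of_mem _ hg
    rw [Ideal.map_pow] at h3
    exact Ideal.pow_right_mono h2 _ h3
  have h4 : algebraMap _ (Localization.AtPrime m) (Ideal.Quotient.mk J g) = 0 := by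
    have h5 : algebraMap _ (Localization.AtPrime m) (Ideal.Quotient.mk J g) ∈
        IsLocalRing.maximalIdeal (Localization.AtPrime m) ^ (N + 1) := by
      rw [← Localization.AtPrime.map_eq_maximalIdeal, ← Ideal.map_pow]
      exact Ideal.mem_map_of_mem _ h1
    rw [hN'] at h5
    exact h5
  rw [IsLocalization.map_eq_zero_iff m.primeCompl] at h4
  obtain ⟨s, hs⟩ := h4
  obtain ⟨t, ht⟩ := Ideal.Quotient.mk_surjective (s : MvPolynomial σ k ⧸ J)
  rw [← ht, ← map_mul, Ideal.Quotient.eq_zero_iff_mem] at hs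
  have ht0 : constantCoeff t ≠ 0 := by
    intro h
    apply s.2
    rw [← ht]
    exact (hmem t).mpr h
  have h6 : t - C (constantCoeff t) ∈ m0 k σ := by
    rw [RingHom.mem_ker, map_sub, constantCoeff_C, sub_self]
  have h7 : C (constantCoeff t) * g ∈ J ⊔ m0 k σ ^ (N + 1 + 1) := by
    have h8 : C (constantCoeff t) * g = t * g - (t - C (constantCoeff t)) * g := by ring
    rw [h8]
    refine Ideal.sub_mem _ (Ideal.mem_sup_left hs) (Ideal.mem_sup_right ?_)
    rw [pow_succ' _ (N + 1)]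
    exact Ideal.mul_mem_mul h6 hg
  have h9 : g = C (constantCoeff t)⁻¹ * (C (constantCoeff t) * g) := by
    rw [← mul_assoc, ← C_mul, inv_mul_cancel₀ ht0, C_1, one_mul]
  rw [h9]
  exact Ideal.mul_mem_left _ _ h7

end Vale.Agent.P292.Mo
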