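import Mathlib

/-! # P292, block Mo (a1): number of generators of an `𝔪`-primary ideal of a polynomial ring

If `𝔪 ^ N ≤ J ≤ 𝔪` (`𝔪` = polynomials without constant term) and `J ≤ (f) + 𝔪 J`, `f : ι → J`, then
`card σ ≤ card ι` (Krull's height theorem and Nakayama). -/

open MvPolynomial

namespace Vale.Agent.P292.Mo

variable {k : Type*} [Field k] {σ : Type*}

/-- the prime ideal generated by the variables in `s` -/
private noncomputable def krP (k : Type*) [Field k] {σ : Type*} [DecidableEq σ] (s : Finset σ) :
    Ideal (MvPolynomial σ k) :=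
  RingHom.ker (aeval (R := k) fun j => if j ∈ s then (0 : MvPolynomial σ k) else X j)

private lemma krP_prime [DecidableEq σ] (s : Finset σ) : (krP k s).IsPrime :=
  RingHom.ker_isPrime _

private lemma krP_lt [DecidableEq σ] {s : Finset σ} {a : σ} (ha : a ∉ s) :
    krP k s < krP k (insert a s) := by
  refine lt_of_le_of_ne ?_ ?_
  · intro x hx
    have hx' : aeval (R := k) (fun j => if j ∈ s then (0 : MvPolynomial σ k) else X j) x = 0 := hx
    show aeval (R := k) (fun j => if j ∈ insert a s then (0 : MvPolynomial σ k) else X j) x = 0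
    have hc : (aeval (R := k) fun j => if j ∈ insert a s then (0 : MvPolynomial σ k) else X j) =
        (aeval (R := k) fun j => if j = a then (0 : MvPolynomial σ k) else X j).comp
          (aeval (R := k) fun j => if j ∈ s then (0 : MvPolynomial σ k) else X j) := by
      refine MvPolynomial.algHom_ext fun j => ?_
      by_cases h1 : j = a
      · subst h1
        simp [ha]
      · by_cases h2 : j ∈ s <;> simp [h1, h2]
    rw [hc, AlgHom.comp_apply, hx', map_zero]
  · intro h
    have h1 : (X a : MvPolynomial σ k) ∈ krP k (insert a s) := by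
      show aeval (R := k) (fun j => if j ∈ insert a s then (0 : MvPolynomial σ k) else X j) (X a) = 0
      simp
    rw [← h] at h1
    have h2 : aeval (R := k) (fun j => if j ∈ s then (0 : MvPolynomial σ k) else X j) (X a) = 0 := h1
    simp [ha] at h2

private lemma krP_height [DecidableEq σ] (s : Finset σ) : (s.card : ℕ∞) ≤ (krP k s).height := by
  induction s using Finset.induction_on with
  | empty => simp
  | insert a s ha ih =>
    have := krP_prime (k := k) s
    have := krP_prime (k := k) (insert a s)
    rw [Finset.card_insert_of_notMem ha]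
    have h := Ideal.height_add_one_le_of_lt_of_isPrime (krP_lt (k := k) ha)
    push_cast
    exact (add_le_add_left ih 1).trans h

/-- the height of the ideal of polynomials without constant term -/
theorem krull_card_le_height [Fintype σ] :
    (Fintype.card σ : ℕ∞) ≤ (RingHom.ker (constantCoeff (R := k) (σ := σ))).height := by
  classical
  have h := krP_height (k := k) (Finset.univ : Finset σ)
  have e : krP k (Finset.univ : Finset σ) = RingHom.ker (constantCoeff (R := k) (σ := σ)) := by
    ext x
    show aeval (R := k) (fun j => if j ∈ Finset.univ then (0 : MvPolynomial σ k) else X j) x = 0 ↔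
      constantCoeff x = 0
    have : (fun j : σ => if j ∈ Finset.univ then (0 : MvPolynomial σ k) else X j) = fun _ => 0 := by
      funext j
      simp
    rw [this, aeval_zero']
    simp
  rw [e] at h
  simpa using h

/-- `𝔪`-primary ideals of `k[σ]` need at least `card σ` generators, even modulo `𝔪 J`. -/
theorem card_le_of_span [Fintype σ] {ι : Type*} [Fintype ι] (J : Ideal (MvPolynomial σ k)) {N : ℕ}
    (hN : RingHom.ker (constantCoeff (R := k) (σ := σ)) ^ N ≤ J)
    (hJ : J ≤ RingHom.ker (constantCoeff (R := k) (σ := σ))) (f : ι → MvPolynomial σ k)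
    (hf : ∀ i, f i ∈ J)
    (h : J ≤ Ideal.span (Set.range f) ⊔ RingHom.ker (constantCoeff (R := k) (σ := σ)) * J) :
    Fintype.card σ ≤ Fintype.card ι := by
  classical
  set 𝔪 := RingHom.ker (constantCoeff (R := k) (σ := σ)) with h𝔪
  have hmp : 𝔪.IsPrime := RingHom.ker_isPrime _
  have hfg : J.FG := IsNoetherian.noetherian J
  obtain ⟨r, hr1, hr2⟩ := Submodule.exists_sub_one_mem_and_smul_le_of_fg_of_le_sup
    (I := 𝔪) (N := Ideal.span (Set.range f)) (N' := J) (P := J) hfg le_rfl (by
      rw [smul_eq_mul]
      exact h)
  have hmin : 𝔪 ∈ (Ideal.span (Set.range f)).minimalPrimes := by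
    refine ⟨⟨hmp, Ideal.span_le.2 ?_⟩, ?_⟩
    · rintro _ ⟨i, rfl⟩
      exact hJ (hf i)
    · rintro p ⟨hp, hpI⟩ hpm
      have hrp : r ∉ p := by
        intro hr
        have h1 : (1 : MvPolynomial σ k) ∈ 𝔪 := by
          have := 𝔪.sub_mem (hpm hr) hr1
          simpa using this
        exact hmp.ne_top ((Ideal.eq_top_iff_one _).2 h1)
      have hpow : 𝔪 ^ N ≤ p := by
        intro x hx
        have hx1 : r * x ∈ Ideal.span (Set.range f) := hr2 ⟨x, hN hx, rfl⟩
        exact (hp.mem_or_mem (hpI hx1)).resolve_left hrp
      exact hp.le_of_pow_le hpow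
  have h1 := Ideal.height_le_card_of_mem_minimalPrimes_span (Set.finite_range f) hmin
  have h2 := krull_card_le_height (k := k) (σ := σ)
  have h3 : (Fintype.card σ : ℕ∞) ≤ ((Set.range f).ncard : ℕ∞) := h2.trans h1
  have h4 : Fintype.card σ ≤ (Set.range f).ncard := by exact_mod_cast h3
  refine h4.trans ?_
  have := Set.ncard_image_le (s := Set.univ) (f := f) Set.finite_univ
  simpa [Set.image_univ, Set.ncard_univ, Nat.card_eq_fintype_card] using this

end Vale.Agent.P292.Mo
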