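import Vale.Agent.P292.Mo.DefS0
import Vale.Agent.P292.Mo.Krull

/-! # Part II.a: an artinian base gives a small extension with enough obstructions -/

namespace Vale.Agent.P292.Mo

open TensorProduct MvPolynomial

section sc
variable {k : Type*} [Field k] {σ : Type*}

/-- evaluation at the origin -/
noncomputable def scEv (k : Type*) [Field k] (σ : Type*) : MvPolynomial σ k →ₐ[k] k :=
  MvPolynomial.aeval fun _ => 0

theorem scEv_apply (f : MvPolynomial σ k) : scEv k σ f = constantCoeff f := by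
  rw [scEv, MvPolynomial.aeval_zero']
  rfl

/-- evaluation at the origin of a quotient -/
noncomputable def scE (A : Ideal (MvPolynomial σ k)) (hA : A ≤ m0 k σ) :
    (MvPolynomial σ k ⧸ A) →ₐ[k] k :=
  Ideal.Quotient.liftₐ A (scEv k σ) (fun f hf => by
    rw [scEv_apply]
    exact hA hf)

theorem scE_mk (A : Ideal (MvPolynomial σ k)) (hA : A ≤ m0 k σ) (f : MvPolynomial σ k) :
    scE A hA (Ideal.Quotient.mk A f) = constantCoeff f := by
  rw [← scEv_apply]
  rfl

theorem sc_sub_mem (f : MvPolynomial σ k) : f - C (constantCoeff f) ∈ m0 k σ := by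
  rw [RingHom.mem_ker, map_sub, constantCoeff_C, sub_self]

theorem sc_isSmall (L : Ideal (MvPolynomial σ k)) (hL : L ≤ m0 k σ) {N : ℕ}
    (hN : m0 k σ ^ N ≤ L) :
    IsSmall (Ideal.Quotient.factorₐ k (Ideal.mul_le_right : m0 k σ * L ≤ L))
      (scE (m0 k σ * L) (Ideal.mul_le_right.trans hL)) := by
  constructor
  · exact Ideal.Quotient.factor_surjective (Ideal.mul_le_right : m0 k σ * L ≤ L)
  · intro w hw a
    obtain ⟨y, rfl⟩ := Ideal.Quotient.mk_surjective w
    obtain ⟨z, rfl⟩ := Ideal.Quotient.mk_surjective a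
    have hy : y ∈ L := Ideal.Quotient.eq_zero_iff_mem.mp hw
    rw [scE_mk, ← map_mul, Algebra.smul_def]
    change _ = Ideal.Quotient.mk _ (algebraMap k (MvPolynomial σ k) (constantCoeff z)) *
      Ideal.Quotient.mk _ y
    rw [← map_mul, Ideal.Quotient.mk_eq_mk_iff_sub_mem, ← sub_mul]
    exact Ideal.mul_mem_mul (sc_sub_mem z) hy
  · intro w hw
    obtain ⟨y, rfl⟩ := Ideal.Quotient.mk_surjective w
    have hy : y ∈ L := Ideal.Quotient.eq_zero_iff_mem.mp hw
    rw [scE_mk]
    exact hL hy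
  · refine ⟨N + 1, ?_⟩
    rw [Ideal.zero_eq_bot, ← le_bot_iff]
    have h1 : RingHom.ker (scE (m0 k σ * L) (Ideal.mul_le_right.trans hL)) ≤
        (m0 k σ).map (Ideal.Quotient.mk (m0 k σ * L)) := by
      intro w hw
      obtain ⟨y, rfl⟩ := Ideal.Quotient.mk_surjective w
      refine Ideal.mem_map_of_mem _ ?_
      have h2 : scE (m0 k σ * L) (Ideal.mul_le_right.trans hL) (Ideal.Quotient.mk _ y) = 0 := hw
      rwa [scE_mk] at h2
    refine (Ideal.pow_right_mono h1 (N + 1)).trans ?_
    rw [← Ideal.map_pow, Ideal.map_le_iff_le_comap, pow_succ']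
    refine (Ideal.mul_mono_right hN).trans ?_
    intro y hy
    rw [Ideal.mem_comap, Ideal.mem_bot]
    exact Ideal.Quotient.eq_zero_iff_mem.mpr hy

end sc

section obs
variable {k : Type*} [Field k] {σ : Type*} [Fintype σ]

/-- the functionals given by tangent vectors -/
noncomputable def scPhi (J : Ideal (MvPolynomial σ k)) :
    (σ → k) →ₗ[k] (↥(J.restrictScalars k) →ₗ[k] k) where
  toFun c := - (∑ s, c s • (MvPolynomial.lcoeff k (Finsupp.single s 1))) ∘ₗ
    (J.restrictScalars k).subtype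
  map_add' a b := by
    ext f
    simp [add_mul, Finset.sum_add_distrib]
    ring
  map_smul' a b := by
    ext f
    simp [mul_assoc, Finset.mul_sum]

theorem scPhi_apply (J : Ideal (MvPolynomial σ k)) (c : σ → k) (f : ↥(J.restrictScalars k)) :
    scPhi J c f = - ∑ s, c s * coeff (Finsupp.single s 1) (f : MvPolynomial σ k) := by
  simp [scPhi]

theorem ker_scPhi (J : Ideal (MvPolynomial σ k)) : LinearMap.ker (scPhi J) = tanJ J := by
  ext c
  rw [LinearMap.mem_ker, mem_tanJ]
  constructor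
  · intro h f hf
    have h1 := LinearMap.congr_fun h ⟨f, hf⟩
    rw [scPhi_apply, LinearMap.zero_apply, neg_eq_zero] at h1
    exact h1
  · intro h
    ext f
    rw [scPhi_apply, h f f.2, neg_zero, LinearMap.zero_apply]

/-- the subspace `L / 𝔪 L` -/
noncomputable def scW (L : Ideal (MvPolynomial σ k)) :
    Submodule k (MvPolynomial σ k ⧸ (m0 k σ * L)) :=
  (L.restrictScalars k).map (Ideal.Quotient.mkₐ k (m0 k σ * L)).toLinearMap

omit [Fintype σ] in
theorem mk_mem_scW {L : Ideal (MvPolynomial σ k)} {y : MvPolynomial σ k} (hy : y ∈ L) :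
    Ideal.Quotient.mk (m0 k σ * L) y ∈ scW L := ⟨y, hy, rfl⟩

/-- the map `J → L / 𝔪 L` -/
noncomputable def scRes (J L : Ideal (MvPolynomial σ k)) (h : J ≤ L) :
    ↥(J.restrictScalars k) →ₗ[k] ↥(scW L) :=
  ((Ideal.Quotient.mkₐ k (m0 k σ * L)).toLinearMap ∘ₗ (J.restrictScalars k).subtype).codRestrict
    (scW L) (fun y => mk_mem_scW (h y.2))

omit [Fintype σ] in
theorem scRes_coe (J L : Ideal (MvPolynomial σ k)) (h : J ≤ L) (y : ↥(J.restrictScalars k)) :
    ((scRes J L h y : ↥(scW L)) : MvPolynomial σ k ⧸ (m0 k σ * L)) =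
      Ideal.Quotient.mk (m0 k σ * L) (y : MvPolynomial σ k) := rfl

omit [Fintype σ] in
theorem scRes_surjective (J L : Ideal (MvPolynomial σ k)) (h : J ≤ L)
    (hJL : L ≤ J ⊔ m0 k σ * L) : Function.Surjective (scRes J L h) := by
  rintro ⟨w, y, hy, rfl⟩
  obtain ⟨a, ha, b, hb, hab⟩ := Submodule.mem_sup.mp (hJL hy)
  refine ⟨⟨a, ha⟩, Subtype.ext ?_⟩
  rw [scRes_coe]
  change Ideal.Quotient.mk _ a = Ideal.Quotient.mk _ y
  rw [Ideal.Quotient.mk_eq_mk_iff_sub_mem, ← hab]
  have : a - (a + b) = -b := by ring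
  rw [this]
  exact neg_mem hb

theorem scW_finite (L : Ideal (MvPolynomial σ k)) : Module.Finite k (scW L) := by
  obtain ⟨S, hS⟩ := (IsNoetherian.noetherian L : L.FG)
  have h1 : scW L ≤ Submodule.span k
      ((fun f => Ideal.Quotient.mk (m0 k σ * L) f) '' (S : Set (MvPolynomial σ k))) := by
    rintro _ ⟨y, hy, rfl⟩
    have hy' : y ∈ Submodule.span (MvPolynomial σ k) (S : Set (MvPolynomial σ k)) := by
      rw [hS]; exact hy
    clear hy
    induction hy' using Submodule.span_induction with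
    | mem x hx => exact Submodule.subset_span ⟨x, hx, rfl⟩
    | zero => rw [map_zero]; exact zero_mem _
    | add x y _ _ hx hy => rw [map_add]; exact add_mem hx hy
    | smul a x hx hx' =>
      have hxL : x ∈ L := by rw [← hS]; exact hx
      have h2 : (Ideal.Quotient.mkₐ k (m0 k σ * L)).toLinearMap (a • x) =
          constantCoeff a • (Ideal.Quotient.mkₐ k (m0 k σ * L)).toLinearMap x := by
        rw [← map_smul]
        change Ideal.Quotient.mk _ (a • x) = Ideal.Quotient.mk _ (constantCoeff a • x)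
        rw [Ideal.Quotient.mk_eq_mk_iff_sub_mem, smul_eq_mul, Algebra.smul_def, ← sub_mul]
        exact Ideal.mul_mem_mul (sc_sub_mem a) hxL
      rw [h2]
      exact Submodule.smul_mem _ _ hx'
  have h3 : Module.Finite k (Submodule.span k
      ((fun f => Ideal.Quotient.mk (m0 k σ * L) f) '' (S : Set (MvPolynomial σ k)))) :=
    Module.Finite.span_of_finite k (S.finite_toSet.image _)
  exact Module.Finite.of_injective (Submodule.inclusion h1) (Submodule.inclusion_injective h1)

theorem card_le_scW (L : Ideal (MvPolynomial σ k)) (hL : L ≤ m0 k σ) {N : ℕ}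
    (hN : m0 k σ ^ N ≤ L) : Fintype.card σ ≤ Module.finrank k (scW L) := by
  have hfin := scW_finite L
  let b := Module.finBasis k (scW L)
  have hb : ∀ i, ∃ y ∈ L, Ideal.Quotient.mk (m0 k σ * L) y =
      ((b i : scW L) : MvPolynomial σ k ⧸ (m0 k σ * L)) := by
    intro i
    obtain ⟨y, hy, hyb⟩ := (b i).2
    exact ⟨y, hy, hyb⟩
  choose f hf hfb using hb
  have h := card_le_of_span (k := k) (σ := σ) L hN hL f hf ?_
  · rwa [Fintype.card_fin] at h
  · intro y hy
    have h1 := b.sum_repr ⟨_, mk_mem_scW hy⟩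
    have h2 := congrArg (scW L).subtype h1
    rw [map_sum] at h2
    simp only [map_smul, Submodule.subtype_apply] at h2
    have h3 : y - ∑ i, C (b.repr ⟨_, mk_mem_scW hy⟩ i) * f i ∈ m0 k σ * L := by
      rw [← Ideal.Quotient.mk_eq_mk_iff_sub_mem]
      refine h2.symm.trans ?_
      rw [map_sum]
      refine Finset.sum_congr rfl fun i _ => ?_
      rw [← hfb, ← MvPolynomial.smul_eq_C_mul]
      rfl
    have h4 : y = ∑ i, C (b.repr ⟨_, mk_mem_scW hy⟩ i) * f i +
        (y - ∑ i, C (b.repr ⟨_, mk_mem_scW hy⟩ i) * f i) := by ring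
    rw [h4]
    refine Ideal.add_mem _ ?_ (Ideal.mem_sup_right h3)
    refine Ideal.sum_mem _ fun i _ => Ideal.mul_mem_left _ _ ?_
    exact Ideal.mem_sup_left (Ideal.subset_span ⟨i, rfl⟩)

/-- **Piece (C).** -/
theorem exists_small_obs (J : Ideal (MvPolynomial σ k)) (hJ : J ≤ m0 k σ) {N : ℕ}
    (hN : 0 < N) (hart : m0 k σ ^ N ≤ J ⊔ m0 k σ ^ (N + 1)) :
    ∃ L : Ideal (MvPolynomial σ k), J ≤ L ∧ L ≤ m0 k σ ∧
      ∃ e₁ : (MvPolynomial σ k ⧸ (m0 k σ * L)) →ₐ[k] k,
        (∀ f, e₁ (Ideal.Quotient.mk _ f) = MvPolynomial.constantCoeff f) ∧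
        IsSmall (Ideal.Quotient.factorₐ k (Ideal.mul_le_right : m0 k σ * L ≤ L)) e₁ ∧
        ∀ {E : Type*} [AddCommGroup E] [Module k E] [Module.Finite k E]
          (obs : Module.Dual k (MvPolynomial σ k ⧸ (m0 k σ * L)) →ₗ[k] E),
          (∀ l, obs l = 0 → ∃ c : σ → k, ∀ f ∈ J,
            l (Ideal.Quotient.mk _ f) = - ∑ s, c s * coeff (Finsupp.single s 1) f) →
          Module.finrank k (tanJ J) ≤ Module.finrank k E := by
  classical
  let L : Ideal (MvPolynomial σ k) := J ⊔ m0 k σ ^ N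
  have hJL : J ≤ L := le_sup_left
  have hNL : m0 k σ ^ N ≤ L := le_sup_right
  have hL : L ≤ m0 k σ := sup_le hJ (Ideal.pow_le_self hN.ne')
  have hLJ : L ≤ J ⊔ m0 k σ * L := by
    refine sup_le le_sup_left (hart.trans (sup_le_sup_left ?_ J))
    rw [pow_succ']
    exact Ideal.mul_mono_right hNL
  refine ⟨L, hJL, hL, scE (m0 k σ * L) (Ideal.mul_le_right.trans hL), scE_mk _ _,
    sc_isSmall L hL hNL, ?_⟩
  intro E _ _ _ obs hobs
  have hfin := scW_finite L
  have hcard := card_le_scW L hL hNL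
  obtain ⟨p, hp⟩ := (scW L).subtype.exists_leftInverse_of_injective (by simp)
  have hp' : ∀ w : scW L, p (w : MvPolynomial σ k ⧸ (m0 k σ * L)) = w := fun w =>
    LinearMap.congr_fun hp w
  -- obstructions of functionals on `W`
  let obs' : Module.Dual k (scW L) →ₗ[k] E := obs ∘ₗ (Module.Dual.transpose p)
  -- restriction to `J`
  let Res : Module.Dual k (scW L) →ₗ[k] (↥(J.restrictScalars k) →ₗ[k] k) :=
    LinearMap.lcomp k k (scRes J L hJL)
  have hRes : Function.Injective Res := by
    intro a b hab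
    ext w
    obtain ⟨y, rfl⟩ := scRes_surjective J L hJL hLJ w
    exact LinearMap.congr_fun hab y
  have hmap : (LinearMap.ker obs').map Res ≤ LinearMap.range (scPhi J) := by
    rintro _ ⟨l, hl, rfl⟩
    obtain ⟨c, hc⟩ := hobs (l ∘ₗ p) hl
    refine ⟨c, ?_⟩
    ext f
    rw [scPhi_apply, ← hc f f.2]
    change l (p (Ideal.Quotient.mk _ (f : MvPolynomial σ k))) = l (scRes J L hJL f)
    rw [← scRes_coe J L hJL f, hp']
  have e1 := (LinearMap.ker obs').finrank_quotient_add_finrank
  have e2 := obs'.quotKerEquivRange.finrank_eq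
  have e3 : Module.finrank k (LinearMap.range obs') ≤ Module.finrank k E :=
    Submodule.finrank_le _
  have e4 := (scPhi J).finrank_range_add_finrank_ker
  rw [ker_scPhi, Module.finrank_fintype_fun_eq_card] at e4
  have e5 : Module.finrank k ((LinearMap.ker obs').map Res) =
      Module.finrank k (LinearMap.ker obs') :=
    (Submodule.equivMapOfInjective Res hRes (LinearMap.ker obs')).symm.finrank_eq
  have e6 : Module.finrank k ((LinearMap.ker obs').map Res) ≤
      Module.finrank k (LinearMap.range (scPhi J)) := Submodule.finrank_mono hmap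
  have e7 : Module.finrank k (Module.Dual k (scW L)) = Module.finrank k (scW L) :=
    Subspace.dual_finrank_eq
  omega

end obs

end Vale.Agent.P292.Mo
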