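import Vale.Agent.P292.Mo.Defs

/-! # Part II: the tangent space `T0` and the obstruction space `Ob` of a curve with marks -/

namespace Vale.Agent.P292.Mo

universe u v w

section
variable {k : Type u} [Field k] {R : Type v} [CommRing R] [Algebra k R]
  (𝒜 : ℕ → Submodule k R) {K : Type w} [Field K] [Algebra k K]

/-- `k`-linear derivations `R → K` over `φ`. -/
def DerS (φ : R →ₐ[k] K) : Submodule k (R →ₗ[k] K) where
  carrier := {δ | ∀ r s, δ (r * s) = φ r * δ s + φ s * δ r}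
  add_mem' := fun {a b} ha hb r s => by
    simp only [LinearMap.add_apply, ha r s, hb r s]; ring
  zero_mem' := fun r s => by simp
  smul_mem' := fun c a ha r s => by
    simp only [LinearMap.smul_apply, ha r s, smul_add, mul_smul_comm]

theorem mem_DerS {φ : R →ₐ[k] K} {δ : R →ₗ[k] K} :
    δ ∈ DerS φ ↔ ∀ r s, δ (r * s) = φ r * δ s + φ s * δ r := Iff.rfl

/-- Derivations with values in `I` (the ideal of the marks in the first chart). -/
def Der0 (φ : R →ₐ[k] K) (I : Submodule k K) : Submodule k (R →ₗ[k] K) where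
  carrier := {δ | δ ∈ DerS φ ∧ ∀ r, δ r ∈ I}
  add_mem' := fun ha hb => ⟨add_mem ha.1 hb.1, fun r => I.add_mem (ha.2 r) (hb.2 r)⟩
  zero_mem' := ⟨zero_mem _, fun _ => I.zero_mem⟩
  smul_mem' := fun c _ ha => ⟨Submodule.smul_mem _ c ha.1, fun r => I.smul_mem c (ha.2 r)⟩

theorem mem_Der0 {φ : R →ₐ[k] K} {I : Submodule k K} {δ : R →ₗ[k] K} :
    δ ∈ Der0 φ I ↔ δ ∈ DerS φ ∧ ∀ r, δ r ∈ I := Iff.rfl

/-- Derivations which are regular on the second chart; `u` is the cocycle. -/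
def Der1 (φ : R →ₐ[k] K) (A₁ : Subalgebra k K) (u : K) : Submodule k (R →ₗ[k] K) where
  carrier := {δ | δ ∈ DerS φ ∧ ∀ n, ∀ r ∈ 𝒜 n, u ^ n * δ r ∈ A₁}
  add_mem' := fun ha hb => ⟨add_mem ha.1 hb.1, fun n r hr => by
    rw [LinearMap.add_apply, mul_add]; exact add_mem (ha.2 n r hr) (hb.2 n r hr)⟩
  zero_mem' := ⟨zero_mem _, fun n r _ => by simp⟩
  smul_mem' := fun c _ ha => ⟨Submodule.smul_mem _ c ha.1, fun n r hr => by
    rw [LinearMap.smul_apply, mul_smul_comm]; exact A₁.smul_mem (ha.2 n r hr) c⟩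

theorem mem_Der1 {φ : R →ₐ[k] K} {A₁ : Subalgebra k K} {u : K} {δ : R →ₗ[k] K} :
    δ ∈ Der1 𝒜 φ A₁ u ↔ δ ∈ DerS φ ∧ ∀ n, ∀ r ∈ 𝒜 n, u ^ n * δ r ∈ A₁ := Iff.rfl

/-- The tangent space of the deformations with fixed values at the marks. -/
def T0 (φ : R →ₐ[k] K) (I : Submodule k K) (A₁ : Subalgebra k K) (u : K) :
    Submodule k (R →ₗ[k] K) := Der0 φ I ⊓ Der1 𝒜 φ A₁ u

/-- The obstruction space `DerS / (Der0 + Der1)` of the deformations with fixed values at the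
marks, as a subspace of `Hom(R, K) / (Der0 + Der1)`. -/
def ObS (φ : R →ₐ[k] K) (I : Submodule k K) (A₁ : Subalgebra k K) (u : K) :
    Submodule k ((R →ₗ[k] K) ⧸ (Der0 φ I ⊔ Der1 𝒜 φ A₁ u)) :=
  (DerS φ).map (Der0 φ I ⊔ Der1 𝒜 φ A₁ u).mkQ

end

end Vale.Agent.P292.Mo
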