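import Vale.Agent.P292.Mo.DefS0
import Vale.Agent.P292.Mo.DefT

/-! # Part II.a (D): the tangent space `T0` embeds in the tangent space of the family. -/

namespace Vale.Agent.P292.Mo

open TensorProduct MvPolynomial

section dual

variable {k : Type*} [Field k] {R : Type*} [CommRing R] [Algebra k R]
  {K : Type*} [Field K] [Algebra k K]

theorem defsd_map_one {φ : R →ₐ[k] K} {δ : R →ₗ[k] K}
    (hδ : ∀ r s, δ (r * s) = φ r * δ s + φ s * δ r) : δ 1 = 0 := by
  have h2 := hδ 1 1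
  rw [mul_one, map_one φ, one_mul] at h2
  have h3 : δ 1 + 0 = δ 1 + δ 1 := by rw [add_zero]; exact h2
  exact (add_left_cancel h3).symm

/-- the homomorphism to the dual numbers given by a derivation -/
noncomputable def dualHom (φ : R →ₐ[k] K) (δ : R →ₗ[k] K)
    (hδ : ∀ r s, δ (r * s) = φ r * δ s + φ s * δ r) :
    R →ₐ[k] DualNumber k ⊗[k] K :=
  AlgHom.ofLinearMap
    ((TensorProduct.mk k (DualNumber k) K 1).comp φ.toLinearMap +
      (TensorProduct.mk k (DualNumber k) K DualNumber.eps).comp δ)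
    (by
      simp only [LinearMap.add_apply, LinearMap.comp_apply, TensorProduct.mk_apply,
        AlgHom.toLinearMap_apply, map_one φ, defsd_map_one hδ, tmul_zero, add_zero]
      rfl)
    (by
      intro r s
      have he : (DualNumber.eps : DualNumber k) * DualNumber.eps = 0 := DualNumber.eps_mul_eps
      simp only [LinearMap.add_apply, LinearMap.comp_apply, TensorProduct.mk_apply,
        AlgHom.toLinearMap_apply, map_mul φ, hδ, tmul_add, add_mul, mul_add,
        Algebra.TensorProduct.tmul_mul_tmul, one_mul, mul_one, he, zero_tmul, add_zero]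
      rw [mul_comm (δ r) (φ s), add_assoc, add_comm (DualNumber.eps ⊗ₜ[k] (φ s * δ r))])

theorem dualHom_apply (φ : R →ₐ[k] K) (δ : R →ₗ[k] K)
    (hδ : ∀ r s, δ (r * s) = φ r * δ s + φ s * δ r) (r : R) :
    dualHom φ δ hδ r = 1 ⊗ₜ φ r + DualNumber.eps ⊗ₜ δ r := rfl

/-- A derivation is determined by its values at the generators. -/
theorem defsd_ext {φ : R →ₐ[k] K} {M : ℕ} {x : Fin M → R}
    (hgen : Function.Surjective (MvPolynomial.aeval (R := k) x)) {δ : R →ₗ[k] K}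
    (hδ : ∀ r s, δ (r * s) = φ r * δ s + φ s * δ r) (h : ∀ i, δ (x i) = 0) : δ = 0 := by
  refine LinearMap.ext fun r => ?_
  obtain ⟨f, rfl⟩ := hgen r
  rw [LinearMap.zero_apply]
  induction f using MvPolynomial.induction_on with
  | C a =>
    rw [MvPolynomial.aeval_C, Algebra.algebraMap_eq_smul_one, map_smul, defsd_map_one hδ,
      smul_zero]
  | add p q hp hq => rw [map_add, map_add, hp, hq, add_zero]
  | mul_X p i hp => rw [map_mul, hδ, hp, MvPolynomial.aeval_X, h i, mul_zero, mul_zero, add_zero]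

end dual

section main

variable {k : Type*} [Field k] {R : Type*} [CommRing R] [Algebra k R]
  {𝒜 : ℕ → Submodule k R} [GradedAlgebra 𝒜] {K : Type*} [Field K] [Algebra k K]

omit [GradedAlgebra 𝒜] in
theorem defsd_der {A₁ : Subalgebra k K} {u : K} {I : Submodule k K} {φ : R →ₐ[k] K}
    {δ : R →ₗ[k] K} (hδ : δ ∈ T0 𝒜 φ I A₁ u) : ∀ r s, δ (r * s) = φ r * δ s + φ s * δ r :=
  hδ.1.1

omit [GradedAlgebra 𝒜] in
theorem defsd_mem {A₀ A₁ : Subalgebra k K} {u : K} {I : Submodule k K}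
    (hI : ∀ a ∈ I, a ∈ A₀) {φ : R →ₐ[k] K} {δ : R →ₗ[k] K} (hδ : δ ∈ T0 𝒜 φ I A₁ u) {n : ℕ}
    {r : R} (hr : r ∈ 𝒜 n) : δ r ∈ I ⊓ Sec A₀ A₁ u n :=
  ⟨hδ.1.2 r, mem_Sec.2 ⟨hI _ (hδ.1.2 r), hδ.2.2 n r hr⟩⟩

/-- The coordinates of a tangent vector. -/
noncomputable def defsdMap {M : ℕ} {x : Fin M → R} {d : Fin M → ℕ} (hx : ∀ i, x i ∈ 𝒜 (d i))
    {A₀ A₁ : Subalgebra k K} {u : K} {I : Submodule k K} (hI : ∀ a ∈ I, a ∈ A₀)
    {φ : R →ₐ[k] K} [∀ i, Module.Finite k ↥(I ⊓ Sec A₀ A₁ u (d i))] :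
    ↥(T0 𝒜 φ I A₁ u) →ₗ[k] (Idx (fun i => I ⊓ Sec A₀ A₁ u (d i)) → k) where
  toFun δ s := (Module.finBasis k ↥(I ⊓ Sec A₀ A₁ u (d s.1))).repr
    ⟨δ.1 (x s.1), defsd_mem hI δ.2 (hx s.1)⟩ s.2
  map_add' a b := by
    funext s
    rw [Pi.add_apply, ← Finsupp.add_apply, ← map_add]
    rfl
  map_smul' a b := by
    funext s
    rw [Pi.smul_apply, RingHom.id_apply, ← Finsupp.smul_apply, ← map_smul]
    rfl

/-- (D) -/
theorem finrank_T0_le {M : ℕ} (x : Fin M → R) (d : Fin M → ℕ) (hx : ∀ i, x i ∈ 𝒜 (d i))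
    (hgen : Function.Surjective (MvPolynomial.aeval (R := k) x))
    (A₀ A₁ : Subalgebra k K) (u : K) (I : Submodule k K) (hI : ∀ a ∈ I, a ∈ A₀) (φ : R →ₐ[k] K)
    [∀ i, Module.Finite k ↥(I ⊓ Sec A₀ A₁ u (d i))] :
    Module.finrank k (T0 𝒜 φ I A₁ u) ≤
      Module.finrank k (tanJ (eqs x (fun i => I ⊓ Sec A₀ A₁ u (d i)) φ)) := by
  set V : Fin M → Submodule k K := fun i => I ⊓ Sec A₀ A₁ u (d i) with hV
  let Θ := defsdMap (𝒜 := 𝒜) (φ := φ) hx hI (x := x) (u := u) (A₁ := A₁)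
  have hsum : ∀ (δ : ↥(T0 𝒜 φ I A₁ u)) (i : Fin M), δ.1 (x i) =
      ∑ j, Θ δ ⟨i, j⟩ • (Module.finBasis k (V i) j : K) := by
    intro δ i
    have h1 := (Module.finBasis k (V i)).sum_repr ⟨δ.1 (x i), defsd_mem hI δ.2 (hx i)⟩
    have h2 := congrArg Subtype.val h1
    rw [AddSubmonoidClass.coe_finsetSum] at h2
    exact h2.symm
  have hinj : Function.Injective Θ := by
    intro a b hab
    have h1 : (a - b).1 = 0 := defsd_ext hgen (defsd_der (a - b).2) fun i => by
      change a.1 (x i) - b.1 (x i) = 0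
      rw [hsum a i, hsum b i, hab, sub_self]
    exact sub_eq_zero.1 (Subtype.ext h1)
  have hmem : ∀ δ : ↥(T0 𝒜 φ I A₁ u), Θ δ ∈ tanJ (eqs x V φ) := by
    intro δ
    obtain ⟨τ, hτ1, hτ2⟩ := exists_point_of_hom x V φ (B := DualNumber k)
      (dualHom φ δ.1 (defsd_der δ.2)) (fun i => by
        rw [dualHom_apply, add_sub_cancel_left]
        exact tmul_mem_InB _ _ (defsd_mem hI δ.2 (hx i)))
    have hτ3 : ∀ s : Idx V, τ (MvPolynomial.X s) = Θ δ s • (DualNumber.eps : DualNumber k) := by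
      rintro ⟨i, j⟩
      have h1 := hτ2 i
      rw [dualHom_apply, add_right_inj, hsum δ i, tmul_sum] at h1
      have h2 := coord_unique (B := DualNumber k) (Module.finBasis k (V i))
        (t := fun j => Θ δ ⟨i, j⟩ • (DualNumber.eps : DualNumber k))
        (t' := fun j => τ (MvPolynomial.X ⟨i, j⟩)) (by
          rw [← h1]
          refine Finset.sum_congr rfl fun j _ => ?_
          rw [smul_tmul])
      exact (congrFun h2 j).symm
    intro f hf
    have h3 := taylor τ (MvPolynomial.aeval fun _ => 0) (DualNumber.eps : DualNumber k) (Θ δ)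
      (fun s => by rw [MvPolynomial.aeval_X, mul_zero]) DualNumber.eps_mul_eps
      (fun s => by rw [MvPolynomial.aeval_X, zero_add, hτ3]) f
    have h4 : τ f = 0 := hτ1 hf
    rw [h4, MvPolynomial.aeval_zero'] at h3
    have h5 := congrArg TrivSqZeroExt.snd h3
    simp [TrivSqZeroExt.algebraMap_eq_inl] at h5
    exact h5.symm
  exact LinearMap.finrank_le_finrank_of_injective (f := Θ.codRestrict _ hmem)
    (fun a b h => hinj (congrArg Subtype.val h))

end main

end Vale.Agent.P292.Mo
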