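import Vale.Agent.P292.Mo.DefF
import Vale.Agent.P292.Mo.DefE1
import Vale.Agent.P292.Mo.DefSA
import Vale.Agent.P292.Mo.DefSB
import Vale.Agent.P292.Mo.DefSC
import Vale.Agent.P292.Mo.DefSD

/-! # Part II.a: the deformation lemma -/

namespace Vale.Agent.P292.Mo

open TensorProduct MvPolynomial

universe u v w

section admissible
variable {k : Type*} [Field k] {R : Type*} [CommRing R] [Algebra k R] {𝒜 : ℕ → Submodule k R}
  [GradedAlgebra 𝒜] {K : Type*} [Field K] [Algebra k K] {M : ℕ} {x : Fin M → R} {d : Fin M → ℕ}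
  {A₀ A₁ : Subalgebra k K} {u : K} {I : Submodule k K} {φ : R →ₐ[k] K}
  {B : Type*} [CommRing B] [Algebra k B]

theorem exists_dual {ι : Type*} [Fintype ι] [DecidableEq ι] {W : Submodule k K}
    (b : Module.Basis ι k W) (i : ι) :
    ∃ l : K →ₗ[k] k, ∀ j, l (b j : K) = if j = i then 1 else 0 := by
  obtain ⟨p, hp⟩ := W.subtype.exists_leftInverse_of_injective (by simp)
  refine ⟨b.coord i ∘ₗ p, fun j => ?_⟩
  have h3 : p (b j : K) = b j := LinearMap.congr_fun hp (b j)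
  rw [LinearMap.comp_apply, h3, Module.Basis.coord_apply, Module.Basis.repr_self,
    Finsupp.single_apply]

/-- values at the generators -/
theorem chg_pre_sub_mem (x : Fin M → R) (V : Fin M → Submodule k K) [∀ i, Module.Finite k (V i)]
    (φ : R →ₐ[k] K) (τ : MvPolynomial (Idx V) k →ₐ[k] B) (i : Fin M) :
    chg K τ (pre x V φ (X i)) - 1 ⊗ₜ φ (x i) ∈ InB B (V i) := by
  rw [chg_pre_X, add_sub_cancel_left]
  exact Submodule.sum_mem _ fun j _ => tmul_mem_InB B _ (Submodule.coe_mem _)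

/-- values at the closed point -/
theorem chg_pre_zero (x : Fin M → R) (V : Fin M → Submodule k K) [∀ i, Module.Finite k (V i)]
    (φ : R →ₐ[k] K) (τ : MvPolynomial (Idx V) k →ₐ[k] k) (hτ : ∀ s, τ (X s) = 0)
    (f : MvPolynomial (Fin M) k) :
    chg K τ (pre x V φ f) = 1 ⊗ₜ φ (aeval x f) := by
  have h1 : (chg K τ).comp (pre x V φ) =
      ((Algebra.TensorProduct.includeRight : K →ₐ[k] k ⊗[k] K).comp φ).comp (aeval x) := by
    refine MvPolynomial.algHom_ext fun i => ?_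
    rw [AlgHom.comp_apply, chg_pre_X, AlgHom.comp_apply, AlgHom.comp_apply, aeval_X,
      Algebra.TensorProduct.includeRight_apply]
    simp only [hτ, TensorProduct.zero_tmul, Finset.sum_const_zero, add_zero]
  exact DFunLike.congr_fun h1 f

theorem ez_chg {B' : Type*} [CommRing B'] [Algebra k B'] (τ : B →ₐ[k] B') (e : B' →ₐ[k] k)
    (y : B ⊗[k] K) : ez K e (chg K τ y) = ez K (e.comp τ) y := by
  induction y using TensorProduct.induction_on with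
  | zero => simp
  | tmul a b => simp
  | add x y hx hy => rw [map_add, map_add, map_add, hx, hy]

theorem ez_pre (x : Fin M → R) (V : Fin M → Submodule k K) [∀ i, Module.Finite k (V i)]
    (φ : R →ₐ[k] K) (τ : MvPolynomial (Idx V) k →ₐ[k] B) (e : B →ₐ[k] k)
    (hτ : ∀ s, e (τ (X s)) = 0) (f : MvPolynomial (Fin M) k) :
    ez K e (chg K τ (pre x V φ f)) = φ (aeval x f) := by
  rw [ez_chg, ez, AlgHom.comp_apply, chg_pre_zero x V φ (e.comp τ) hτ]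
  simp

theorem lamB_ez (e : B →ₐ[k] k) (l : K →ₗ[k] k) (y : B ⊗[k] K) :
    e (lamB B l y) = l (ez K e y) := by
  induction y using TensorProduct.induction_on with
  | zero => simp
  | tmul a b => simp [mul_comm]
  | add x y hx hy => rw [map_add, map_add, map_add, map_add, hx, hy]

/-- the conditions on the generators imply the conditions everywhere -/
theorem admissible (hx : ∀ i, x i ∈ 𝒜 (d i))
    (hgen : Function.Surjective (MvPolynomial.aeval (R := k) x)) (hu : u ≠ 0)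
    (hI : ∀ a ∈ I, a ∈ A₀) (hIm : ∀ a ∈ A₀, ∀ b ∈ I, a * b ∈ I)
    (hφ : ∀ n, ∀ r ∈ 𝒜 n, φ r ∈ Sec A₀ A₁ u n) (hφ0 : ∀ r, φ r ∈ A₀)
    (ψ : R →ₐ[k] B ⊗[k] K)
    (h : ∀ i, ψ (x i) - 1 ⊗ₜ φ (x i) ∈ InB B (I ⊓ Sec A₀ A₁ u (d i))) :
    (∀ r, ψ r - 1 ⊗ₜ φ r ∈ InB B I) ∧ (∀ n, ∀ r ∈ 𝒜 n, (1 ⊗ₜ (u ^ n)) * ψ r ∈ subB B A₁) ∧
      (∀ n, ∀ r ∈ 𝒜 n, ψ r ∈ InB B (Sec A₀ A₁ u n)) := by
  have hA : ∀ r, ψ r - 1 ⊗ₜ φ r ∈ InB B I := by
    intro r
    obtain ⟨f, rfl⟩ := hgen r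
    exact sub_mem_of_X (x := x) hI hIm φ hφ0 (ψ.comp (aeval x)) (fun i => by
      rw [AlgHom.comp_apply, aeval_X]
      exact InB_mono B inf_le_left (h i)) f
  have hB : ∀ n, ∀ r ∈ 𝒜 n, (1 ⊗ₜ (u ^ n)) * ψ r ∈ subB B A₁ := by
    intro n r hr
    have hpow : ∀ n : ℕ, ((1 : B) ⊗ₜ[k] u) ^ n = 1 ⊗ₜ (u ^ n) := fun n => by
      rw [Algebra.TensorProduct.tmul_pow, one_pow]
    have h1 : ∀ r, tw 𝒜 (1 ⊗ₜ u) ψ r ∈ subB B A₁ := by
      intro r
      obtain ⟨f, rfl⟩ := hgen r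
      refine mem_of_X ((tw 𝒜 (1 ⊗ₜ u) ψ).comp (aeval x)) (subB B A₁) (fun i => ?_) f
      rw [AlgHom.comp_apply, aeval_X, tw_apply 𝒜 _ _ (hx i), hpow]
      have h2 : ψ (x i) = (ψ (x i) - 1 ⊗ₜ φ (x i)) + 1 ⊗ₜ φ (x i) := by rw [sub_add_cancel]
      rw [h2, ← mem_InB_comap (pow_ne_zero _ hu)]
      refine add_mem (InB_mono B (inf_le_right.trans inf_le_right) (h i)) ?_
      exact tmul_mem_InB B _ ((hφ _ _ (hx i)).2)
    rw [← hpow, ← tw_apply 𝒜 _ _ hr]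
    exact h1 r
  refine ⟨hA, hB, fun n r hr => ?_⟩
  refine mem_InB_inf _ ?_ ((mem_InB_comap (pow_ne_zero _ hu)).2 (hB n r hr))
  have h2 : ψ r = (ψ r - 1 ⊗ₜ φ r) + 1 ⊗ₜ φ r := by rw [sub_add_cancel]
  rw [h2]
  exact add_mem (InB_mono B (fun a ha => hI a ha) (hA r)) (tmul_mem_InB B _ (hφ0 _))

end admissible

/-- the obstruction map -/
theorem exists_obs {k : Type*} [Field k] {R : Type*} [CommRing R] [Algebra k R]
    {𝒜 : ℕ → Submodule k R} {K : Type*} [Field K] [Algebra k K]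
    {A₁ : Subalgebra k K} {u : K} {I : Submodule k K} {φ : R →ₐ[k] K}
    {O₁ O : Type*} [CommRing O₁] [CommRing O] [Algebra k O₁] [Algebra k O]
    {π : O₁ →ₐ[k] O} {e₁ : O₁ →ₐ[k] k}
    (hs : IsSmall π e₁) {Ψ : R →ₐ[k] O ⊗[k] K} {Ψ₀ Ψ₁ : R →ₐ[k] O₁ ⊗[k] K}
    (h0 : ∀ r, chg K π (Ψ₀ r) = Ψ r) (h1 : ∀ r, chg K π (Ψ₁ r) = Ψ r)
    (he0 : ∀ r, ez K e₁ (Ψ₀ r) = φ r) (he1 : ∀ r, ez K e₁ (Ψ₁ r) = φ r) :
    ∃ ob : Module.Dual k O₁ →ₗ[k] ↥(ObS 𝒜 φ I A₁ u),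
      ∀ l, ob l = 0 → obs Ψ₀ Ψ₁ l ∈ Der0 φ I ⊔ Der1 𝒜 φ A₁ u := by
  refine ⟨LinearMap.codRestrict (ObS 𝒜 φ I A₁ u)
    ((Der0 φ I ⊔ Der1 𝒜 φ A₁ u).mkQ ∘ₗ obs Ψ₀ Ψ₁)
    (fun l => Submodule.mem_map_of_mem (obs_mem hs h0 h1 he0 he1 l)), fun l hl => ?_⟩
  have h2 := congrArg Subtype.val hl
  exact (Submodule.Quotient.mk_eq_zero _).1 h2

/-- **The deformation lemma.** -/
theorem exists_family {k : Type u} [Field k] {R : Type v} [CommRing R] [Algebra k R]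
    (𝒜 : ℕ → Submodule k R) [GradedAlgebra 𝒜] [Algebra.FiniteType k R]
    {K : Type w} [Field K] [Algebra k K] {A₀ A₁ : Subalgebra k K} {u : K} {φ : R →ₐ[k] K}
    (mp : IsMp 𝒜 A₀ A₁ u φ)
    (hsm : ∀ n, 0 < n → ∀ s ∈ 𝒜 n, Algebra.FormallySmooth k (Localization.Away s))
    (I : Submodule k K) (hI : ∀ a ∈ I, a ∈ A₀) (hIm : ∀ a ∈ A₀, ∀ b ∈ I, a * b ∈ I)
    (hfin : ∀ n, Module.Finite k (Sec A₀ A₁ u n))
    (hOb : Module.Finite k (ObS 𝒜 φ I A₁ u))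
    (hlt : Module.finrank k (ObS 𝒜 φ I A₁ u) < Module.finrank k (T0 𝒜 φ I A₁ u)) :
    ∃ (D : Type u) (_ : CommRing D) (_ : Algebra k D) (_ : Algebra.FiniteType k D) (e : D →ₐ[k] k)
      (Ψ : R →ₐ[k] D ⊗[k] K),
      (∀ (m : Ideal D) [m.IsMaximal], m = RingHom.ker e →
        ¬ IsArtinianRing (Localization.AtPrime m)) ∧
      (∀ n, ∀ r ∈ 𝒜 n, Ψ r ∈ InB D (Sec A₀ A₁ u n)) ∧ (∀ r, Ψ r - 1 ⊗ₜ φ r ∈ InB D I) ∧
      (∀ r, ∀ l : K →ₗ[k] k, e (lamB D l (Ψ r)) = l (φ r)) ∧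
      Algebra.adjoin k {a : D | ∃ r, ∃ l : K →ₗ[k] k, lamB D l (Ψ r) = a} = ⊤ := by
  classical
  obtain ⟨M, x, d, hx, hgen⟩ := exists_homog_gens (k := k) 𝒜
  have hVfin : ∀ i, Module.Finite k ↥(I ⊓ Sec A₀ A₁ u (d i)) := fun i => by
    have := hfin (d i)
    exact Submodule.finiteDimensional_of_le (inf_le_right : I ⊓ Sec A₀ A₁ u (d i) ≤ _)
  set V : Fin M → Submodule k K := fun i => I ⊓ Sec A₀ A₁ u (d i) with hV
  have hVfin' : ∀ i, Module.Finite k (V i) := hVfin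
  have hu := mp.u_ne
  have hφ := mp.sec
  have hφ0 : ∀ r, φ r ∈ A₀ := by
    intro r
    rw [← DirectSum.sum_support_decompose 𝒜 r, map_sum]
    exact sum_mem fun i _ => (mem_Sec.1 (hφ i _ (SetLike.coe_mem _))).1
  let P := MvPolynomial (Idx V) k
  let τ₀ : P →ₐ[k] k := aeval (fun _ => (0 : k))
  have hτ₀X : ∀ s, τ₀ (X s) = 0 := fun s => aeval_X _ _
  have hτ₀ : ∀ f, τ₀ f = constantCoeff f := fun f => by
    have h1 : (τ₀ : P →+* k) = constantCoeff := by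
      refine MvPolynomial.ringHom_ext (fun a => ?_) (fun s => ?_)
      · rw [constantCoeff_C]
        exact MvPolynomial.aeval_C _ a
      · rw [constantCoeff_X]
        exact MvPolynomial.aeval_X _ s
    exact DFunLike.congr_fun h1 f
  set J : Ideal P := eqs x V φ with hJd
  have hJτ : J ≤ RingHom.ker τ₀ := by
    rw [hJd, eqs_le_iff]
    intro f hf
    rw [chg_pre_zero x V φ τ₀ hτ₀X, hf, map_zero, TensorProduct.tmul_zero]
  have hJ : J ≤ m0 k (Idx V) := by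
    intro f hf
    have h1 : τ₀ f = 0 := hJτ hf
    rw [hτ₀] at h1
    exact h1
  let qJ : P →ₐ[k] P ⧸ J := Ideal.Quotient.mkₐ k J
  have hqJ : J ≤ RingHom.ker qJ := fun f hf => Ideal.Quotient.eq_zero_iff_mem.2 hf
  obtain ⟨Ψ, hΨ⟩ := exists_hom_of_point x hgen V φ qJ hqJ
  let e : (P ⧸ J) →ₐ[k] k := Ideal.Quotient.liftₐ J τ₀ (fun f hf => hJτ hf)
  have he : ∀ f, e (Ideal.Quotient.mk J f) = constantCoeff f := fun f => hτ₀ f
  have hΨX : ∀ i, Ψ (x i) = chg K qJ (pre x V φ (X i)) := fun i => by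
    rw [← hΨ, aeval_X]
  obtain ⟨a1, a2, a3⟩ := admissible (B := P ⧸ J) hx hgen hu hI hIm hφ hφ0 Ψ (fun i => by
    rw [hΨX]
    exact chg_pre_sub_mem x V φ qJ i)
  refine ⟨P ⧸ J, inferInstance, inferInstance, inferInstance, e, Ψ, ?_, a3, a1, ?_, ?_⟩
  · intro m _ hm hArt
    obtain ⟨N, hN, hart⟩ := exists_pow_le J hJ e he m hm hArt
    obtain ⟨L, hJL, hLm, e₁, he₁, hs, hdim⟩ := exists_small_obs J hJ hN hart
    set π := Ideal.Quotient.factorₐ k (Ideal.mul_le_right : m0 k (Idx V) * L ≤ L) with hπ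
    let q1 : P →ₐ[k] P ⧸ (m0 k (Idx V) * L) := Ideal.Quotient.mkₐ k _
    have hq1 : ∀ s, e₁ (q1 (X s)) = 0 := fun s => by
      have h1 := he₁ (X s)
      rw [constantCoeff_X] at h1
      exact h1
    have hπq : ∀ f, π (q1 f) = Ideal.Quotient.mk L f := fun f => rfl
    have hπJ : ∀ f ∈ J, π (q1 f) = 0 := fun f hf => Ideal.Quotient.eq_zero_iff_mem.2 (hJL hf)
    obtain ⟨ΨO, hΨO⟩ := exists_hom_of_point x hgen V φ (π.comp q1) (fun f hf => hπJ f hf)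
    let eO : (P ⧸ L) →ₐ[k] k := Ideal.Quotient.liftₐ L τ₀ (fun f hf => by
      change τ₀ f = 0
      rw [hτ₀]
      exact hLm hf)
    have heO : ∀ a, eO (π a) = e₁ a := by
      intro a
      obtain ⟨f, rfl⟩ := Ideal.Quotient.mk_surjective a
      rw [he₁, ← hτ₀]
      rfl
    have heOe : eO.comp π = e₁ := AlgHom.ext heO
    have hΨOX : ∀ i, ΨO (x i) = chg K (π.comp q1) (pre x V φ (X i)) := fun i => by
      rw [← hΨO, aeval_X]
    obtain ⟨b1, b2, b3⟩ := admissible (B := P ⧸ L) hx hgen hu hI hIm hφ hφ0 ΨO (fun i => by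
      rw [hΨOX]
      exact chg_pre_sub_mem x V φ (π.comp q1) i)
    have hΨOe : ∀ r, ez K eO (ΨO r) = φ r := by
      intro r
      obtain ⟨f, rfl⟩ := hgen r
      rw [hΨO]
      refine ez_pre x V φ (π.comp q1) eO (fun s => ?_) f
      rw [AlgHom.comp_apply, heO, hq1]
    -- the two lifts
    obtain ⟨n0, hn0, s0, hs0A, hs0, hs0i⟩ := mp.unit0
    obtain ⟨n1, hn1, s1, hs1A, hs1, hs1i⟩ := mp.unit1
    obtain ⟨Ψ₀, c1, c2, c3⟩ := exists_lift0 (A₀ := A₀) (I := I) (φ := φ) hs hgen hI hIm hφ0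
      (hsm n0 hn0 s0 hs0A) hs0 hs0i ΨO ((chg K q1).comp (pre x V φ))
      (fun i => by
        rw [AlgHom.comp_apply]
        exact InB_mono _ inf_le_left (chg_pre_sub_mem x V φ q1 i))
      (fun i => by
        rw [AlgHom.comp_apply, ez_pre x V φ q1 e₁ hq1, aeval_X])
      (fun f => by
        rw [AlgHom.comp_apply, chg_comp, hΨO])
    obtain ⟨Ψ₁, d1, d2⟩ := exists_lift1 (φ := φ) hs hu hs1A (hsm n1 hn1 s1 hs1A) hs1 hs1i eO heO ΨO
      hΨOe b2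
    have he0 : ∀ r, ez K e₁ (Ψ₀ r) = φ r := fun r => by
      rw [← heOe, ← ez_chg, c2, hΨOe]
    have he1 : ∀ r, ez K e₁ (Ψ₁ r) = φ r := fun r => by
      rw [← heOe, ← ez_chg, d1, hΨOe]
    obtain ⟨ob, hob⟩ := exists_obs (𝒜 := 𝒜) (A₁ := A₁) (u := u) (I := I) hs c2 d1 he0 he1
    have h3 := hdim ob (fun l hl => key_claim hs hx hu hI hφ q1 hq1 hπJ
      (fun i => by
        rw [hΨOX, chg_comp]) c2 d1 he0 c3 d2 l (hob l hl))
    have h4 := finrank_T0_le (𝒜 := 𝒜) x d hx hgen A₀ A₁ u I hI φ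
    exact absurd (h4.trans h3) (not_le.2 hlt)
  · intro r l
    rw [lamB_ez]
    obtain ⟨f, rfl⟩ := hgen r
    rw [hΨ]
    congr 1
    exact ez_pre x V φ qJ e (fun s => by
      have h1 := he (X s)
      rw [constantCoeff_X] at h1
      exact h1) f
  · set S := Algebra.adjoin k {a : P ⧸ J | ∃ r, ∃ l : K →ₗ[k] k, lamB (P ⧸ J) l (Ψ r) = a} with hS
    rw [eq_top_iff]
    rintro a -
    obtain ⟨f, rfl⟩ := Ideal.Quotient.mk_surjective a
    change qJ f ∈ S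
    induction f using MvPolynomial.induction_on with
    | C a =>
      rw [← MvPolynomial.algebraMap_eq, AlgHom.commutes]
      exact S.algebraMap_mem a
    | add p q hp hq => rw [map_add]; exact add_mem hp hq
    | mul_X p s hp =>
      rw [map_mul]
      refine mul_mem hp ?_
      obtain ⟨i, j⟩ := s
      obtain ⟨l, hl⟩ := exists_dual (Module.finBasis k (V i)) j
      have h1 : lamB (P ⧸ J) l (Ψ (x i)) = l (φ (x i)) • 1 + qJ (X ⟨i, j⟩) := by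
        rw [hΨX, chg_pre_X, map_add, map_sum, lamB_tmul]
        congr 1
        simp [hl]
      have h2 : qJ (X ⟨i, j⟩) = lamB (P ⧸ J) l (Ψ (x i)) - l (φ (x i)) • 1 := by
        rw [h1, add_sub_cancel_left]
      rw [h2]
      exact sub_mem (Algebra.subset_adjoin ⟨x i, l, rfl⟩) (S.smul_mem S.one_mem _)

end Vale.Agent.P292.Mo

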