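import Vale.Agent.P292.Mo.F7b
import Vale.Agent.P292.Mo.DefG

/-! # P292, Mori step, F7: the main theorem in characteristic `p`. -/

namespace Vale.Agent.P292.Mo

open MvPolynomial

universe u v w

section F

variable {k : Type u} [Field k]

/-- F7: the main theorem in characteristic `p`. -/
theorem charp_main {R : Type v} [CommRing R] [Algebra k R] {𝒜 : ℕ → Submodule k R}
    [GradedAlgebra 𝒜] {P : R →ₗ[k] R →ₗ[k] R} [IsAlgClosed k] (p : ℕ) [Fact p.Prime] [CharP k p]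
    (hp2 : p ≠ 2) (hP : IsPM 𝒜 P) {e n : ℕ} {y : Fin n → R} (hN : IsNoe 𝒜 p e y) (f : R)
    (hf : ∃ h : R, ∃ G : MvPolynomial (Fin n) k, G ≠ 0 ∧ f * h = aeval y G) :
    ∃ w : R →ₐ[k] k, w f ≠ 0 ∧ Hit 𝒜 w := by
  have := hP.finiteType
  exact charp_main_of' p hp2 hP hN f hf fun K _ _ A₀ A₁ u φ mp I hI hIm hfin hOb hlt =>
    exists_family 𝒜 mp hP.smooth I hI hIm hfin hOb hlt

end F

end Vale.Agent.P292.Mo
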