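import Vale.Agent.P292.K.Q2S

/-! # Back transfer: curves over fields of large characteristic give an anchored curve. -/

namespace Vale.Agent.P292.Mo

open MvPolynomial Filter

universe u

/-- `Ω` is the ultraproduct of the fields `k s` over the ultrafilter `U`. -/
structure IsUltraProd {S : Type u} (U : Ultrafilter S) (k : S → Type) [∀ s, Field (k s)]
    {Ω : Type u} [Field Ω] (g : (∀ s, k s) →+* Ω) : Prop where
  surj : Function.Surjective g
  zero : ∀ f, g f = 0 ↔ ∀ᶠ s in (U : Filter S), f s = 0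

/-- The ideal of an ultrafilter. -/
def upIdeal {S : Type u} (U : Ultrafilter S) (k : S → Type) [∀ s, Field (k s)] :
    Ideal (∀ s, k s) where
  carrier := {f | ∀ᶠ s in (U : Filter S), f s = 0}
  zero_mem' := Eventually.of_forall fun _ => rfl
  add_mem' := fun {a b} ha hb => by
    have h1 : ∀ᶠ s in (U : Filter S), a s = 0 := ha
    have h2 : ∀ᶠ s in (U : Filter S), b s = 0 := hb
    change ∀ᶠ s in (U : Filter S), (a + b) s = 0
    filter_upwards [h1, h2] with s h1 h2
    rw [Pi.add_apply, h1, h2, add_zero]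
  smul_mem' := fun c x hx => by
    have h1 : ∀ᶠ s in (U : Filter S), x s = 0 := hx
    change ∀ᶠ s in (U : Filter S), (c * x) s = 0
    filter_upwards [h1] with s h1
    rw [Pi.mul_apply, h1, mul_zero]

theorem mem_upIdeal {S : Type u} (U : Ultrafilter S) (k : S → Type) [∀ s, Field (k s)]
    {f : ∀ s, k s} : f ∈ upIdeal U k ↔ ∀ᶠ s in (U : Filter S), f s = 0 := Iff.rfl

theorem upIdeal_isMaximal {S : Type u} (U : Ultrafilter S) (k : S → Type) [∀ s, Field (k s)] :
    (upIdeal U k).IsMaximal := by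
  classical
  rw [Ideal.isMaximal_iff]
  constructor
  · rw [mem_upIdeal]
    intro h
    obtain ⟨s, hs⟩ := h.exists
    exact one_ne_zero hs
  · intro J f hJ hf hfJ
    rw [mem_upIdeal, ← Ultrafilter.eventually_not] at hf
    have h1 : (1 - (fun s => (f s)⁻¹) * f : ∀ s, k s) ∈ upIdeal U k := by
      rw [mem_upIdeal]
      filter_upwards [hf] with s hs
      rw [Pi.sub_apply, Pi.mul_apply, Pi.one_apply, inv_mul_cancel₀ hs, sub_self]
    have h2 := J.add_mem (hJ h1) (J.mul_mem_left (fun s => (f s)⁻¹) hfJ)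
    rwa [sub_add_cancel] at h2

theorem exists_isUltraProd {S : Type u} (U : Ultrafilter S) (k : S → Type) [∀ s, Field (k s)] :
    ∃ (Ω : Type u) (_ : Field Ω) (g : (∀ s, k s) →+* Ω), IsUltraProd U k g := by
  have := upIdeal_isMaximal U k
  let _ : Field ((∀ s, k s) ⧸ upIdeal U k) := Ideal.Quotient.field _
  refine ⟨(∀ s, k s) ⧸ upIdeal U k, inferInstance, Ideal.Quotient.mk _, ?_, ?_⟩
  · exact Ideal.Quotient.mk_surjective
  · intro f
    rw [← mem_upIdeal]
    exact Ideal.Quotient.eq_zero_iff_mem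

namespace IsUltraProd

variable {S : Type u} {U : Ultrafilter S} {k : S → Type} [∀ s, Field (k s)] {Ω : Type u}
  [Field Ω] {g : (∀ s, k s) →+* Ω} (h : IsUltraProd U k g)
include h

theorem ne_zero {f : ∀ s, k s} : g f ≠ 0 ↔ ∀ᶠ s in (U : Filter S), f s ≠ 0 := by
  rw [Ne, h.zero, Ultrafilter.eventually_not]

theorem congr {f f' : ∀ s, k s} (hf : ∀ᶠ s in (U : Filter S), f s = f' s) : g f = g f' := by
  rw [← sub_eq_zero, ← map_sub, h.zero]
  filter_upwards [hf] with s hs
  rw [Pi.sub_apply, hs, sub_self]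

theorem isAlgClosed [∀ s, IsAlgClosed (k s)] : IsAlgClosed Ω := by
  refine IsAlgClosed.of_exists_root Ω fun p hp hirr => ?_
  choose f hf using fun i => h.surj (p.coeff i)
  have hn : 0 < p.natDegree := hirr.natDegree_pos
  have hx : ∀ s : S, ∃ x : k s, x ^ p.natDegree +
      ∑ i ∈ Finset.range p.natDegree, f i s * x ^ i = 0 := by
    intro s
    let q : Polynomial (k s) := Polynomial.X ^ p.natDegree +
      ∑ i ∈ Finset.range p.natDegree, Polynomial.C (f i s) * Polynomial.X ^ i
    have hlt : (∑ i ∈ Finset.range p.natDegree,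
        Polynomial.C (f i s) * Polynomial.X ^ i).degree < (p.natDegree : WithBot ℕ) := by
      refine lt_of_le_of_lt (Polynomial.degree_sum_le _ _) ?_
      rw [Finset.sup_lt_iff (by exact_mod_cast WithBot.bot_lt_coe p.natDegree)]
      intro i hi
      rw [Finset.mem_range] at hi
      refine lt_of_le_of_lt (Polynomial.degree_C_mul_X_pow_le _ _) ?_
      exact_mod_cast hi
    have hq : q.degree ≠ 0 := by
      have h1 : q.degree = (p.natDegree : WithBot ℕ) := by
        rw [Polynomial.degree_add_eq_left_of_degree_lt, Polynomial.degree_X_pow]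
        rw [Polynomial.degree_X_pow]; exact hlt
      rw [h1]
      exact_mod_cast hn.ne'
    obtain ⟨x, hx⟩ := IsAlgClosed.exists_root q hq
    refine ⟨x, ?_⟩
    have := hx
    simpa [q, Polynomial.IsRoot, Polynomial.eval_finsetSum] using this
  choose x hx using hx
  refine ⟨g x, ?_⟩
  have h1 : p.eval (g x) = g (x ^ p.natDegree +
      ∑ i ∈ Finset.range p.natDegree, f i * x ^ i) := by
    rw [Polynomial.eval_eq_sum_range, Finset.sum_range_succ, hp.coeff_natDegree, one_mul,
      map_add, map_pow, map_sum, add_comm]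
    congr 1
    refine Finset.sum_congr rfl fun i _ => ?_
    rw [map_mul, map_pow, hf]
  rw [h1, h.zero]
  refine Filter.Eventually.of_forall fun s => ?_
  have := hx s
  simpa using this

/-- The homomorphism from `ℂ` given by homomorphisms on subrings which eventually contain every
number. -/
theorem exists_embed (B : S → Subring ℂ) (π : ∀ s, B s →+* k s)
    (hB : ∀ c : ℂ, ∀ᶠ s in (U : Filter S), c ∈ B s) :
    ∃ j : ℂ →+* Ω, ∀ (c : ℂ) (f : ∀ s, k s),
      (∀ᶠ s in (U : Filter S), ∀ hc : c ∈ B s, f s = π s ⟨c, hc⟩) → g f = j c := by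
  classical
  let θ : ℂ → ∀ s, k s := fun c s => if hc : c ∈ B s then π s ⟨c, hc⟩ else 0
  have hθ : ∀ (c : ℂ) (s : S) (hc : c ∈ B s), θ c s = π s ⟨c, hc⟩ := fun c s hc => dif_pos hc
  refine ⟨⟨⟨⟨fun c => g (θ c), ?_⟩, ?_⟩, ?_, ?_⟩, ?_⟩
  · rw [← map_one g]
    refine h.congr ?_
    filter_upwards [hB 1] with s hs
    rw [hθ 1 s hs, Pi.one_apply]
    exact map_one (π s)
  · intro a b
    rw [← map_mul g]
    refine h.congr ?_
    filter_upwards [hB a, hB b] with s ha hb
    rw [hθ _ s ((B s).mul_mem ha hb), Pi.mul_apply, hθ a s ha, hθ b s hb, ← map_mul]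
    rfl
  · change g (θ 0) = 0
    rw [← map_zero g]
    refine h.congr ?_
    filter_upwards [hB 0] with s hs
    rw [hθ 0 s hs, Pi.zero_apply]
    exact map_zero (π s)
  · intro a b
    change g (θ (a + b)) = g (θ a) + g (θ b)
    rw [← map_add g]
    refine h.congr ?_
    filter_upwards [hB a, hB b] with s ha hb
    rw [hθ _ s ((B s).add_mem ha hb), Pi.add_apply, hθ a s ha, hθ b s hb, ← map_add]
    rfl
  · intro c f hf
    change g f = g (θ c)
    refine h.congr ?_
    filter_upwards [hf, hB c] with s h1 h2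
    rw [h1 h2, hθ c s h2]

/-- Values of polynomials with complex coefficients in the ultraproduct. -/
theorem aeval_eq {B : S → Subring ℂ} {π : ∀ s, B s →+* k s}
    (hB : ∀ c : ℂ, ∀ᶠ s in (U : Filter S), c ∈ B s) [Algebra ℂ Ω]
    (hj : ∀ (c : ℂ) (f : ∀ s, k s),
      (∀ᶠ s in (U : Filter S), ∀ hc : c ∈ B s, f s = π s ⟨c, hc⟩) → g f = algebraMap ℂ Ω c)
    {M : ℕ} (G : MvPolynomial (Fin M) ℂ) (β : Fin M → ∀ s, k s) (v : ∀ s, k s)
    (hv : ∀ᶠ s in (U : Filter S), ∀ G' : MvPolynomial (Fin M) (B s),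
      map (B s).subtype G' = G → eval (fun i => β i s) (map (π s) G') = v s) :
    aeval (fun i => g (β i)) G = g v := by
  classical
  let θ : ℂ → ∀ s, k s := fun c s => if hc : c ∈ B s then π s ⟨c, hc⟩ else 0
  have hθ : ∀ (c : ℂ) (s : S) (hc : c ∈ B s), θ c s = π s ⟨c, hc⟩ := fun c s hc => dif_pos hc
  have hθj : ∀ c, algebraMap ℂ Ω c = g (θ c) := fun c =>
    (hj c (θ c) (Eventually.of_forall fun s hc => hθ c s hc)).symm
  have h1 : aeval (fun i => g (β i)) G =
      g (∑ m ∈ G.support, θ (coeff m G) * ∏ i, β i ^ m i) := by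
    rw [aeval_def, eval₂_eq', map_sum]
    refine Finset.sum_congr rfl fun m _ => ?_
    rw [map_mul, map_prod, hθj]
    simp only [map_pow]
  rw [h1]
  refine h.congr ?_
  have h2 : ∀ᶠ s in (U : Filter S), ∀ c ∈ G.coeffs, c ∈ B s := by
    rw [Filter.eventually_all_finset]
    exact fun c _ => hB c
  filter_upwards [hv, h2] with s hs1 hs2
  obtain ⟨G', hG'⟩ : ∃ G' : MvPolynomial (Fin M) (B s), map (B s).subtype G' = G := by
    have : G ∈ Set.range (map (B s).subtype : MvPolynomial (Fin M) (B s) →+* _) := by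
      rw [MvPolynomial.mem_range_map_iff_coeffs_subset]
      intro c hc
      exact ⟨⟨c, hs2 c hc⟩, rfl⟩
    exact this
  rw [← hs1 G' hG', eval_map, eval₂_eq']
  have hsup : G'.support = G.support := by
    rw [← hG', support_map_of_injective]
    exact Subtype.val_injective
  rw [hsup, Finset.sum_apply]
  refine Finset.sum_congr rfl fun m _ => ?_
  rw [Pi.mul_apply, Finset.prod_apply]
  have h3 : coeff m G = (coeff m G' : B s) := by
    rw [← hG', coeff_map]
    rfl
  have h4 : coeff m G ∈ B s := by rw [h3]; exact (coeff m G').2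
  rw [hθ _ s h4]
  congr 1
  congr 1
  exact Subtype.ext h3

end IsUltraProd

/-- Values of monomials are homogeneous. -/
theorem aeval_monomial_mem {R : Type u} [CommRing R] [Algebra ℂ R] {𝒜 : ℕ → Submodule ℂ R}
    [GradedAlgebra 𝒜] {M : ℕ} {x : Fin M → R} {e : Fin M → ℕ} (hx : ∀ i, x i ∈ 𝒜 (e i))
    (m : Fin M →₀ ℕ) (c : ℂ) : aeval x (monomial m c) ∈ 𝒜 (Finsupp.weight e m) := by
  rw [aeval_monomial, ← Algebra.smul_def]
  apply Submodule.smul_mem
  rw [Finsupp.prod_fintype _ _ (fun i => pow_zero _), Finsupp.weight_apply,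
    Finsupp.sum_fintype _ _ (fun i => by simp)]
  exact SetLike.prod_pow_mem_graded 𝒜 e x _ fun i _ => hx i

/-- Components of values of polynomials. -/
theorem decompose_aeval {R : Type u} [CommRing R] [Algebra ℂ R] {𝒜 : ℕ → Submodule ℂ R}
    [GradedAlgebra 𝒜] {M : ℕ} {x : Fin M → R} {e : Fin M → ℕ} (hx : ∀ i, x i ∈ 𝒜 (e i)) (n : ℕ)
    (G : MvPolynomial (Fin M) ℂ) : (DirectSum.decompose 𝒜 (aeval x G) n : R) =
      aeval x (weightedHomogeneousComponent e n G) := by
  classical
  induction G using MvPolynomial.induction_on' with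
  | monomial m a =>
    have h1 := aeval_monomial_mem hx m a
    have h2 : weightedHomogeneousComponent e n (monomial m a : MvPolynomial (Fin M) ℂ) =
        if n = Finsupp.weight e m then monomial m a else 0 :=
      weightedHomogeneousComponent_of_mem (isWeightedHomogeneous_monomial e m a rfl)
    rw [h2]
    split_ifs with h
    · rw [h, DirectSum.decompose_of_mem_same 𝒜 h1]
    · rw [DirectSum.decompose_of_mem_ne 𝒜 h1 (Ne.symm h), map_zero]
  | add p q hp hq =>
    rw [map_add, DirectSum.decompose_add, DirectSum.add_apply, Submodule.coe_add, map_add,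
      map_add, hp, hq]

/-- Back transfer: if for all finite data there are curves of degree one or two in large
characteristic, then there is an anchored curve of degree one or two. -/
theorem exists_isAnch_of_reductions {R : Type u} [CommRing R] [IsDomain R] [Algebra ℂ R]
    {𝒜 : ℕ → Submodule ℂ R} [GradedAlgebra 𝒜] {M : ℕ} (x : Fin M → R) (e : Fin M → ℕ)
    (he : ∀ i, 0 < e i) (hx : ∀ i, x i ∈ 𝒜 (e i))
    (hgen : Function.Surjective (aeval x : MvPolynomial (Fin M) ℂ →ₐ[ℂ] R))
    (L : Finset (MvPolynomial (Fin M) ℂ))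
    (hL : Ideal.span (L : Set (MvPolynomial (Fin M) ℂ)) =
      RingHom.ker (aeval x : MvPolynomial (Fin M) ℂ →ₐ[ℂ] R))
    (H : ∀ (T : Finset ℂ) (F : MvPolynomial (Fin M) ℂ), aeval x F ≠ 0 →
      ∃ (B : Subring ℂ) (k : Type) (_ : Field k) (_ : IsAlgClosed k) (π : B →+* k) (d : ℕ)
        (ψ : Fin M → MvPolynomial (Fin 2) k), (T : Set ℂ) ⊆ B ∧ (d = 1 ∨ d = 2) ∧
        (∀ i, (ψ i).IsHomogeneous (d * e i)) ∧
        (∀ a : Fin 2 → k, a ≠ 0 → ∃ i, eval a (ψ i) ≠ 0) ∧
        (∀ G : MvPolynomial (Fin M) B, map B.subtype G ∈ L → aeval ψ (map π G) = 0) ∧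
        ∀ G : MvPolynomial (Fin M) B, map B.subtype G = F →
          eval (fun i => eval ![1, 0] (ψ i)) (map π G) ≠ 0) :
    ∃ (Ω : Type u) (_ : Field Ω) (_ : IsAlgClosed Ω) (_ : Algebra ℂ Ω) (d : ℕ)
      (φ : R →ₐ[ℂ] MvPolynomial (Fin 2) Ω), (d = 1 ∨ d = 2) ∧ IsAnch 𝒜 d φ := by
  classical
  choose rep hrep using hgen
  let S : Type u := Finset ℂ × Finset {r : R // r ≠ 0}
  let T : S → Finset ℂ := fun s =>
    s.1 ∪ (s.2.biUnion fun r => (rep r.1).coeffs) ∪ L.biUnion fun G => G.coeffs
  let F : S → MvPolynomial (Fin M) ℂ := fun s => ∏ r ∈ s.2, rep r.1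
  have hF : ∀ s, aeval x (F s) ≠ 0 := by
    intro s
    change aeval x (∏ r ∈ s.2, rep r.1) ≠ 0
    rw [map_prod, Finset.prod_ne_zero_iff]
    intro r _
    rw [hrep]
    exact r.2
  choose B k ik ia π d ψ h1 h2 h3 h4 h5 h6 using fun s : S => H (T s) (F s) (hF s)
  let U : Ultrafilter S := Ultrafilter.of atTop
  have hev : ∀ s₀ : S, ∀ᶠ s in (U : Filter S), s₀ ≤ s := fun s₀ =>
    Ultrafilter.of_le _ (eventually_ge_atTop s₀)
  have hB : ∀ c : ℂ, ∀ᶠ s in (U : Filter S), c ∈ B s := by
    intro c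
    filter_upwards [hev ({c}, ∅)] with s hs
    apply h1 s
    have : c ∈ s.1 := hs.1 (Finset.mem_singleton_self c)
    simp [T, this]
  obtain ⟨Ω, _, g, hg⟩ := exists_isUltraProd U k
  obtain ⟨j, hj⟩ := hg.exists_embed B π hB
  let _ : Algebra ℂ Ω := j.toAlgebra
  have hj' : ∀ (c : ℂ) (f : ∀ s, k s),
      (∀ᶠ s in (U : Filter S), ∀ hc : c ∈ B s, f s = π s ⟨c, hc⟩) → g f = algebraMap ℂ Ω c := hj
  have hac : IsAlgClosed Ω := hg.isAlgClosed
  have hΩ : Infinite Ω := IsAlgClosed.instInfinite
  -- the coordinates of the curve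
  let Ψ : Fin M → MvPolynomial (Fin 2) Ω := fun i =>
    ∑ m ∈ box (2 * e i), monomial m (g fun s => coeff m (ψ s i))
  have hbox : ∀ s i m, m ∉ box (2 * e i) → coeff m (ψ s i) = 0 := by
    intro s i m hm
    by_contra hne
    have h7 := h3 s i hne
    apply hm
    have h8 : m 0 + m 1 = d s * e i := by
      rw [← h7, Finsupp.weight_apply, Finsupp.sum_fintype _ _ (fun i => by simp),
        Fin.sum_univ_two]
      simp
    have h9 : d s * e i ≤ 2 * e i := by
      apply Nat.mul_le_mul_right
      rcases h2 s with h | h <;> omega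
    exact mem_box (by omega) (by omega)
  have hΨ : ∀ i m, coeff m (Ψ i) = g fun s => coeff m (ψ s i) := by
    intro i m
    change coeff m (∑ m ∈ box (2 * e i), monomial m (g fun s => coeff m (ψ s i))) = _
    rw [coeff_sum]
    simp only [coeff_monomial]
    rw [Finset.sum_ite_eq']
    split_ifs with hm
    · rfl
    · have : (fun s => coeff m (ψ s i)) = 0 := by
        funext s
        exact hbox s i m hm
      rw [this, map_zero]
  have heval : ∀ (i : Fin M) (α : Fin 2 → ∀ s, k s), eval (fun l => g (α l)) (Ψ i) =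
      g fun s => eval (fun l => α l s) (ψ s i) := by
    intro i α
    have h7 : ∀ m, m ∉ box (2 * e i) → coeff m (Ψ i) = 0 := by
      intro m hm
      rw [hΨ, show (fun s => coeff m (ψ s i)) = 0 from funext fun s => hbox s i m hm, map_zero]
    rw [eval_box h7]
    have : (fun s => eval (fun l => α l s) (ψ s i)) = ∑ m ∈ box (2 * e i),
        (fun s => coeff m (ψ s i)) * (α 0 ^ m 0 * α 1 ^ m 1) := by
      funext s
      rw [eval_box (hbox s i)]
      simp
    rw [this, map_sum]
    refine Finset.sum_congr rfl fun m _ => ?_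
    rw [map_mul, map_mul, map_pow, map_pow, hΨ]
  obtain ⟨d₀, hd₀, hd₀'⟩ : ∃ d₀, (d₀ = 1 ∨ d₀ = 2) ∧ ∀ᶠ s in (U : Filter S), d s = d₀ := by
    have h7 : ∀ᶠ s in (U : Filter S), d s = 1 ∨ d s = 2 := Eventually.of_forall h2
    rcases Ultrafilter.eventually_or.mp h7 with h | h
    · exact ⟨1, Or.inl rfl, h⟩
    · exact ⟨2, Or.inr rfl, h⟩
  have hΨdeg : ∀ i, (Ψ i).IsHomogeneous (d₀ * e i) := by
    intro i m hm
    rw [hΨ, hg.ne_zero] at hm
    obtain ⟨s, hs1, hs2⟩ := (hm.and hd₀').exists
    rw [← hs2]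
    exact h3 s i hs1
  have hpoly := fun (G : MvPolynomial (Fin M) ℂ) (β : Fin M → ∀ s, k s) (v : ∀ s, k s) =>
    hg.aeval_eq hB hj' G β v
  have hlift : ∀ a : Fin 2 → Ω, ∃ α : Fin 2 → ∀ s, k s, a = fun l => g (α l) := by
    intro a
    choose α hα using fun l => hg.surj (a l)
    exact ⟨α, funext fun l => (hα l).symm⟩
  have hker : ∀ G ∈ RingHom.ker (aeval x : MvPolynomial (Fin M) ℂ →ₐ[ℂ] R), aeval Ψ G = 0 := by
    have h7 : Ideal.span (L : Set (MvPolynomial (Fin M) ℂ)) ≤ RingHom.ker
        (aeval Ψ : MvPolynomial (Fin M) ℂ →ₐ[ℂ] MvPolynomial (Fin 2) Ω) := by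
      rw [Ideal.span_le]
      intro G hG
      rw [SetLike.mem_coe, RingHom.mem_ker]
      refine MvPolynomial.funext fun a => ?_
      obtain ⟨α, rfl⟩ := hlift a
      rw [map_zero]
      have h8 : eval (fun l => g (α l)) (aeval Ψ G) =
          aeval (fun i => g fun s => eval (fun l => α l s) (ψ s i)) G := by
        have : ((aeval (fun l => g (α l)) : MvPolynomial (Fin 2) Ω →ₐ[Ω] Ω).restrictScalars ℂ).comp
            (aeval Ψ : MvPolynomial (Fin M) ℂ →ₐ[ℂ] MvPolynomial (Fin 2) Ω) =
            aeval (fun i => g fun s => eval (fun l => α l s) (ψ s i)) := by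
          refine MvPolynomial.algHom_ext fun i => ?_
          rw [AlgHom.comp_apply, aeval_X, aeval_X]
          exact heval i α
        rw [← this]
        rfl
      rw [h8, hpoly G _ 0, map_zero]
      refine Eventually.of_forall fun s G' hG' => ?_
      have h9 := h5 s G' (by rw [hG']; exact hG)
      have h10 := congrArg (eval fun l => α l s) h9
      rw [map_zero] at h10
      rw [Pi.zero_apply, ← h10]
      have : ((eval fun l => α l s).comp
          (aeval (ψ s) : MvPolynomial (Fin M) (k s) →ₐ[k s] MvPolynomial (Fin 2) (k s)).toRingHom) =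
          eval (fun i => eval (fun l => α l s) (ψ s i)) := by
        refine MvPolynomial.ringHom_ext (fun c => ?_) fun i => ?_
        · simp
        · simp
      rw [← this]
      rfl
    intro G hG
    rw [← hL] at hG
    exact h7 hG
  have hsurj : Function.Surjective (aeval x : MvPolynomial (Fin M) ℂ →ₐ[ℂ] R) := fun r =>
    ⟨rep r, hrep r⟩
  let Φ : R →ₐ[ℂ] MvPolynomial (Fin 2) Ω :=
    (Ideal.Quotient.liftₐ (RingHom.ker (aeval x : MvPolynomial (Fin M) ℂ →ₐ[ℂ] R))
      (aeval Ψ) hker).comp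
      (Ideal.quotientKerAlgEquivOfSurjective hsurj).symm.toAlgHom
  have hΦ : ∀ G : MvPolynomial (Fin M) ℂ, Φ (aeval x G) = aeval Ψ G := by
    intro G
    change (Ideal.Quotient.liftₐ (RingHom.ker (aeval x : MvPolynomial (Fin M) ℂ →ₐ[ℂ] R))
      (aeval Ψ) hker) ((Ideal.quotientKerAlgEquivOfSurjective hsurj).symm (aeval x G)) = _
    have : (Ideal.quotientKerAlgEquivOfSurjective hsurj).symm (aeval x G) =
        Ideal.Quotient.mk _ G := by
      rw [AlgEquiv.symm_apply_eq]
      rfl
    rw [this]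
    rfl
  have hcomp : ∀ (a : Fin 2 → Ω) (G : MvPolynomial (Fin M) ℂ),
      eval a (Φ (aeval x G)) = aeval (fun i => eval a (Ψ i)) G := by
    intro a G
    rw [hΦ]
    have : ((aeval a : MvPolynomial (Fin 2) Ω →ₐ[Ω] Ω).restrictScalars ℂ).comp
        (aeval Ψ : MvPolynomial (Fin M) ℂ →ₐ[ℂ] MvPolynomial (Fin 2) Ω) =
        aeval (fun i => eval a (Ψ i)) := by
      refine MvPolynomial.algHom_ext fun i => ?_
      rw [AlgHom.comp_apply, aeval_X, aeval_X]
      rfl
    rw [← this]
    rfl
  refine ⟨Ω, inferInstance, hac, inferInstance, d₀, Φ, hd₀, ⟨?_, ?_⟩, ?_⟩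
  · -- degrees
    intro n r hr
    have h7 : r = aeval x (weightedHomogeneousComponent e n (rep r)) := by
      rw [← decompose_aeval hx (n := n) (G := rep r), hrep, DirectSum.decompose_of_mem_same 𝒜 hr]
    rw [h7, hΦ, aeval_def, eval₂_eq']
    refine IsHomogeneous.sum _ _ _ fun m hm => ?_
    have h8 : Finsupp.weight e m = n :=
      weightedHomogeneousComponent_isWeightedHomogeneous n (rep r) (mem_support_iff.mp hm)
    have h9 : (∏ i, Ψ i ^ m i).IsHomogeneous (∑ i, d₀ * e i * m i) :=
      IsHomogeneous.prod _ _ _ fun i _ => (hΨdeg i).pow (m i)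
    have h10 : ∑ i, d₀ * e i * m i = d₀ * n := by
      rw [← h8, Finsupp.weight_apply, Finsupp.sum_fintype _ _ (fun i => by simp),
        Finset.mul_sum]
      refine Finset.sum_congr rfl fun i _ => ?_
      rw [smul_eq_mul]
      ring
    rw [h10] at h9
    exact h9.C_mul _
  · -- no base points
    intro a ha
    by_contra hcon
    push Not at hcon
    obtain ⟨α, rfl⟩ := hlift a
    have h7 : ∀ i, ∀ᶠ s in (U : Filter S), eval (fun l => α l s) (ψ s i) = 0 := by
      intro i
      rw [← hg.zero, ← heval]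
      have h8 := hcon (e i) (he i) (x i) (hx i)
      have h9 : Φ (x i) = Ψ i := by
        have := hΦ (X i)
        rwa [aeval_X, aeval_X] at this
      rw [h9] at h8
      exact h8
    have h8 := Filter.eventually_all.mpr h7
    have h9 : ∀ᶠ s in (U : Filter S), (fun l => α l s) ≠ 0 := by
      rw [Ultrafilter.eventually_not]
      intro h10
      apply ha
      funext l
      rw [Pi.zero_apply, hg.zero]
      filter_upwards [h10] with s hs
      exact congrFun hs l
    obtain ⟨s, hs1, hs2⟩ := (h8.and h9).exists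
    obtain ⟨i, hi⟩ := h4 s _ hs2
    exact hi (hs1 i)
  · -- the end point is generic
    rw [injective_iff_map_eq_zero]
    intro r hr
    by_contra hr0
    have h7 : eval ![1, 0] (Φ (aeval x (rep r))) = 0 := by
      rw [hrep]
      exact hr
    rw [hcomp] at h7
    have h8 : (![1, 0] : Fin 2 → Ω) = fun l => g ((![1, 0] : Fin 2 → ∀ s, k s) l) := by
      funext l
      fin_cases l
      · simp
      · simp
    have h9 : ∀ s, (fun l => (![1, 0] : Fin 2 → ∀ s, k s) l s) = ![1, 0] := by
      intro s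
      funext l
      fin_cases l <;> simp
    have h10 : (fun i => eval ![1, 0] (Ψ i)) = fun i => g fun s => eval ![1, 0] (ψ s i) := by
      funext i
      rw [h8, heval]
      simp only [h9]
    let v : ∀ s, k s := fun s => if hs : ∃ G' : MvPolynomial (Fin M) (B s),
      map (B s).subtype G' = rep r then eval (fun i => eval ![1, 0] (ψ s i))
        (map (π s) hs.choose) else 0
    have h11 : ∀ s (G' : MvPolynomial (Fin M) (B s)), map (B s).subtype G' = rep r →
        eval (fun i => eval ![1, 0] (ψ s i)) (map (π s) G') = v s := by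
      intro s G' hG'
      have hs : ∃ G' : MvPolynomial (Fin M) (B s), map (B s).subtype G' = rep r := ⟨G', hG'⟩
      change _ = dite _ _ _
      rw [dif_pos hs]
      have : G' = hs.choose := by
        apply map_injective (B s).subtype Subtype.val_injective
        rw [hG', hs.choose_spec]
      rw [← this]
    rw [h10, hpoly (rep r) _ v (Eventually.of_forall h11), hg.zero] at h7
    obtain ⟨s, hs1, hs2⟩ := (h7.and (hev (∅, {⟨r, hr0⟩}))).exists
    have hrs : (⟨r, hr0⟩ : {r : R // r ≠ 0}) ∈ s.2 := hs2.2 (Finset.mem_singleton_self _)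
    have hlift' : ∀ q : {r : R // r ≠ 0}, q ∈ s.2 → ∃ G' : MvPolynomial (Fin M) (B s),
        map (B s).subtype G' = rep q.1 := by
      intro q hq
      have : rep q.1 ∈ Set.range (map (B s).subtype : MvPolynomial (Fin M) (B s) →+* _) := by
        rw [MvPolynomial.mem_range_map_iff_coeffs_subset]
        intro c hc
        refine ⟨⟨c, h1 s ?_⟩, rfl⟩
        have : c ∈ s.2.biUnion fun r => (rep r.1).coeffs :=
          Finset.mem_biUnion.mpr ⟨q, hq, hc⟩
        change c ∈ s.1 ∪ (s.2.biUnion fun r => (rep r.1).coeffs) ∪ L.biUnion fun G => G.coeffs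
        exact Finset.mem_union_left _ (Finset.mem_union_right _ this)
      exact this
    let G : {r : R // r ≠ 0} → MvPolynomial (Fin M) (B s) := fun q =>
      if hq : q ∈ s.2 then (hlift' q hq).choose else 0
    have hG : ∀ q ∈ s.2, map (B s).subtype (G q) = rep q.1 := by
      intro q hq
      have h13 : G q = (hlift' q hq).choose := dif_pos hq
      rw [h13]
      exact (hlift' q hq).choose_spec
    have h12 := h6 s (∏ q ∈ s.2, G q) (by
      rw [map_prod]
      exact Finset.prod_congr rfl hG)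
    rw [map_prod, map_prod, Finset.prod_ne_zero_iff] at h12
    exact h12 _ hrs (by rw [h11 s _ (hG _ hrs), hs1])

end Vale.Agent.P292.Mo
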