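import Mathlib

/-! # Base point freeness is an open condition on the parameters.

`D` is the parameter ring, `A₀`, `A₁` are the rings of functions on two affine charts of a
projective curve with function field `K`. -/

namespace Vale.Agent.P292.Mo

open TensorProduct

universe u v w x

section

variable {k : Type u} [Field k] {D : Type w} [CommRing D] [Algebra k D]

/-- Specialisation of the parameters `D` by a point `e`. -/
noncomputable def evT (e : D →ₐ[k] k) (B : Type v) [CommRing B] [Algebra k B] :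
    D ⊗[k] B →ₐ[k] B :=
  Algebra.TensorProduct.lift ((Algebra.ofId k B).comp e) (AlgHom.id k B)
    (fun _ _ => Commute.all _ _)

@[simp] theorem evT_tmul (e : D →ₐ[k] k) (B : Type v) [CommRing B] [Algebra k B] (d : D) (b : B) :
    evT e B (d ⊗ₜ[k] b) = algebraMap k B (e d) * b := by
  simp [evT, Algebra.ofId_apply]

theorem evT_surjective (e : D →ₐ[k] k) (B : Type v) [CommRing B] [Algebra k B] :
    Function.Surjective (evT e B) := fun b => ⟨1 ⊗ₜ[k] b, by simp⟩

/-- Elements of an ideal which generates the unit ideal after specialisation. -/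
theorem exists_evT_eq_one (e : D →ₐ[k] k) (B : Type v) [CommRing B] [Algebra k B]
    (a : Ideal (D ⊗[k] B)) (ha : a.map (evT e B) = ⊤) : ∃ t ∈ a, evT e B t = 1 := by
  have h1 : (1 : B) ∈ a.map (evT e B) := by
    rw [ha]
    exact Submodule.mem_top
  obtain ⟨t, ht, h⟩ := (Ideal.mem_map_iff_of_surjective (evT e B) (evT_surjective e B)).1 h1
  exact ⟨t, ht, h⟩

variable {K : Type v} [Field K] [Algebra k K]

theorem bpf_core {L : Type x} [Field L] [Algebra k L] (O : ValuationSubring L) (e : D →ₐ[k] k)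
    (xD : D →ₐ[k] L) (x1 : K →ₐ[k] L)
    (hDe : ∀ d, e d = 0 → xD d ∈ O.nonunits) (A : Subalgebra k K) (hA : ∀ a ∈ A, x1 a ∈ O)
    (a : Ideal (D ⊗[k] A)) (ha : a.map (evT e A) = ⊤)
    (hx : ∀ t ∈ a, Algebra.TensorProduct.lift xD (x1.comp A.val) (fun _ _ => Commute.all _ _) t =
      0) : False := by
  set y : D ⊗[k] A →ₐ[k] L :=
    Algebra.TensorProduct.lift xD (x1.comp A.val) (fun _ _ => Commute.all _ _) with hy
  have key : ∀ t, y t - x1 (evT e A t : A) ∈ O.nonunits := by
    intro t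
    induction t using TensorProduct.induction_on with
    | zero => simp
    | tmul d b =>
      have h1 : y (d ⊗ₜ[k] b) = xD d * x1 b := by
        simp [hy]
      have h2 : x1 ((evT e A (d ⊗ₜ[k] b) : A) : K) = xD (algebraMap k D (e d)) * x1 b := by
        rw [evT_tmul, MulMemClass.coe_mul, map_mul]
        congr 1
        rw [AlgHom.commutes]
        exact x1.commutes _
      rw [h1, h2, ← sub_mul, ← map_sub, ValuationSubring.mem_nonunits_iff, map_mul]
      have h3 : xD (d - algebraMap k D (e d)) ∈ O.nonunits := by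
        refine hDe _ ?_
        rw [map_sub, AlgHom.commutes]
        simp
      rw [ValuationSubring.mem_nonunits_iff] at h3
      exact mul_lt_one_of_lt_of_le h3 ((O.valuation_le_one_iff _).2 (hA _ b.2))
    | add s t hs ht =>
      have : y (s + t) - x1 (evT e A (s + t) : A) =
          (y s - x1 (evT e A s : A)) + (y t - x1 (evT e A t : A)) := by
        rw [map_add, map_add, AddMemClass.coe_add, map_add]
        ring
      rw [this]
      exact O.nonunits.add_mem hs ht
  obtain ⟨t, ht, h1⟩ := exists_evT_eq_one e A a ha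
  have h2 := key t
  rw [h1, hx t ht, OneMemClass.coe_one, map_one, ValuationSubring.mem_nonunits_iff, zero_sub,
    Valuation.map_neg, map_one] at h2
  exact lt_irrefl _ h2

/-- A field valued point of the locus of base points, whose closure meets the fibre at `e`. -/
theorem exists_field_point {T : Type x} [CommRing T] [Algebra k T] (incl : D →ₐ[k] T)
    (e : D →ₐ[k] k) (a : Ideal T) (hle : a.comap incl ≤ RingHom.ker e) :
    ∃ (L : Type x) (_ : Field L) (_ : Algebra k L) (y : T →ₐ[k] L),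
      (∀ t ∈ a, y t = 0) ∧ ∀ d, y (incl d) = 0 → e d = 0 := by
  have hker : (RingHom.ker e).IsPrime := RingHom.ker_isPrime e
  obtain ⟨q, hq, hqe⟩ := Ideal.exists_minimalPrimes_le hle
  obtain ⟨Q, hQ, haQ, hQq⟩ := Ideal.exists_comap_eq_of_mem_minimalPrimes (incl : D →+* T) q hq
  let y : T →ₐ[k] FractionRing (T ⧸ Q) :=
    (IsScalarTower.toAlgHom k (T ⧸ Q) (FractionRing (T ⧸ Q))).comp (Ideal.Quotient.mkₐ k Q)
  have hyker : ∀ t, y t = 0 ↔ t ∈ Q := by
    intro t
    change algebraMap (T ⧸ Q) (FractionRing (T ⧸ Q)) (Ideal.Quotient.mk Q t) = 0 ↔ _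
    rw [map_eq_zero_iff _ (IsFractionRing.injective (T ⧸ Q) (FractionRing (T ⧸ Q))),
      Ideal.Quotient.eq_zero_iff_mem]
  refine ⟨FractionRing (T ⧸ Q), inferInstance, inferInstance, y, fun t ht => (hyker t).2 (haQ ht),
    fun d hd => ?_⟩
  have h1 : incl d ∈ Q := (hyker _).1 hd
  have h2 : d ∈ q := by
    rw [← hQq]
    exact h1
  exact hqe h2

/-- A valuation ring dominating the image of `D` at the point `e`. -/
theorem exists_dominating {L : Type x} [Field L] [Algebra k L] (xD : D →ₐ[k] L) (e : D →ₐ[k] k)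
    (hxD : ∀ d, xD d = 0 → e d = 0) :
    ∃ O : ValuationSubring L, (∀ d, xD d ∈ O) ∧ ∀ d, e d = 0 → xD d ∈ O.nonunits := by
  obtain ⟨DD, fD, hfD, hval⟩ : ∃ (DD : Subring L) (fD : D →+* DD), Function.Surjective fD ∧
      ∀ d, ((fD d : DD) : L) = xD d :=
    ⟨xD.toRingHom.range, xD.toRingHom.rangeRestrict, xD.toRingHom.rangeRestrict_surjective,
      fun d => rfl⟩
  have hI : (RingHom.ker e).map fD ≠ ⊤ := by
    intro htop
    have h1 : (1 : DD) ∈ (RingHom.ker e).map fD := by
      rw [htop]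
      exact Submodule.mem_top
    obtain ⟨d, hd, hd1⟩ := (Ideal.mem_map_iff_of_surjective fD hfD).1 h1
    have h2 : xD (d - 1) = 0 := by
      rw [map_sub, map_one, sub_eq_zero, ← hval, hd1]
      rfl
    have h3 := hxD _ h2
    rw [map_sub, map_one, RingHom.mem_ker.1 hd] at h3
    simp at h3
  obtain ⟨O, hO, hOI⟩ := Ideal.image_subset_nonunits_valuationSubring _ hI
  refine ⟨O, fun d => ?_, fun d hd => ?_⟩
  · rw [← hval]
    exact hO (fD d).2
  · rw [← hval]
    exact hOI ⟨fD d, Ideal.mem_map_of_mem fD (RingHom.mem_ker.2 hd), rfl⟩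

/-- The case of a nonconstant point of the curve. -/
theorem bpf_generic {L : Type x} [Field L] [Algebra k L] (A₀ A₁ : Subalgebra k K)
    [IsFractionRing A₀ K]
    (P1 : ∀ V : ValuationSubring K, (∀ c : k, algebraMap k K c ∈ V) →
      (∀ a ∈ A₀, a ∈ V) ∨ (∀ a ∈ A₁, a ∈ V))
    (e : D →ₐ[k] k) (a₀ : Ideal (D ⊗[k] A₀)) (a₁ : Ideal (D ⊗[k] A₁))
    (h01 : a₁.map (Algebra.TensorProduct.map (AlgHom.id k D) A₁.val) ≤
      a₀.map (Algebra.TensorProduct.map (AlgHom.id k D) A₀.val))
    (he0 : a₀.map (evT e A₀) = ⊤) (he1 : a₁.map (evT e A₁) = ⊤)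
    (xD : D →ₐ[k] L) (x0 : A₀ →ₐ[k] L) (hinj : Function.Injective x0)
    (hxD : ∀ d, xD d = 0 → e d = 0)
    (hxa : ∀ t ∈ a₀, Algebra.TensorProduct.lift xD x0 (fun _ _ => Commute.all _ _) t = 0) :
    False := by
  obtain ⟨x1, hx1⟩ : ∃ x1 : K →ₐ[k] L, ∀ b : A₀, x1 (b : K) = x0 b :=
    ⟨IsFractionRing.liftAlgHom (g := x0) hinj, fun b => IsFractionRing.lift_algebraMap hinj b⟩
  obtain ⟨O, hOD, hOe⟩ := exists_dominating xD e hxD
  set X : D ⊗[k] K →ₐ[k] L :=
    Algebra.TensorProduct.lift xD x1 (fun _ _ => Commute.all _ _) with hX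
  have hXA : ∀ (A : Subalgebra k K) (t : D ⊗[k] A),
      Algebra.TensorProduct.lift xD (x1.comp A.val) (fun _ _ => Commute.all _ _) t =
        X (Algebra.TensorProduct.map (AlgHom.id k D) A.val t) := by
    intro A t
    have : (Algebra.TensorProduct.lift xD (x1.comp A.val) (fun _ _ => Commute.all _ _) :
        D ⊗[k] A →ₐ[k] L) = X.comp (Algebra.TensorProduct.map (AlgHom.id k D) A.val) := by
      refine Algebra.TensorProduct.ext' fun d b => ?_
      simp [hX]
    exact DFunLike.congr_fun this t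
  have hx01 : x1.comp A₀.val = x0 := AlgHom.ext fun b => hx1 b
  have hkill0 : a₀.map (Algebra.TensorProduct.map (AlgHom.id k D) A₀.val) ≤ RingHom.ker X := by
    rw [Ideal.map_le_iff_le_comap]
    intro t ht
    rw [Ideal.mem_comap, RingHom.mem_ker, ← hXA, hx01]
    exact hxa t ht
  have hconst : ∀ c : k, algebraMap k K c ∈ O.comap (x1 : K →+* L) := by
    intro c
    rw [ValuationSubring.mem_comap]
    have h1 : (x1 : K →+* L) (algebraMap k K c) = xD (algebraMap k D c) := by
      rw [AlgHom.commutes]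
      exact x1.commutes c
    rw [h1]
    exact hOD _
  rcases P1 (O.comap (x1 : K →+* L)) hconst with h | h
  · refine bpf_core O e xD x1 hOe A₀ (fun a ha => ?_) a₀ he0 fun t ht => ?_
    · exact ValuationSubring.mem_comap.1 (h a ha)
    · rw [hXA]
      exact RingHom.mem_ker.1 (hkill0 (Ideal.mem_map_of_mem _ ht))
  · refine bpf_core O e xD x1 hOe A₁ (fun a ha => ?_) a₁ he1 fun t ht => ?_
    · exact ValuationSubring.mem_comap.1 (h a ha)
    · rw [hXA]
      exact RingHom.mem_ker.1 (hkill0 (h01 (Ideal.mem_map_of_mem _ ht)))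

/-- The case of a constant point of the curve. -/
theorem bpf_closed {L : Type x} [Field L] [Algebra k L] {A₀ : Type v} [CommRing A₀] [Algebra k A₀]
    (e : D →ₐ[k] k) (a₀ : Ideal (D ⊗[k] A₀)) (he0 : a₀.map (evT e A₀) = ⊤)
    (xD : D →ₐ[k] L) (x0 : A₀ →ₐ[k] L) (hx0 : ∀ a : A₀, ∃ c : k, x0 a = algebraMap k L c)
    (hxD : ∀ d, xD d = 0 → e d = 0)
    (hxa : ∀ t ∈ a₀, Algebra.TensorProduct.lift xD x0 (fun _ _ => Commute.all _ _) t = 0) :
    False := by
  choose c hc using hx0
  have hcinj : Function.Injective (algebraMap k L) := (algebraMap k L).injective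
  obtain ⟨χ, hχ⟩ : ∃ χ : A₀ →ₐ[k] k, ∀ b, x0 b = algebraMap k L (χ b) := by
    refine ⟨{ toFun := c
              map_one' := hcinj (by rw [← hc, map_one, map_one])
              map_mul' := fun a b => hcinj (by rw [← hc, map_mul, map_mul, hc, hc])
              map_zero' := hcinj (by rw [← hc, map_zero, map_zero])
              map_add' := fun a b => hcinj (by rw [← hc, map_add, map_add, hc, hc])
              commutes' := fun r => hcinj (by rw [← hc, AlgHom.commutes]; rfl) }, hc⟩
  obtain ⟨η, hη⟩ : ∃ η : D ⊗[k] A₀ →ₐ[k] D, ∀ d b, η (d ⊗ₜ[k] b) = d * algebraMap k D (χ b) := by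
    refine ⟨Algebra.TensorProduct.lift (AlgHom.id k D) ((Algebra.ofId k D).comp χ)
      (fun _ _ => Commute.all _ _), fun d b => ?_⟩
    rw [Algebra.TensorProduct.lift_tmul]
    rfl
  have h1 : (Algebra.TensorProduct.lift xD x0 (fun _ _ => Commute.all _ _) :
      D ⊗[k] A₀ →ₐ[k] L) = xD.comp η := by
    refine Algebra.TensorProduct.ext' fun d b => ?_
    rw [AlgHom.comp_apply, Algebra.TensorProduct.lift_tmul, hη, map_mul, hχ, AlgHom.commutes]
  have h2 : e.comp η = χ.comp (evT e A₀) := by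
    refine Algebra.TensorProduct.ext' fun d b => ?_
    rw [AlgHom.comp_apply, AlgHom.comp_apply, hη, evT_tmul, map_mul, map_mul, AlgHom.commutes,
      AlgHom.commutes]
    rfl
  obtain ⟨t, ht, h3⟩ := exists_evT_eq_one e A₀ a₀ he0
  have h4 : xD (η t) = 0 := by
    have := DFunLike.congr_fun h1 t
    rw [AlgHom.comp_apply] at this
    rw [← this]
    exact hxa t ht
  have h5 := hxD _ h4
  have h6 := DFunLike.congr_fun h2 t
  rw [AlgHom.comp_apply, AlgHom.comp_apply, h3, map_one] at h6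
  rw [h6] at h5
  exact one_ne_zero h5

/-- Base point freeness is open: if the ideals `a₀`, `a₁` on the two charts of the family agree
over the generic point of the curve, and become the unit ideals at the parameter `e`, then some
function `h` of the parameters with `e h ≠ 0` lies in `a₀`. -/
theorem exists_bpf_cert (A₀ A₁ : Subalgebra k K) [IsFractionRing A₀ K]
    (P1 : ∀ V : ValuationSubring K, (∀ c : k, algebraMap k K c ∈ V) →
      (∀ a ∈ A₀, a ∈ V) ∨ (∀ a ∈ A₁, a ∈ V))
    (P2 : ∀ p : Ideal A₀, p.IsPrime → p ≠ ⊥ → ∀ a : A₀, ∃ c : k, a - algebraMap k A₀ c ∈ p)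
    (e : D →ₐ[k] k) (a₀ : Ideal (D ⊗[k] A₀)) (a₁ : Ideal (D ⊗[k] A₁))
    (h01 : a₁.map (Algebra.TensorProduct.map (AlgHom.id k D) A₁.val) ≤
      a₀.map (Algebra.TensorProduct.map (AlgHom.id k D) A₀.val))
    (he0 : a₀.map (evT e A₀) = ⊤) (he1 : a₁.map (evT e A₁) = ⊤) :
    ∃ h : D, e h ≠ 0 ∧ h ⊗ₜ[k] (1 : A₀) ∈ a₀ := by
  by_contra hcon
  push Not at hcon
  have hle : a₀.comap (Algebra.TensorProduct.includeLeft : D →ₐ[k] D ⊗[k] A₀) ≤
      RingHom.ker e := by
    intro h hh
    by_contra hne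
    exact hcon h hne hh
  obtain ⟨L, _, _, y, hya, hye⟩ := exists_field_point _ e a₀ hle
  obtain ⟨xD, hxD⟩ : ∃ xD : D →ₐ[k] L, ∀ d, xD d = y (d ⊗ₜ[k] 1) :=
    ⟨y.comp Algebra.TensorProduct.includeLeft, fun d => rfl⟩
  obtain ⟨x0, hx0⟩ : ∃ x0 : A₀ →ₐ[k] L, ∀ b, x0 b = y (1 ⊗ₜ[k] b) :=
    ⟨y.comp Algebra.TensorProduct.includeRight, fun d => rfl⟩
  have hy : y = Algebra.TensorProduct.lift xD x0 (fun _ _ => Commute.all _ _) := by
    refine Algebra.TensorProduct.ext' fun d b => ?_
    rw [Algebra.TensorProduct.lift_tmul, hxD, hx0, ← map_mul, Algebra.TensorProduct.tmul_mul_tmul,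
      mul_one, one_mul]
  have hxDe : ∀ d, xD d = 0 → e d = 0 := fun d hd => hye d (by rw [← hd, hxD]; rfl)
  have hxa : ∀ t ∈ a₀, Algebra.TensorProduct.lift xD x0 (fun _ _ => Commute.all _ _) t = 0 := by
    intro t ht
    rw [← hy]
    exact hya t ht
  by_cases hinj : Function.Injective x0
  · exact bpf_generic A₀ A₁ P1 e a₀ a₁ h01 he0 he1 xD x0 hinj hxDe hxa
  · have hp : (RingHom.ker x0).IsPrime := RingHom.ker_isPrime x0
    have hp0 : RingHom.ker x0 ≠ ⊥ := by
      intro h
      exact hinj ((RingHom.injective_iff_ker_eq_bot _).2 h)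
    refine bpf_closed e a₀ he0 xD x0 (fun a => ?_) hxDe hxa
    obtain ⟨c, hc⟩ := P2 _ hp hp0 a
    refine ⟨c, ?_⟩
    have h1 := RingHom.mem_ker.1 hc
    rw [map_sub, AlgHom.commutes, sub_eq_zero] at h1
    exact h1

end

end Vale.Agent.P292.Mo
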