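import Vale.Agent.P292.Mo.Bubble6

/-! # The bubble lemma. -/

namespace Vale.Agent.P292.Mo

open Polynomial

universe u v w

section bubble

variable {k : Type u} [Field k] {R : Type v} [CommRing R] [Algebra k R] {𝒜 : ℕ → Submodule k R}
  [GradedAlgebra 𝒜] {n : ℕ} {x : Fin n → R} {d : Fin n → ℕ}

theorem expandAt_X_add_C (a c : k) :
    expandAt a (X + C c) = PowerSeries.X + PowerSeries.C (a + c) := by
  rw [expandAt_apply]
  simp [add_assoc]

theorem expandAt_C (a c : k) : expandAt a (C c) = PowerSeries.C c := by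
  rw [expandAt_apply]
  simp

/-- Recentring at a simple root. -/
theorem isOrd_recen_one {F : R →ₐ[k] PowerSeries k[X]} {ξ : R →ₐ[k] k} {c₀ c₁ : k}
    (h : ∀ j, ∀ r ∈ 𝒜 j, PowerSeries.constantCoeff (F r) =
      ((X + C c₀) * (X + C c₁)) ^ j * C (ξ r)) {ξ' : R →ₐ[k] k}
    (hξ' : ∀ j, ∀ r ∈ 𝒜 j, ξ' r = (c₁ - c₀) ^ j * ξ r) :
    IsOrd 𝒜 ((recen (-c₀)).comp F) 1 ξ' := by
  have key : ∀ j, ∀ r ∈ 𝒜 j, PowerSeries.constantCoeff (((recen (-c₀)).comp F) r) =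
      PowerSeries.X ^ j * ((PowerSeries.X + PowerSeries.C (c₁ - c₀)) ^ j *
        PowerSeries.C (ξ r)) := by
    intro j r hr
    rw [AlgHom.comp_apply, constantCoeff_recen, h j r hr, map_mul, map_pow, map_mul,
      expandAt_X_add_C, expandAt_X_add_C, expandAt_C, neg_add_cancel, map_zero, add_zero,
      mul_pow, mul_assoc, neg_add_eq_sub]
  refine ⟨fun j r hr => ?_, fun j r hr => ?_⟩
  · rw [key j r hr, one_mul]
    exact Dvd.intro _ rfl
  · rw [key j r hr, one_mul, PowerSeries.coeff_X_pow_mul', if_pos le_rfl, Nat.sub_self,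
      PowerSeries.coeff_zero_eq_constantCoeff, hξ' j r hr]
    simp

/-- Recentring at a multiple root. -/
theorem isOrd_recen_pow {F : R →ₐ[k] PowerSeries k[X]} {ξ : R →ₐ[k] k} {c₀ : k} {β : ℕ}
    (h : ∀ j, ∀ r ∈ 𝒜 j, PowerSeries.constantCoeff (F r) = (X + C c₀) ^ (β * j) * C (ξ r)) :
    IsOrd 𝒜 ((recen (-c₀)).comp F) β ξ := by
  have key : ∀ j, ∀ r ∈ 𝒜 j, PowerSeries.constantCoeff (((recen (-c₀)).comp F) r) =
      PowerSeries.X ^ (β * j) * PowerSeries.C (ξ r) := by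
    intro j r hr
    rw [AlgHom.comp_apply, constantCoeff_recen, h j r hr, map_mul, map_pow,
      expandAt_X_add_C, expandAt_C, neg_add_cancel, map_zero, add_zero]
  refine ⟨fun j r hr => ?_, fun j r hr => ?_⟩
  · rw [key j r hr]
    exact Dvd.intro _ rfl
  · rw [key j r hr, PowerSeries.coeff_X_pow_mul', if_pos le_rfl, Nat.sub_self,
      PowerSeries.coeff_zero_eq_constantCoeff]
    simp

variable {φ : R →ₐ[k] PowerSeries (PowerSeries k)} {β : ℕ} {ξ : R →ₐ[k] k} {α' β' : ℕ}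
  {hα : α' ≠ 0} {hβ : 0 < β'} {F : R →ₐ[k] PowerSeries k[X]}

/-- If the edge is a pure power, its root is not zero and there is no ramification. -/
theorem IsStep.root (hs : IsStep 𝒜 φ β ξ α' β' hα hβ F) (hLB : IsLB 𝒜) (hβ0 : 0 < β)
    (hβk : (β : k) ≠ 0) (hξ : ∃ j > 0, ∃ r ∈ 𝒜 j, ξ r ≠ 0) {c₀ : k}
    (h : ∀ j, ∀ r ∈ 𝒜 j, PowerSeries.constantCoeff (F r) = (X + C c₀) ^ (β * j) * C (ξ r)) :
    c₀ ≠ 0 ∧ α' = 1 := by
  have hc₀ : c₀ ≠ 0 := by
    rintro rfl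
    obtain ⟨j, r, hr, m, hm, hne⟩ := hs.low
    apply hne
    rw [h j r hr, map_zero, add_zero, coeff_mul_C, coeff_X_pow, if_neg (by omega), zero_mul]
  refine ⟨hc₀, ?_⟩
  obtain ⟨j, hj, r, hr, hne, hjk⟩ := exists_degree hLB hξ
  have hβj : 0 < β * j := Nat.mul_pos hβ0 hj
  have h1 := hs.dvd j r hr (β * j - 1) (by omega) (by
    rw [h j r hr, coeff_mul_C, coeff_X_add_C_pow]
    have h2 : β * j - (β * j - 1) = 1 := by omega
    have h3 : (β * j).choose (β * j - 1) = β * j := by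
      rw [Nat.choose_symm_of_eq_add (b := 1) (by omega), Nat.choose_one_right]
    rw [h2, h3, pow_one, Nat.cast_mul]
    exact mul_ne_zero (mul_ne_zero hc₀ (mul_ne_zero hβk hjk)) hne)
  have h2 : β * j - (β * j - 1) = 1 := by omega
  rw [h2, mul_one] at h1
  exact Nat.Coprime.eq_one_of_dvd hs.coprime h1

theorem sim_coeff {w : R →ₐ[k] k} {e : ℕ} {Ψ' : R →ₐ[k] k[X]}
    (h6 : ∀ j, ∀ r ∈ 𝒜 j, (Ψ' r).coeff (e * j) = ξ r) (hξ : ∃ j > 0, ∃ r ∈ 𝒜 j, ξ r ≠ 0) :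
    ∃ j > 0, ∃ r ∈ 𝒜 j, (Ψ' r).coeff (e * j) ≠ 0 := by
  obtain ⟨j, hj, r, hr, h⟩ := hξ
  exact ⟨j, hj, r, hr, by rwa [h6 j r hr]⟩

/-- `β = 1`, proportional values. -/
theorem lemB1 (hLB : IsLB 𝒜) (hx : ∀ i, x i ∈ 𝒜 (d i))
    (hgen : Algebra.adjoin k (Set.range x) = ⊤) {w : R →ₐ[k] k} (L : ℕ) :
    ∀ (φ : R →ₐ[k] PowerSeries (PowerSeries k)) (ξ : R →ₐ[k] k),
      (∃ j > 0, ∃ r ∈ 𝒜 j, ξ r ≠ 0) → IsOrd 𝒜 φ 1 ξ → PowerSeries.X ^ L ∈ imI 𝒜 φ →
      Sim 𝒜 ξ w → HasCurve 𝒜 w := by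
  induction L using Nat.strong_induction_on with
  | _ L ih =>
    intro φ ξ hξ hord hL hsim
    obtain ⟨α', β', hα, hβ, F, hs⟩ := exists_step hx hgen one_pos hord (imI_pure hL)
    obtain ⟨b, e, h, Ψ', hbe, hmon, hdh, h4, h5, h6, h7⟩ := hs.base hLB hx hgen hξ
    obtain ⟨c, hc, hcsim⟩ := hsim
    rcases Nat.eq_zero_or_pos e with he | he
    · subst he
      have hb : b = 1 := by omega
      subst hb
      have hh := hmon.eq_X_add_C hdh
      set c₀ := h.coeff 0 with hc₀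
      have hF : ∀ j, ∀ r ∈ 𝒜 j, PowerSeries.constantCoeff (F r) =
          (X + C c₀) ^ (1 * j) * C (ξ r) := by
        intro j r hr
        rw [h4 j r hr, hh, one_mul, eq_C_of_zero_mul (h5 j r hr) (h6 j r hr)]
      obtain ⟨h8, h9⟩ := hs.root hLB one_pos (by simp) hξ hF
      subst h9
      obtain ⟨h10, h11⟩ := hs.imI_recen hL one_pos (-c₀)
      exact ih _ (by omega) _ ξ hξ (isOrd_recen_pow hF) h11 ⟨c, hc, hcsim⟩
    · have he1 : e = 1 := by omega
      exact hasCurve_infty (Or.inl he1) h5 (sim_coeff (w := w) h6 hξ) h7 c hc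
        fun j r hr => by rw [h6 j r hr, hcsim j r hr]

/-- A monic quadratic polynomial splits. -/
theorem exists_split [IsAlgClosed k] {h : k[X]} (hmon : h.Monic) (hdeg : h.natDegree = 2) :
    ∃ c₀ c₁ : k, h = (X + C c₀) * (X + C c₁) := by
  obtain ⟨a, ha⟩ := IsAlgClosed.exists_root h (by
    intro h0
    rw [natDegree_eq_of_degree_eq_some (n := 0) h0] at hdeg
    omega)
  obtain ⟨q, hq⟩ := dvd_iff_isRoot.mpr ha
  have hqm : q.Monic := (monic_X_sub_C a).of_mul_monic_left (hq ▸ hmon)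
  have hqd : q.natDegree = 1 := by
    have h1 := congrArg natDegree hq
    rw [hdeg, (monic_X_sub_C a).natDegree_mul hqm, natDegree_X_sub_C] at h1
    omega
  refine ⟨-a, q.coeff 0, ?_⟩
  rw [← hqm.eq_X_add_C hqd, map_neg, ← sub_eq_add_neg]
  exact hq

/-- `β = 2`, proportional values. -/
theorem lemB2 [IsAlgClosed k] (h2k : (2 : k) ≠ 0) (hLB : IsLB 𝒜) (hx : ∀ i, x i ∈ 𝒜 (d i))
    (hgen : Algebra.adjoin k (Set.range x) = ⊤) {w : R →ₐ[k] k} (L : ℕ) :
    ∀ (φ : R →ₐ[k] PowerSeries (PowerSeries k)) (ξ : R →ₐ[k] k),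
      (∃ j > 0, ∃ r ∈ 𝒜 j, ξ r ≠ 0) → IsOrd 𝒜 φ 2 ξ → PowerSeries.X ^ L ∈ imI 𝒜 φ →
      Sim 𝒜 ξ w → HasCurve 𝒜 w := by
  induction L using Nat.strong_induction_on with
  | _ L ih =>
    intro φ ξ hξ hord hL hsim
    obtain ⟨α', β', hα, hβ, F, hs⟩ := exists_step hx hgen two_pos hord (imI_pure hL)
    obtain ⟨b, e, h, Ψ', hbe, hmon, hdh, h4, h5, h6, h7⟩ := hs.base hLB hx hgen hξ
    obtain ⟨c, hc, hcsim⟩ := hsim
    rcases Nat.eq_zero_or_pos e with he | he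
    · subst he
      have hb : b = 2 := by omega
      subst hb
      obtain ⟨c₀, c₁, hh⟩ := exists_split hmon hdh
      have hF : ∀ j, ∀ r ∈ 𝒜 j, PowerSeries.constantCoeff (F r) =
          ((X + C c₀) * (X + C c₁)) ^ j * C (ξ r) := by
        intro j r hr
        rw [h4 j r hr, hh, eq_C_of_zero_mul (h5 j r hr) (h6 j r hr)]
      by_cases hcc : c₀ = c₁
      · subst hcc
        have hF' : ∀ j, ∀ r ∈ 𝒜 j, PowerSeries.constantCoeff (F r) =
            (X + C c₀) ^ (2 * j) * C (ξ r) := by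
          intro j r hr
          rw [hF j r hr, pow_mul, sq]
        obtain ⟨h8, h9⟩ := hs.root hLB two_pos (by exact_mod_cast h2k) hξ hF'
        subst h9
        obtain ⟨h10, h11⟩ := hs.imI_recen hL two_pos (-c₀)
        exact ih _ (by omega) _ ξ hξ (isOrd_recen_pow hF') h11 ⟨c, hc, hcsim⟩
      · obtain ⟨ξ', hξ'⟩ := bubble_twist 𝒜 ξ (c₁ - c₀)
        have hδ : c₁ - c₀ ≠ 0 := sub_ne_zero.mpr (Ne.symm hcc)
        obtain ⟨h10, h11⟩ := hs.imI_recen hL two_pos (-c₀)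
        refine lemB1 hLB hx hgen _ _ ξ' ?_ (isOrd_recen_one hF hξ') h11
          ⟨(c₁ - c₀) * c, mul_ne_zero hδ hc, fun j r hr => ?_⟩
        · obtain ⟨j, hj, r, hr, hne⟩ := hξ
          exact ⟨j, hj, r, hr, by rw [hξ' j r hr]; exact mul_ne_zero (pow_ne_zero _ hδ) hne⟩
        · rw [hξ' j r hr, hcsim j r hr, mul_pow, mul_assoc]
    · exact hasCurve_infty (by omega) h5 (sim_coeff (w := w) h6 hξ) h7 c hc
        fun j r hr => by rw [h6 j r hr, hcsim j r hr]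

/-- Evaluation at `Z = 0`. -/
noncomputable def ev0 : PowerSeries k[X] →ₐ[k] PowerSeries k :=
  PowerSeries.mapAlgHom (Polynomial.aeval (0 : k))

theorem coeff_ev0 (m : ℕ) (f : PowerSeries k[X]) :
    PowerSeries.coeff m (ev0 f) = (PowerSeries.coeff m f).coeff 0 := by
  change PowerSeries.coeff m (PowerSeries.map _ f) = _
  rw [PowerSeries.coeff_map, coeff_zero_eq_aeval_zero]
  rfl

theorem ev0_theta (α β : ℕ) (hα : α ≠ 0) (hβ : 0 < β) (f : PowerSeries (PowerSeries k)) :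
    ev0 (theta α β hα hβ f) = PowerSeries.expand α hα (PowerSeries.map
      PowerSeries.constantCoeff f) := by
  have h1 : PowerSeries.map PowerSeries.constantCoeff f = col 0 f := by
    ext l
    rw [coeff_col, PowerSeries.coeff_map, PowerSeries.coeff_zero_eq_constantCoeff]
  ext m
  rw [coeff_ev0, coeff_theta, scol, mul_zero, pow_zero, one_mul, h1]

theorem ev0_recen (f : PowerSeries k[X]) :
    PowerSeries.map PowerSeries.constantCoeff (recen (0 : k) f) = ev0 f := by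
  ext m
  rw [coeff_ev0, PowerSeries.coeff_map, recen_apply, PowerSeries.coeff_map,
    coeff_zero_eq_eval_zero]
  exact constantCoeff_expandAt 0 _

theorem constantCoeff_ev0 (f : PowerSeries k[X]) :
    PowerSeries.constantCoeff (ev0 f) = (PowerSeries.constantCoeff f).eval 0 := by
  rw [← PowerSeries.coeff_zero_eq_constantCoeff_apply, coeff_ev0, coeff_zero_eq_eval_zero,
    PowerSeries.coeff_zero_eq_constantCoeff_apply]

/-- The value at `z = 0`. -/
def IsMark (𝒜 : ℕ → Submodule k R) (φ : R →ₐ[k] PowerSeries (PowerSeries k)) (μ : ℕ)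
    (w : R →ₐ[k] k) : Prop :=
  ∀ j, ∀ r ∈ 𝒜 j, PowerSeries.map PowerSeries.constantCoeff (φ r) =
    PowerSeries.X ^ (μ * j) * PowerSeries.C (w r)

theorem IsStep.mark (hs : IsStep 𝒜 φ β ξ α' β' hα hβ F) {μ : ℕ} {w : R →ₐ[k] k}
    (hmark : IsMark 𝒜 φ μ w) (hw : ∃ j > 0, ∃ r ∈ 𝒜 j, w r ≠ 0) :
    β' * β ≤ α' * μ ∧ ∀ j, ∀ r ∈ 𝒜 j, ev0 (F r) =
      PowerSeries.X ^ ((α' * μ - β' * β) * j) * PowerSeries.C (w r) := by
  have key : ∀ j, ∀ r ∈ 𝒜 j, PowerSeries.X ^ (β' * β * j) * ev0 (F r) =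
      PowerSeries.X ^ (α' * μ * j) * PowerSeries.C (w r) := by
    intro j r hr
    have h1 := congrArg ev0 (hs.eq j r hr)
    have h2 : ev0 (PowerSeries.X : PowerSeries k[X]) = PowerSeries.X := PowerSeries.map_X _
    rw [ev0_theta, hmark j r hr, map_mul, map_mul, map_pow, map_pow, PowerSeries.expand_X,
      PowerSeries.expand_C, h2, ← pow_mul, ← mul_assoc] at h1
    exact h1.symm
  have hle : β' * β ≤ α' * μ := by
    obtain ⟨j, hj, r, hr, hne⟩ := hw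
    by_contra hcon
    have h1 : α' * μ * j < β' * β * j := Nat.mul_lt_mul_of_pos_right (by omega) hj
    have h2 := congrArg (PowerSeries.coeff (α' * μ * j)) (key j r hr)
    rw [PowerSeries.coeff_X_pow_mul', if_neg (by omega), PowerSeries.coeff_X_pow_mul',
      if_pos le_rfl, Nat.sub_self, PowerSeries.coeff_zero_eq_constantCoeff,
      PowerSeries.constantCoeff_C] at h2
    exact hne h2.symm
  refine ⟨hle, fun j r hr => ?_⟩
  apply mul_left_cancel₀ (pow_ne_zero (β' * β * j) (PowerSeries.X_ne_zero (R := k)))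
  rw [key j r hr, ← mul_assoc, ← pow_add, ← add_mul]
  congr 3
  omega

theorem IsStep.eval_pos (hs : IsStep 𝒜 φ β ξ α' β' hα hβ F) {μ : ℕ} {w : R →ₐ[k] k}
    (hmark : IsMark 𝒜 φ μ w) (hw : ∃ j > 0, ∃ r ∈ 𝒜 j, w r ≠ 0) (hlt : β' * β < α' * μ) {j : ℕ}
    (hj : 0 < j) {r : R} (hr : r ∈ 𝒜 j) : (PowerSeries.constantCoeff (F r)).eval 0 = 0 := by
  rw [← constantCoeff_ev0, (hs.mark hmark hw).2 j r hr, map_mul, map_pow,
    PowerSeries.constantCoeff_X, zero_pow (Nat.mul_pos (by omega) hj).ne', zero_mul]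

theorem IsStep.eval_zero (hs : IsStep 𝒜 φ β ξ α' β' hα hβ F) {μ : ℕ} {w : R →ₐ[k] k}
    (hmark : IsMark 𝒜 φ μ w) (hw : ∃ j > 0, ∃ r ∈ 𝒜 j, w r ≠ 0) (hlt : ¬ β' * β < α' * μ) {j : ℕ}
    {r : R} (hr : r ∈ 𝒜 j) : (PowerSeries.constantCoeff (F r)).eval 0 = w r := by
  have h1 : α' * μ - β' * β = 0 := by omega
  rw [← constantCoeff_ev0, (hs.mark hmark hw).2 j r hr, h1, zero_mul, pow_zero, one_mul,
    PowerSeries.constantCoeff_C]

theorem IsMark.pure {μ : ℕ} {w : R →ₐ[k] k} (hmark : IsMark 𝒜 φ μ w)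
    (hw : ∃ j > 0, ∃ r ∈ 𝒜 j, w r ≠ 0) :
    ∃ j > 0, ∃ r ∈ 𝒜 j, PowerSeries.map PowerSeries.constantCoeff (φ r) ≠ 0 := by
  obtain ⟨j, hj, r, hr, hne⟩ := hw
  refine ⟨j, hj, r, hr, ?_⟩
  rw [hmark j r hr]
  refine mul_ne_zero (pow_ne_zero _ PowerSeries.X_ne_zero) fun h => hne ?_
  have := congrArg PowerSeries.constantCoeff h
  simpa using this

/-- `β = 1` with a mark. -/
theorem lemA1 (hLB : IsLB 𝒜) (hx : ∀ i, x i ∈ 𝒜 (d i))
    (hgen : Algebra.adjoin k (Set.range x) = ⊤) {w : R →ₐ[k] k}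
    (hw : ∃ j > 0, ∃ r ∈ 𝒜 j, w r ≠ 0) {φ : R →ₐ[k] PowerSeries (PowerSeries k)}
    {ξ : R →ₐ[k] k} (hξ : ∃ j > 0, ∃ r ∈ 𝒜 j, ξ r ≠ 0) (hord : IsOrd 𝒜 φ 1 ξ) {μ : ℕ}
    (hmark : IsMark 𝒜 φ μ w) : HasCurve 𝒜 w ∨ Sim 𝒜 ξ w := by
  obtain ⟨α', β', hα, hβ, F, hs⟩ := exists_step hx hgen one_pos hord (hmark.pure hw)
  obtain ⟨b, e, h, Ψ', hbe, hmon, hdh, h4, h5, h6, h7⟩ := hs.base hLB hx hgen hξ
  rcases Nat.eq_zero_or_pos e with he | he
  · right
    subst he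
    have hb : b = 1 := by omega
    subst hb
    have hh := hmon.eq_X_add_C hdh
    set c₀ := h.coeff 0 with hc₀
    have hF : ∀ j, ∀ r ∈ 𝒜 j, PowerSeries.constantCoeff (F r) =
        (X + C c₀) ^ (1 * j) * C (ξ r) := by
      intro j r hr
      rw [h4 j r hr, hh, one_mul, eq_C_of_zero_mul (h5 j r hr) (h6 j r hr)]
    obtain ⟨h8, -⟩ := hs.root hLB one_pos (by simp) hξ hF
    by_cases hlt : β' * 1 < α' * μ
    · exfalso
      obtain ⟨j, hj, r, hr, hne⟩ := hξ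
      have h9 := hs.eval_pos hmark hw hlt hj hr
      rw [hF j r hr, eval_mul, eval_pow, eval_add, eval_X, eval_C, eval_C, zero_add] at h9
      exact mul_ne_zero (pow_ne_zero _ h8) hne h9
    · refine ⟨c₀⁻¹, inv_ne_zero h8, fun j r hr => ?_⟩
      have h9 := hs.eval_zero hmark hw hlt hr
      rw [hF j r hr, eval_mul, eval_pow, eval_add, eval_X, eval_C, eval_C, zero_add,
        one_mul] at h9
      rw [← h9, ← mul_assoc, ← mul_pow, inv_mul_cancel₀ h8, one_pow, one_mul]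
  · left
    have he1 : e = 1 := by omega
    have hb : b = 0 := by omega
    have hh : h = 1 := by
      rw [← hmon.natDegree_eq_zero, hdh, hb]
    have hF : ∀ j, ∀ r ∈ 𝒜 j, PowerSeries.constantCoeff (F r) = Ψ' r := by
      intro j r hr
      rw [h4 j r hr, hh, one_pow, one_mul]
    by_cases hlt : β' * 1 < α' * μ
    · exfalso
      obtain ⟨j, hj, r, hr, hne⟩ := h7 0
      apply hne
      rw [← hF j r hr]
      exact hs.eval_pos hmark hw hlt hj hr
    · exact hasCurve_zero (Or.inl he1) h5 (sim_coeff (w := w) h6 hξ) h7 1 one_ne_zero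
        fun j r hr => by
          rw [← hF j r hr, one_pow, one_mul]
          exact hs.eval_zero hmark hw hlt hr

/-- `β = 2` with a mark. -/
theorem lemA2 [IsAlgClosed k] (h2k : (2 : k) ≠ 0) (hLB : IsLB 𝒜) (hx : ∀ i, x i ∈ 𝒜 (d i))
    (hgen : Algebra.adjoin k (Set.range x) = ⊤) {w : R →ₐ[k] k}
    (hw : ∃ j > 0, ∃ r ∈ 𝒜 j, w r ≠ 0) {φ : R →ₐ[k] PowerSeries (PowerSeries k)}
    {ξ : R →ₐ[k] k} (hξ : ∃ j > 0, ∃ r ∈ 𝒜 j, ξ r ≠ 0) (hord : IsOrd 𝒜 φ 2 ξ) {μ : ℕ}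
    (hmark : IsMark 𝒜 φ μ w) : HasCurve 𝒜 w ∨ Sim 𝒜 ξ w := by
  obtain ⟨α', β', hα, hβ, F, hs⟩ := exists_step hx hgen two_pos hord (hmark.pure hw)
  obtain ⟨b, e, h, Ψ', hbe, hmon, hdh, h4, h5, h6, h7⟩ := hs.base hLB hx hgen hξ
  by_cases hlt : β' * 2 < α' * μ
  · -- the origin is a base point
    have hmark' : IsMark 𝒜 ((recen 0).comp F) (α' * μ - β' * 2) w := by
      intro j r hr
      rw [AlgHom.comp_apply, ev0_recen]
      exact (hs.mark hmark hw).2 j r hr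
    have hh0 : h.eval 0 = 0 := by
      by_contra hne
      obtain ⟨j, hj, r, hr, hne'⟩ := h7 0
      have h8 := hs.eval_pos hmark hw hlt hj hr
      rw [h4 j r hr, eval_mul, eval_pow] at h8
      exact mul_ne_zero (pow_ne_zero _ hne) hne' h8
    have hXh : X ∣ h := by
      rw [X_dvd_iff, coeff_zero_eq_eval_zero]
      exact hh0
    obtain ⟨h₁, hh₁⟩ := hXh
    have hmon₁ : h₁.Monic := monic_X.of_mul_monic_left (hh₁ ▸ hmon)
    have hdh₁ : h₁.natDegree + 1 = b := by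
      rw [← hdh, hh₁, monic_X.natDegree_mul hmon₁, natDegree_X, add_comm]
    rcases Nat.eq_zero_or_pos e with he | he
    · subst he
      have hb : b = 2 := by omega
      subst hb
      have hh₁' := hmon₁.eq_X_add_C (by omega)
      set c₁ := h₁.coeff 0 with hc₁
      have hF : ∀ j, ∀ r ∈ 𝒜 j, PowerSeries.constantCoeff (F r) =
          ((X + C 0) * (X + C c₁)) ^ j * C (ξ r) := by
        intro j r hr
        rw [h4 j r hr, hh₁, hh₁', eq_C_of_zero_mul (h5 j r hr) (h6 j r hr), map_zero, add_zero]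
      have hc₁0 : c₁ ≠ 0 := by
        intro h0
        obtain ⟨j, r, hr, m, hm, hne⟩ := hs.low
        apply hne
        rw [hF j r hr, h0, map_zero, add_zero, coeff_mul_C, ← sq, ← pow_mul, coeff_X_pow,
          if_neg (by omega), zero_mul]
      obtain ⟨ξ', hξ'⟩ := bubble_twist 𝒜 ξ (c₁ - 0)
      have hξ'' : ∀ j, ∀ r ∈ 𝒜 j, ξ' r = c₁ ^ j * ξ r := fun j r hr => by
        rw [hξ' j r hr, sub_zero]
      have hord' : IsOrd 𝒜 ((recen 0).comp F) 1 ξ' := by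
        have := isOrd_recen_one hF hξ'
        rwa [neg_zero] at this
      rcases lemA1 hLB hx hgen hw (by
        obtain ⟨j, hj, r, hr, hne⟩ := hξ
        exact ⟨j, hj, r, hr, by
          rw [hξ'' j r hr]; exact mul_ne_zero (pow_ne_zero _ hc₁0) hne⟩) hord' hmark' with h8 | h8
      · exact Or.inl h8
      · right
        obtain ⟨c, hc, hcs⟩ := h8
        refine ⟨c₁⁻¹ * c, mul_ne_zero (inv_ne_zero hc₁0) hc, fun j r hr => ?_⟩
        rw [mul_pow, mul_assoc, ← hcs j r hr, hξ'' j r hr, ← mul_assoc, ← mul_pow,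
          inv_mul_cancel₀ hc₁0, one_pow, one_mul]
    · have he1 : e = 1 := by omega
      have hh₁' : h₁ = 1 := by
        rw [← hmon₁.natDegree_eq_zero]
        omega
      left
      let ξ' : R →ₐ[k] k := (Polynomial.aeval (0 : k)).comp Ψ'
      have hξ' : ∀ r, ξ' r = (Ψ' r).eval 0 := fun r => by
        change Polynomial.aeval (0 : k) (Ψ' r) = _
        rw [coe_aeval_eq_eval]
      have hord' : IsOrd 𝒜 ((recen 0).comp F) 1 ξ' := by
        have key : ∀ j, ∀ r ∈ 𝒜 j, PowerSeries.constantCoeff (((recen (0 : k)).comp F) r) =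
            PowerSeries.X ^ j * expandAt 0 (Ψ' r) := by
          intro j r hr
          have h9 : expandAt (0 : k) (X : k[X]) = PowerSeries.X := by
            have := expandAt_X_add_C (0 : k) 0
            simpa using this
          rw [AlgHom.comp_apply, constantCoeff_recen, h4 j r hr, hh₁, hh₁', mul_one, map_mul,
            map_pow, h9]
        refine ⟨fun j r hr => ?_, fun j r hr => ?_⟩
        · rw [key j r hr, one_mul]
          exact Dvd.intro _ rfl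
        · rw [key j r hr, one_mul, PowerSeries.coeff_X_pow_mul', if_pos le_rfl, Nat.sub_self,
            PowerSeries.coeff_zero_eq_constantCoeff, constantCoeff_expandAt, hξ']
      rcases lemA1 hLB hx hgen hw (by
        obtain ⟨j, hj, r, hr, hne⟩ := h7 0
        exact ⟨j, hj, r, hr, by rwa [hξ']⟩) hord' hmark' with h8 | h8
      · exact h8
      · obtain ⟨c, hc, hcs⟩ := h8
        exact hasCurve_zero (Or.inl he1) h5 (sim_coeff (w := w) h6 hξ) h7 c hc
          fun j r hr => by rw [← hξ', hcs j r hr]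
  · -- the value at the origin is `w`
    have hval : ∀ j, ∀ r ∈ 𝒜 j, (h.eval 0) ^ j * (Ψ' r).eval 0 = w r := by
      intro j r hr
      have h8 := hs.eval_zero hmark hw hlt hr
      rwa [h4 j r hr, eval_mul, eval_pow] at h8
    have hh0 : h.eval 0 ≠ 0 := by
      intro h0
      obtain ⟨j, hj, r, hr, hne⟩ := hw
      apply hne
      rw [← hval j r hr, h0, zero_pow hj.ne', zero_mul]
    have hval' : ∀ j, ∀ r ∈ 𝒜 j, (Ψ' r).eval 0 = ((h.eval 0)⁻¹) ^ j * w r := by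
      intro j r hr
      rw [← hval j r hr, ← mul_assoc, ← mul_pow, inv_mul_cancel₀ hh0, one_pow, one_mul]
    rcases Nat.eq_zero_or_pos e with he | he
    · right
      subst he
      refine ⟨(h.eval 0)⁻¹, inv_ne_zero hh0, fun j r hr => ?_⟩
      rw [← hval' j r hr, eq_C_of_zero_mul (h5 j r hr) (h6 j r hr), eval_C]
    · left
      exact hasCurve_zero (by omega) h5 (sim_coeff (w := w) h6 hξ) h7 _ (inv_ne_zero hh0) hval'

end bubble

/-- **Bubble lemma.** A family of maps degenerates with a base point of multiplicity at most two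
at a marked point with constant value `w`: then there is a curve of degree one or two through
`w`. -/
theorem bubble {k : Type u} [Field k] [IsAlgClosed k] (h2 : (2 : k) ≠ 0) {R : Type v}
    [CommRing R] [Algebra k R] [Algebra.FiniteType k R] (𝒜 : ℕ → Submodule k R)
    [GradedAlgebra 𝒜]
    (hLB : ∀ q : R →ₐ[k] k, (∃ j > 0, ∃ r ∈ 𝒜 j, q r ≠ 0) →
      ∀ d : ℕ, (∀ j, ∀ r ∈ 𝒜 j, q r ≠ 0 → d ∣ j) → d = 1)
    (φ : R →ₐ[k] PowerSeries (PowerSeries k)) (w : R →ₐ[k] k)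
    (hw : ∃ j > 0, ∃ r ∈ 𝒜 j, w r ≠ 0) (μ : ℕ) (hμ : 0 < μ)
    (hmark : ∀ j, ∀ r ∈ 𝒜 j, PowerSeries.map PowerSeries.constantCoeff (φ r) =
      PowerSeries.X ^ (μ * j) * PowerSeries.C (w r))
    (hbpf : ∃ L : ℕ, PowerSeries.X ^ L ∈ Ideal.span {f | ∃ j > 0, ∃ r ∈ 𝒜 j, f = φ r})
    (hlow : ∃ j > 0, ∃ r ∈ 𝒜 j, ∃ n < 3 * j,
      PowerSeries.coeff n (PowerSeries.constantCoeff (φ r)) ≠ 0) :
    ∃ e : ℕ, (e = 1 ∨ e = 2) ∧ ∃ ψ : R →ₐ[k] MvPolynomial (Fin 2) k,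
      (∀ j, ∀ r ∈ 𝒜 j, (ψ r).IsHomogeneous (e * j)) ∧
      (∀ a : Fin 2 → k, a ≠ 0 → ∃ j > 0, ∃ r ∈ 𝒜 j, MvPolynomial.eval a (ψ r) ≠ 0) ∧
      ∀ r, MvPolynomial.eval ![1, 0] (ψ r) = w r := by
  obtain ⟨n, x, d, hx, hgen⟩ := exists_gens 𝒜 (k := k)
  obtain ⟨L, hL⟩ := hbpf
  have hLB' : IsLB 𝒜 := hLB
  have hmark' : IsMark 𝒜 φ μ w := hmark
  obtain ⟨ν, G, hG, hGne⟩ := lead hLB' hx hgen ((ccA k (PowerSeries k)).comp φ) (by
    obtain ⟨j, hj, r, hr, m, -, hm⟩ := hlow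
    refine ⟨j, hj, r, hr, fun h0 => hm ?_⟩
    rw [AlgHom.comp_apply, ccA_apply] at h0
    rw [h0, map_zero])
  have hG' : ∀ j, ∀ r ∈ 𝒜 j, PowerSeries.constantCoeff (φ r) =
      PowerSeries.X ^ (ν * j) * G r := fun j r hr => hG j r hr
  have hν3 : ν < 3 := by
    obtain ⟨j, hj, r, hr, m, hm3, hm⟩ := hlow
    by_contra hcon
    apply hm
    rw [hG' j r hr, PowerSeries.coeff_X_pow_mul', if_neg]
    have : 3 * j ≤ ν * j := Nat.mul_le_mul_right _ (by omega)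
    omega
  have hν0 : ν ≠ 0 := by
    rintro rfl
    obtain ⟨j, hj, r, hr, hne⟩ := hGne
    apply hne
    have h1 := hG' j r hr
    rw [zero_mul, pow_zero, one_mul] at h1
    rw [← h1]
    have h2 := congrArg PowerSeries.constantCoeff (hmark j r hr)
    rw [map_mul, map_pow, PowerSeries.constantCoeff_X, zero_pow (Nat.mul_pos hμ hj).ne',
      zero_mul, ← PowerSeries.coeff_zero_eq_constantCoeff_apply, PowerSeries.coeff_map,
      PowerSeries.coeff_zero_eq_constantCoeff_apply] at h2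
    exact h2
  have hord : IsOrd 𝒜 φ ν ((ccA k k).comp G) := by
    refine ⟨fun j r hr => ?_, fun j r hr => ?_⟩
    · rw [hG' j r hr]
      exact Dvd.intro _ rfl
    · rw [hG' j r hr, PowerSeries.coeff_X_pow_mul', if_pos le_rfl, Nat.sub_self,
        PowerSeries.coeff_zero_eq_constantCoeff]
      rfl
  have hξ : ∃ j > 0, ∃ r ∈ 𝒜 j, ((ccA k k).comp G) r ≠ 0 := hGne
  have hcases : ν = 1 ∨ ν = 2 := by omega
  have hfinal : HasCurve 𝒜 w := by
    rcases hcases with h1 | h1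
    · subst h1
      rcases lemA1 hLB' hx hgen hw hξ hord hmark' with h3 | h3
      · exact h3
      · exact lemB1 hLB' hx hgen L φ _ hξ hord hL h3
    · subst h1
      rcases lemA2 h2 hLB' hx hgen hw hξ hord hmark' with h3 | h3
      · exact h3
      · exact lemB2 h2 hLB' hx hgen L φ _ hξ hord hL h3
  exact hfinal

end Vale.Agent.P292.Mo
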