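import Mathlib

/-! # Bubble lemma, part 1: graded homomorphisms into power series. -/

namespace Vale.Agent.P292.Mo

open Polynomial

universe u v w

section twist

variable {k : Type u} [CommRing k] {R : Type v} [CommRing R] [Algebra k R] (𝒜 : ℕ → Submodule k R)
  [GradedAlgebra 𝒜]

/-- Twisting a homomorphism from a graded algebra by an element. -/
theorem bubble_twist {B : Type w} [CommRing B] [Algebra k B] (Φ : R →ₐ[k] B) (t : B) :
    ∃ F : R →ₐ[k] B, ∀ j, ∀ r ∈ 𝒜 j, F r = t ^ j * Φ r := by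
  let f : ∀ i, 𝒜 i →ₗ[k] B := fun i => (LinearMap.mulLeft k (t ^ i)) ∘ₗ Φ.toLinearMap ∘ₗ
    (𝒜 i).subtype
  have hf : ∀ i (x : 𝒜 i), f i x = t ^ i * Φ (x : R) := fun i x => rfl
  let G : (DirectSum ℕ fun i => 𝒜 i) →ₐ[k] B := DirectSum.toAlgebra k (fun i => 𝒜 i) f
    (by rw [hf]; simp) (fun {i j} a b => by
      rw [hf, hf, hf, SetLike.coe_gMul, map_mul, pow_add]; ring)
  refine ⟨G.comp (DirectSum.decomposeAlgEquiv 𝒜 : R →ₐ[k] _), fun j r hr => ?_⟩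
  have h1 : (DirectSum.decomposeAlgEquiv 𝒜 : R →ₐ[k] DirectSum ℕ fun i => 𝒜 i) r =
      DirectSum.of (fun i => 𝒜 i) j ⟨r, hr⟩ := DirectSum.decompose_of_mem 𝒜 hr
  rw [AlgHom.comp_apply, h1]
  have h2 : G (DirectSum.of (fun i => 𝒜 i) j ⟨r, hr⟩) = f j ⟨r, hr⟩ := by
    simp only [G, DirectSum.toAlgebra_apply]
    exact DirectSum.toSemiring_of _ _ _ _ _
  rw [h2, hf]

/-- Untwisting a homomorphism to a domain. -/
theorem exists_untwist {B : Type w} [CommRing B] [IsDomain B] [Algebra k B]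
    (Φ : R →ₐ[k] B) (t : B) (ht : t ≠ 0) {ι : Type*} {x : ι → R} {d : ι → ℕ}
    (hx : ∀ i, x i ∈ 𝒜 (d i)) (hgen : Algebra.adjoin k (Set.range x) = ⊤)
    (h : ∀ i, t ^ d i ∣ Φ (x i)) :
    ∃ F : R →ₐ[k] B, ∀ j, ∀ r ∈ 𝒜 j, Φ r = t ^ j * F r := by
  let K := FractionRing B
  let ι₀ : B →ₐ[k] K := IsScalarTower.toAlgHom k B K
  have hι : Function.Injective ι₀ := IsFractionRing.injective B K
  have ht' : ι₀ t ≠ 0 := fun h0 => ht (hι (h0.trans (map_zero _).symm))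
  obtain ⟨F₀, hF₀⟩ := bubble_twist 𝒜 (ι₀.comp Φ) (ι₀ t)⁻¹
  have hrange : ∀ r, F₀ r ∈ ι₀.range := by
    have h1 : Algebra.adjoin k (Set.range x) ≤ ι₀.range.comap F₀ := by
      rw [Algebra.adjoin_le_iff]
      rintro _ ⟨i, rfl⟩
      obtain ⟨c, hc⟩ := h i
      refine ⟨c, ?_⟩
      change ι₀ c = F₀ (x i)
      rw [hF₀ _ _ (hx i), AlgHom.comp_apply, hc,
        map_mul, map_pow, ← mul_assoc, ← mul_pow, inv_mul_cancel₀ ht', one_pow, one_mul]
    intro r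
    have h2 : r ∈ Algebra.adjoin k (Set.range x) := by rw [hgen]; trivial
    exact h1 h2
  let F₁ : R →ₐ[k] ι₀.range := F₀.codRestrict ι₀.range hrange
  let F : R →ₐ[k] B := ((AlgEquiv.ofInjective ι₀ hι).symm : ι₀.range →ₐ[k] B).comp F₁
  have hF : ∀ r, ι₀ (F r) = F₀ r := by
    intro r
    have h1 : (AlgEquiv.ofInjective ι₀ hι) (F r) = F₁ r := by
      simp [F]
    have h2 := congrArg Subtype.val h1
    rw [AlgEquiv.ofInjective_apply] at h2
    exact h2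
  refine ⟨F, fun j r hr => hι ?_⟩
  rw [map_mul, map_pow, hF, hF₀ j r hr, AlgHom.comp_apply, ← mul_assoc, ← mul_pow,
    mul_inv_cancel₀ ht', one_pow, one_mul]

/-- Homogeneous generators. -/
theorem exists_gens [Algebra.FiniteType k R] :
    ∃ (n : ℕ) (x : Fin n → R) (d : Fin n → ℕ), (∀ i, x i ∈ 𝒜 (d i)) ∧
      Algebra.adjoin k (Set.range x) = ⊤ := by
  classical
  obtain ⟨s, hs⟩ := (inferInstance : Algebra.FiniteType k R).out
  let T : Finset (Σ _ : R, ℕ) := s.sigma fun r => (DirectSum.decompose 𝒜 r).support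
  let e := T.equivFin
  refine ⟨T.card, fun i => (DirectSum.decompose 𝒜 (e.symm i).1.1 (e.symm i).1.2 : R),
    fun i => (e.symm i).1.2, fun i => SetLike.coe_mem _, ?_⟩
  rw [eq_top_iff, ← hs, Algebra.adjoin_le_iff]
  intro r hr
  rw [← DirectSum.sum_support_decompose 𝒜 r]
  refine Subalgebra.sum_mem _ fun j hj => Algebra.subset_adjoin ?_
  refine ⟨e ⟨⟨r, j⟩, Finset.mem_sigma.mpr ⟨hr, hj⟩⟩, ?_⟩
  change (fun z : T => (DirectSum.decompose 𝒜 z.1.1 z.1.2 : R)) (e.symm (e _)) = _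
  rw [Equiv.symm_apply_apply]

end twist

end Vale.Agent.P292.Mo
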