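import Vale.Agent.P292.Mo.Bubble1

/-! # Bubble lemma, part 2: leading forms. -/

namespace Vale.Agent.P292.Mo

open Polynomial

universe u v w

/-- The constant coefficient as an algebra homomorphism. -/
noncomputable def ccA (k : Type u) [CommRing k] (S : Type v) [CommRing S] [Algebra k S] :
    PowerSeries S →ₐ[k] S :=
  { PowerSeries.constantCoeff (R := S) with
    commutes' := fun r => by
      change PowerSeries.constantCoeff (algebraMap k (PowerSeries S) r) = _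
      rw [PowerSeries.algebraMap_apply, PowerSeries.constantCoeff_C] }

@[simp] theorem ccA_apply {k : Type u} [CommRing k] {S : Type v} [CommRing S] [Algebra k S]
    (f : PowerSeries S) : ccA k S f = PowerSeries.constantCoeff f := rfl

/-- The condition `(lb)`: `O(1)` is a line bundle. -/
def IsLB {k : Type u} [Field k] {R : Type v} [CommRing R] [Algebra k R]
    (𝒜 : ℕ → Submodule k R) : Prop :=
  ∀ q : R →ₐ[k] k, (∃ j > 0, ∃ r ∈ 𝒜 j, q r ≠ 0) →
    ∀ d : ℕ, (∀ j, ∀ r ∈ 𝒜 j, q r ≠ 0 → d ∣ j) → d = 1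

section lead

variable {k : Type u} [Field k] {R : Type v} [CommRing R] [Algebra k R] {𝒜 : ℕ → Submodule k R}
  [GradedAlgebra 𝒜] {n : ℕ} {x : Fin n → R} {d : Fin n → ℕ}

theorem exists_gen_ne_zero {S : Type w} [CommRing S] [IsDomain S] [Algebra k S]
    (hx : ∀ i, x i ∈ 𝒜 (d i)) (hgen : Algebra.adjoin k (Set.range x) = ⊤)
    (Φ : R →ₐ[k] PowerSeries S) (hΦ : ∃ j > 0, ∃ r ∈ 𝒜 j, Φ r ≠ 0) :
    ∃ i, 0 < d i ∧ Φ (x i) ≠ 0 := by
  by_contra hcon
  push Not at hcon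
  obtain ⟨j, hj, r, hr, hne⟩ := hΦ
  apply hne
  ext m
  obtain ⟨F, hF⟩ := exists_untwist 𝒜 Φ (PowerSeries.X ^ (m + 1)) (pow_ne_zero _ PowerSeries.X_ne_zero)
    hx hgen (fun i => by
      rcases Nat.eq_zero_or_pos (d i) with h0 | h0
      · rw [h0, pow_zero]; exact one_dvd _
      · rw [hcon i h0]; exact dvd_zero _)
  have h1 := hF j r hr
  have h2 : (PowerSeries.X : PowerSeries S) ^ (m + 1) ∣ Φ r := by
    rw [h1]
    refine Dvd.dvd.mul_right ?_ _
    exact dvd_pow_self _ hj.ne'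
  rw [PowerSeries.X_pow_dvd_iff] at h2
  rw [h2 m (Nat.lt_succ_self m), map_zero]

/-- Leading coefficients of a homomorphism to power series; the order is integral. -/
theorem lead (hLB : IsLB 𝒜) (hx : ∀ i, x i ∈ 𝒜 (d i))
    (hgen : Algebra.adjoin k (Set.range x) = ⊤) (Φ : R →ₐ[k] PowerSeries k)
    (hΦ : ∃ j > 0, ∃ r ∈ 𝒜 j, Φ r ≠ 0) :
    ∃ (ν : ℕ) (G : R →ₐ[k] PowerSeries k),
      (∀ j, ∀ r ∈ 𝒜 j, Φ r = PowerSeries.X ^ (ν * j) * G r) ∧
      ∃ j > 0, ∃ r ∈ 𝒜 j, PowerSeries.constantCoeff (G r) ≠ 0 := by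
  classical
  obtain ⟨i₁, hi₁, hi₁'⟩ := exists_gen_ne_zero hx hgen Φ hΦ
  set o : Fin n → ℕ := fun i => (Φ (x i)).order.toNat with ho
  have ho1 : ∀ i, PowerSeries.X ^ o i ∣ Φ (x i) := fun i => PowerSeries.X_pow_order_dvd
  have ho2 : ∀ i, Φ (x i) ≠ 0 → PowerSeries.coeff (o i) (Φ (x i)) ≠ 0 := fun i h =>
    PowerSeries.coeff_order h
  set I : Finset (Fin n) := Finset.univ.filter fun i => 0 < d i ∧ Φ (x i) ≠ 0 with hI
  obtain ⟨i₀, hi₀, hmin⟩ := Finset.exists_min_image I (fun i => (o i : ℚ) / d i)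
    ⟨i₁, by rw [hI, Finset.mem_filter]; exact ⟨Finset.mem_univ _, hi₁, hi₁'⟩⟩
  rw [hI, Finset.mem_filter] at hi₀
  obtain ⟨-, hB, hne⟩ := hi₀
  have hle : ∀ i, 0 < d i → Φ (x i) ≠ 0 → o i₀ * d i ≤ d i₀ * o i := by
    intro i h1 h2
    have h3 := hmin i (by rw [hI, Finset.mem_filter]; exact ⟨Finset.mem_univ _, h1, h2⟩)
    rw [div_le_div_iff₀ (by exact_mod_cast hB) (by exact_mod_cast h1)] at h3
    have h4 : o i₀ * d i ≤ o i * d i₀ := by exact_mod_cast h3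
    rwa [mul_comm (d i₀)]
  set E : PowerSeries k →ₐ[k] PowerSeries k := PowerSeries.expand (d i₀) hB.ne' with hE
  have hdvd : ∀ i, ((PowerSeries.X : PowerSeries k) ^ o i₀) ^ d i ∣ (E.comp Φ) (x i) := by
    intro i
    rw [AlgHom.comp_apply]
    rcases Nat.eq_zero_or_pos (d i) with h0 | h0
    · rw [h0, pow_zero]; exact one_dvd _
    · by_cases h1 : Φ (x i) = 0
      · rw [h1, map_zero]; exact dvd_zero _
      · obtain ⟨g, hg⟩ := ho1 i
        rw [hg, map_mul, map_pow, hE, PowerSeries.expand_X, ← pow_mul, ← pow_mul]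
        exact Dvd.dvd.mul_right (pow_dvd_pow _ (hle i h0 h1)) _
  obtain ⟨F, hF⟩ := exists_untwist 𝒜 (E.comp Φ) (PowerSeries.X ^ o i₀)
    (pow_ne_zero _ PowerSeries.X_ne_zero) hx hgen hdvd
  have hcF : ∀ j, ∀ r ∈ 𝒜 j, PowerSeries.constantCoeff (F r) =
      PowerSeries.coeff (o i₀ * j) (E (Φ r)) := by
    intro j r hr
    have h1 := hF j r hr
    rw [AlgHom.comp_apply] at h1
    rw [h1, ← pow_mul, PowerSeries.coeff_X_pow_mul', if_pos le_rfl, Nat.sub_self,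
      PowerSeries.coeff_zero_eq_constantCoeff]
  have hgcd : d i₀ / Nat.gcd (o i₀) (d i₀) = 1 := by
    refine hLB ((ccA k k).comp F) ⟨d i₀, hB, x i₀, hx i₀, ?_⟩ _ ?_
    · rw [AlgHom.comp_apply, ccA_apply, hcF _ _ (hx i₀), mul_comm, hE,
        PowerSeries.coeff_expand_mul]
      exact ho2 i₀ hne
    · intro j r hr hq
      rw [AlgHom.comp_apply, ccA_apply, hcF _ _ hr] at hq
      have h1 : d i₀ ∣ o i₀ * j := by
        by_contra h2
        exact hq (PowerSeries.coeff_expand_of_not_dvd _ _ _ h2)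
      have hg : 0 < Nat.gcd (o i₀) (d i₀) := Nat.gcd_pos_of_pos_right _ hB
      have h3 : d i₀ / Nat.gcd (o i₀) (d i₀) ∣ (o i₀ / Nat.gcd (o i₀) (d i₀)) * j := by
        obtain ⟨a, ha⟩ := Nat.gcd_dvd_left (o i₀) (d i₀)
        obtain ⟨b, hb⟩ := Nat.gcd_dvd_right (o i₀) (d i₀)
        rw [Nat.div_eq_of_eq_mul_right hg ha, Nat.div_eq_of_eq_mul_right hg hb]
        refine Nat.dvd_of_mul_dvd_mul_left hg ?_
        rw [← hb, ← mul_assoc, ← ha]
        exact h1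
      exact Nat.Coprime.dvd_of_dvd_mul_left (Nat.coprime_div_gcd_div_gcd hg).symm h3
  obtain ⟨ν, hν⟩ : d i₀ ∣ o i₀ := by
    have h1 := Nat.div_mul_cancel (Nat.gcd_dvd_right (o i₀) (d i₀))
    rw [hgcd, one_mul] at h1
    conv_lhs => rw [← h1]
    exact Nat.gcd_dvd_left _ _
  obtain ⟨G, hG⟩ := exists_untwist 𝒜 Φ (PowerSeries.X ^ ν)
    (pow_ne_zero _ PowerSeries.X_ne_zero) hx hgen (fun i => by
      rcases Nat.eq_zero_or_pos (d i) with h0 | h0
      · rw [h0, pow_zero]; exact one_dvd _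
      · by_cases h1 : Φ (x i) = 0
        · rw [h1]; exact dvd_zero _
        · refine dvd_trans ?_ (ho1 i)
          rw [← pow_mul]
          refine pow_dvd_pow _ ?_
          have h2 := hle i h0 h1
          rw [hν, mul_assoc] at h2
          exact Nat.le_of_mul_le_mul_left h2 hB)
  refine ⟨ν, G, fun j r hr => by rw [hG j r hr, ← pow_mul], d i₀, hB, x i₀, hx i₀, ?_⟩
  have h1 := hG _ _ (hx i₀)
  have h2 := ho2 i₀ hne
  rw [h1, ← pow_mul, mul_comm ν, ← hν, PowerSeries.coeff_X_pow_mul', if_pos le_rfl,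
    Nat.sub_self, PowerSeries.coeff_zero_eq_constantCoeff] at h2
  exact h2

end lead

end Vale.Agent.P292.Mo
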