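import Vale.Agent.P292.Mo.Bubble2

/-! # Bubble lemma, part 3: removing base points. -/

namespace Vale.Agent.P292.Mo

open Polynomial

universe u v w

section bp

variable {k : Type u} [Field k] {R : Type v} [CommRing R] [Algebra k R] {𝒜 : ℕ → Submodule k R}
  [GradedAlgebra 𝒜] {n : ℕ} {x : Fin n → R} {d : Fin n → ℕ}

/-- Expansion at `a`. -/
noncomputable def expandAt (a : k) : k[X] →ₐ[k] PowerSeries k :=
  (Polynomial.coeToPowerSeries.algHom k).comp (taylorAlgHom a)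

theorem expandAt_apply (a : k) (p : k[X]) : expandAt a p = ((taylor a p : k[X]) : PowerSeries k) := by
  simp [expandAt, Polynomial.coeToPowerSeries.algHom_apply]

theorem coeff_expandAt (a : k) (p : k[X]) (m : ℕ) :
    PowerSeries.coeff m (expandAt a p) = (taylor a p).coeff m := by
  rw [expandAt_apply, Polynomial.coeff_coe]

theorem constantCoeff_expandAt (a : k) (p : k[X]) :
    PowerSeries.constantCoeff (expandAt a p) = p.eval a := by
  rw [← PowerSeries.coeff_zero_eq_constantCoeff_apply, coeff_expandAt, taylor_coeff_zero]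

theorem expandAt_injective (a : k) : Function.Injective (expandAt a) := by
  intro p q h
  rw [expandAt_apply, expandAt_apply, Polynomial.coe_inj] at h
  exact taylor_injective a h

theorem pow_dvd_of_expandAt (a : k) (p : k[X]) (m : ℕ)
    (h : PowerSeries.X ^ m ∣ expandAt a p) : (X - C a) ^ m ∣ p := by
  rw [Polynomial.X_sub_C_pow_dvd_iff, ← taylor_apply, Polynomial.X_pow_dvd_iff]
  rw [PowerSeries.X_pow_dvd_iff] at h
  intro i hi
  rw [← coeff_expandAt]
  exact h i hi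

theorem natDegree_pow_X_sub_C (a : k) (j : ℕ) : ((X - C a) ^ j).natDegree = j := by
  rw [(monic_X_sub_C a).natDegree_pow, natDegree_X_sub_C, mul_one]

/-- Base points can be removed. -/
theorem base_points (hLB : IsLB 𝒜) (hx : ∀ i, x i ∈ 𝒜 (d i))
    (hgen : Algebra.adjoin k (Set.range x) = ⊤) : ∀ (β : ℕ) (Ψ : R →ₐ[k] k[X]),
    (∀ j, ∀ r ∈ 𝒜 j, (Ψ r).natDegree ≤ β * j) →
    (∃ j > 0, ∃ r ∈ 𝒜 j, (Ψ r).coeff (β * j) ≠ 0) →
    ∃ (b e : ℕ) (h : k[X]) (Ψ' : R →ₐ[k] k[X]), b + e = β ∧ h.Monic ∧ h.natDegree = b ∧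
      (∀ j, ∀ r ∈ 𝒜 j, Ψ r = h ^ j * Ψ' r) ∧ (∀ j, ∀ r ∈ 𝒜 j, (Ψ' r).natDegree ≤ e * j) ∧
      (∀ j, ∀ r ∈ 𝒜 j, (Ψ' r).coeff (e * j) = (Ψ r).coeff (β * j)) ∧
      ∀ a : k, ∃ j > 0, ∃ r ∈ 𝒜 j, (Ψ' r).eval a ≠ 0 := by
  intro β
  induction β with
  | zero =>
    intro Ψ hdeg hne
    refine ⟨0, 0, 1, Ψ, rfl, monic_one, natDegree_one, fun j r _ => by simp, hdeg,
      fun j r _ => rfl, fun a => ?_⟩
    obtain ⟨j, hj, r, hr, h⟩ := hne
    refine ⟨j, hj, r, hr, fun h0 => h ?_⟩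
    have h1 : Ψ r = C ((Ψ r).coeff 0) := by
      apply Polynomial.eq_C_of_natDegree_le_zero
      simpa using hdeg j r hr
    rw [h1, eval_C] at h0
    rwa [zero_mul]
  | succ β ih =>
    intro Ψ hdeg hne
    by_cases hbp : ∀ a : k, ∃ j > 0, ∃ r ∈ 𝒜 j, (Ψ r).eval a ≠ 0
    · exact ⟨0, β + 1, 1, Ψ, by omega, monic_one, natDegree_one, fun j r _ => by simp, hdeg,
        fun j r _ => rfl, hbp⟩
    · push Not at hbp
      obtain ⟨a, ha⟩ := hbp
      obtain ⟨ν, G, hG, j₀, hj₀, r₀, hr₀, hne₀⟩ := lead hLB hx hgen ((expandAt a).comp Ψ) (by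
        obtain ⟨j, hj, r, hr, h⟩ := hne
        refine ⟨j, hj, r, hr, fun h0 => h ?_⟩
        rw [AlgHom.comp_apply] at h0
        rw [expandAt_injective a (h0.trans (map_zero _).symm), coeff_zero])
      have hν : 1 ≤ ν := by
        by_contra h0
        have h1 : ν = 0 := by omega
        apply hne₀
        have h2 := hG j₀ r₀ hr₀
        rw [h1, zero_mul, pow_zero, one_mul] at h2
        rw [← h2, AlgHom.comp_apply, constantCoeff_expandAt]
        exact ha j₀ hj₀ r₀ hr₀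
      have hdvd : ∀ j, ∀ r ∈ 𝒜 j, (X - C a) ^ j ∣ Ψ r := by
        intro j r hr
        apply pow_dvd_of_expandAt
        have h1 := hG j r hr
        rw [AlgHom.comp_apply] at h1
        rw [h1]
        exact Dvd.dvd.mul_right (pow_dvd_pow _ (Nat.le_mul_of_pos_left _ hν)) _
      obtain ⟨Ψ₁, hΨ₁⟩ := exists_untwist 𝒜 Ψ (X - C a) (X_sub_C_ne_zero a) hx hgen
        (fun i => hdvd _ _ (hx i))
      have hdeg₁ : ∀ j, ∀ r ∈ 𝒜 j, (Ψ₁ r).natDegree ≤ β * j := by
        intro j r hr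
        by_cases h0 : Ψ₁ r = 0
        · rw [h0, natDegree_zero]; exact Nat.zero_le _
        · have h1 := hdeg j r hr
          rw [hΨ₁ j r hr, natDegree_mul (pow_ne_zero _ (X_sub_C_ne_zero a)) h0,
            natDegree_pow_X_sub_C, add_mul, one_mul] at h1
          omega
      have hcoeff : ∀ j, ∀ r ∈ 𝒜 j, (Ψ₁ r).coeff (β * j) = (Ψ r).coeff ((β + 1) * j) := by
        intro j r hr
        have h1 : ((X - C a) ^ j).coeff j = 1 := by
          have := (monic_X_sub_C a).pow j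
          rw [Monic, leadingCoeff, natDegree_pow_X_sub_C] at this
          exact this
        rw [hΨ₁ j r hr, add_mul, one_mul, add_comm (β * j) j,
          coeff_mul_add_eq_of_natDegree_le (natDegree_pow_X_sub_C a j).le (hdeg₁ j r hr), h1, one_mul]
      obtain ⟨b, e, h, Ψ', hbe, hmon, hdh, h3, h4, h5, h6⟩ := ih Ψ₁ hdeg₁ (by
        obtain ⟨j, hj, r, hr, h⟩ := hne
        exact ⟨j, hj, r, hr, by rwa [hcoeff j r hr]⟩)
      refine ⟨b + 1, e, (X - C a) * h, Ψ', by omega, (monic_X_sub_C a).mul hmon, ?_, ?_, h4, ?_,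
        h6⟩
      · rw [(monic_X_sub_C a).natDegree_mul hmon, natDegree_X_sub_C, hdh, add_comm]
      · intro j r hr
        rw [hΨ₁ j r hr, h3 j r hr, mul_pow, mul_assoc]
      · intro j r hr
        rw [h5 j r hr, hcoeff j r hr]

end bp

theorem eval_homogenize_infty {k : Type u} [Field k] (p : k[X]) (n : ℕ) (a : Fin 2 → k)
    (ha : a 1 = 0) : MvPolynomial.eval a (p.homogenize n) = p.coeff n * a 0 ^ n := by
  classical
  rw [homogenize, map_sum, Finset.sum_eq_single (n, 0)]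
  · rw [MvPolynomial.eval_monomial, Finsupp.update_eq_add_single, Finsupp.prod_add_index',
      Finsupp.prod_single_index, Finsupp.prod_single_index]
    all_goals simp_all [pow_add]
  · rintro ⟨i, j⟩ hij hne
    have hj : j ≠ 0 := by
      rintro rfl
      apply hne
      have h1 := Finset.HasAntidiagonal.mem_antidiagonal.mp hij
      simp only [add_zero] at h1
      rw [h1]
    rw [MvPolynomial.eval_monomial, Finsupp.update_eq_add_single, Finsupp.prod_add_index',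
      Finsupp.prod_single_index, Finsupp.prod_single_index]
    all_goals simp_all [pow_add]
  · intro h
    exact absurd (Finset.HasAntidiagonal.mem_antidiagonal.mpr (add_zero n)) h

/-- The curve given by a base point free `Ψ`. -/
theorem curve_of_bpf {k : Type u} [Field k] {R : Type v} [CommRing R] [Algebra k R]
    {𝒜 : ℕ → Submodule k R} [GradedAlgebra 𝒜] {e : ℕ} {Ψ : R →ₐ[k] k[X]}
    (hdeg : ∀ j, ∀ r ∈ 𝒜 j, (Ψ r).natDegree ≤ e * j)
    (hinf : ∃ j > 0, ∃ r ∈ 𝒜 j, (Ψ r).coeff (e * j) ≠ 0)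
    (hbpf : ∀ a : k, ∃ j > 0, ∃ r ∈ 𝒜 j, (Ψ r).eval a ≠ 0) :
    ∃ ψ : R →ₐ[k] MvPolynomial (Fin 2) k, (∀ j, ∀ r ∈ 𝒜 j, (ψ r).IsHomogeneous (e * j)) ∧
      (∀ a : Fin 2 → k, a ≠ 0 → ∃ j > 0, ∃ r ∈ 𝒜 j, MvPolynomial.eval a (ψ r) ≠ 0) ∧
      (∀ j, ∀ r ∈ 𝒜 j, MvPolynomial.eval ![1, 0] (ψ r) = (Ψ r).coeff (e * j)) ∧
      (∀ j, ∀ r ∈ 𝒜 j, MvPolynomial.eval ![0, 1] (ψ r) = (Ψ r).eval 0) := by
  let f : ∀ i, 𝒜 i →ₗ[k] MvPolynomial (Fin 2) k := fun i =>
    (homogenizeLM (e * i)) ∘ₗ Ψ.toLinearMap ∘ₗ (𝒜 i).subtype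
  have hf : ∀ i (y : 𝒜 i), f i y = (Ψ (y : R)).homogenize (e * i) := fun i y => rfl
  let G : (DirectSum ℕ fun i => 𝒜 i) →ₐ[k] MvPolynomial (Fin 2) k :=
    DirectSum.toAlgebra k (fun i => 𝒜 i) f
    (by rw [hf]; simp) (fun {i j} a b => by
      rw [hf, hf, hf, SetLike.coe_gMul, map_mul, mul_add,
        homogenize_mul _ _ (hdeg _ _ a.2) (hdeg _ _ b.2)])
  have hG : ∀ j, ∀ r ∈ 𝒜 j, (G.comp (DirectSum.decomposeAlgEquiv 𝒜 : R →ₐ[k] _)) r =
      (Ψ r).homogenize (e * j) := by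
    intro j r hr
    have h1 : (DirectSum.decomposeAlgEquiv 𝒜 : R →ₐ[k] DirectSum ℕ fun i => 𝒜 i) r =
        DirectSum.of (fun i => 𝒜 i) j ⟨r, hr⟩ := DirectSum.decompose_of_mem 𝒜 hr
    rw [AlgHom.comp_apply, h1]
    have h2 : G (DirectSum.of (fun i => 𝒜 i) j ⟨r, hr⟩) = f j ⟨r, hr⟩ := by
      simp only [G, DirectSum.toAlgebra_apply]
      exact DirectSum.toSemiring_of _ _ _ _ _
    rw [h2, hf]
  refine ⟨G.comp (DirectSum.decomposeAlgEquiv 𝒜 : R →ₐ[k] _), ?_, ?_, ?_, ?_⟩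
  · intro j r hr
    rw [hG j r hr]
    exact isHomogeneous_homogenize _
  · intro a ha
    by_cases h1 : a 1 = 0
    · have h0 : a 0 ≠ 0 := by
        intro h0
        apply ha
        funext i
        fin_cases i
        · exact h0
        · exact h1
      obtain ⟨j, hj, r, hr, h⟩ := hinf
      refine ⟨j, hj, r, hr, ?_⟩
      rw [hG j r hr, eval_homogenize_infty _ _ _ h1]
      exact mul_ne_zero h (pow_ne_zero _ h0)
    · obtain ⟨j, hj, r, hr, h⟩ := hbpf (a 0 / a 1)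
      refine ⟨j, hj, r, hr, ?_⟩
      rw [hG j r hr, eval_homogenize (hdeg j r hr) _ h1]
      exact mul_ne_zero h (pow_ne_zero _ h1)
  · intro j r hr
    rw [hG j r hr, eval_homogenize_infty _ _ _ (by simp)]
    simp
  · intro j r hr
    rw [hG j r hr, eval_homogenize (hdeg j r hr) _ (by simp)]
    simp

end Vale.Agent.P292.Mo
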