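import Vale.Agent.P292.Mo.Bubble3

/-! # Bubble lemma, part 4: the substitution `z = Z T ^ β`, `τ = T ^ α`. -/

namespace Vale.Agent.P292.Mo

open Polynomial

universe u v w

section theta

variable {k : Type u} [Field k]

/-- The coefficient of `z ^ n`, a power series in `τ`. -/
noncomputable def col (n : ℕ) (f : PowerSeries (PowerSeries k)) : PowerSeries k :=
  PowerSeries.mk fun l => PowerSeries.coeff n (PowerSeries.coeff l f)

@[simp] theorem coeff_col (n l : ℕ) (f : PowerSeries (PowerSeries k)) :
    PowerSeries.coeff l (col n f) = PowerSeries.coeff n (PowerSeries.coeff l f) := by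
  rw [col, PowerSeries.coeff_mk]

theorem col_add (n : ℕ) (f g : PowerSeries (PowerSeries k)) :
    col n (f + g) = col n f + col n g := by
  ext l
  simp

theorem col_mul (n : ℕ) (f g : PowerSeries (PowerSeries k)) :
    col n (f * g) = ∑ p ∈ Finset.HasAntidiagonal.antidiagonal n, col p.1 f * col p.2 g := by
  ext l
  rw [coeff_col, PowerSeries.coeff_mul, map_sum, map_sum]
  simp only [PowerSeries.coeff_mul, coeff_col]
  exact Finset.sum_comm

theorem col_C (n : ℕ) (c : PowerSeries k) :
    col n (PowerSeries.C c) = PowerSeries.C (PowerSeries.coeff n c) := by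
  ext l
  rw [coeff_col, PowerSeries.coeff_C, PowerSeries.coeff_C]
  split_ifs <;> simp

/-- `z ^ n` coefficient after the substitution. -/
noncomputable def scol (α β : ℕ) (hα : α ≠ 0) (n : ℕ) (f : PowerSeries (PowerSeries k)) :
    PowerSeries k := PowerSeries.X ^ (β * n) * PowerSeries.expand α hα (col n f)

theorem scol_add (α β : ℕ) (hα : α ≠ 0) (n : ℕ) (f g : PowerSeries (PowerSeries k)) :
    scol α β hα n (f + g) = scol α β hα n f + scol α β hα n g := by
  rw [scol, scol, scol, col_add, map_add, mul_add]

theorem scol_mul (α β : ℕ) (hα : α ≠ 0) (n : ℕ) (f g : PowerSeries (PowerSeries k)) :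
    scol α β hα n (f * g) =
      ∑ p ∈ Finset.HasAntidiagonal.antidiagonal n, scol α β hα p.1 f * scol α β hα p.2 g := by
  rw [scol, col_mul, map_sum, Finset.mul_sum]
  refine Finset.sum_congr rfl fun p hp => ?_
  rw [Finset.HasAntidiagonal.mem_antidiagonal] at hp
  rw [scol, scol, map_mul, ← hp, mul_add, pow_add]
  ring

theorem coeff_scol_of_lt (α β : ℕ) (hα : α ≠ 0) (n : ℕ) (f : PowerSeries (PowerSeries k)) (m : ℕ)
    (h : m < β * n) : PowerSeries.coeff m (scol α β hα n f) = 0 := by
  rw [scol, PowerSeries.coeff_X_pow_mul', if_neg (by omega)]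

theorem coeff_scol (α β : ℕ) (hα : α ≠ 0) (n l : ℕ) (f : PowerSeries (PowerSeries k)) :
    PowerSeries.coeff (α * l + β * n) (scol α β hα n f) =
      PowerSeries.coeff n (PowerSeries.coeff l f) := by
  rw [scol, PowerSeries.coeff_X_pow_mul', if_pos (by omega), Nat.add_sub_cancel,
    PowerSeries.coeff_expand_mul, coeff_col]

theorem coeff_scol_of_not_dvd (α β : ℕ) (hα : α ≠ 0) (n m : ℕ) (f : PowerSeries (PowerSeries k))
    (h : ¬ α ∣ m - β * n) : PowerSeries.coeff m (scol α β hα n f) = 0 := by
  rw [scol, PowerSeries.coeff_X_pow_mul']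
  split_ifs
  · exact PowerSeries.coeff_expand_of_not_dvd _ _ _ h
  · rfl

/-- The substitution as a function. -/
noncomputable def thetaFun (α β : ℕ) (hα : α ≠ 0) (f : PowerSeries (PowerSeries k)) :
    PowerSeries k[X] :=
  PowerSeries.mk fun m => ∑ n ∈ Finset.range (m + 1),
    monomial n (PowerSeries.coeff m (scol α β hα n f))

theorem coeff_thetaFun (α β : ℕ) (hα : α ≠ 0) (hβ : 0 < β) (f : PowerSeries (PowerSeries k))
    (m n : ℕ) : (PowerSeries.coeff m (thetaFun α β hα f)).coeff n =
      PowerSeries.coeff m (scol α β hα n f) := by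
  rw [thetaFun, PowerSeries.coeff_mk, finset_sum_coeff]
  simp only [coeff_monomial, Finset.sum_ite_eq', Finset.mem_range]
  split_ifs with h
  · rfl
  · rw [coeff_scol_of_lt]
    have : n ≤ β * n := Nat.le_mul_of_pos_left n hβ
    omega

/-- The substitution `z = Z T ^ β`, `τ = T ^ α`. -/
noncomputable def theta (α β : ℕ) (hα : α ≠ 0) (hβ : 0 < β) :
    PowerSeries (PowerSeries k) →ₐ[k] PowerSeries k[X] where
  toFun := thetaFun α β hα
  map_one' := by
    ext m n
    rw [coeff_thetaFun α β hα hβ, scol, ← map_one (PowerSeries.C (R := PowerSeries k)), col_C,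
      PowerSeries.expand_C, PowerSeries.coeff_one, PowerSeries.coeff_one]
    rcases Nat.eq_zero_or_pos n with h | h
    · subst h
      rw [if_pos rfl, mul_zero, pow_zero, one_mul, PowerSeries.coeff_C]
      split_ifs <;> simp
    · rw [if_neg h.ne', map_zero, mul_zero, map_zero]
      split_ifs
      · rw [coeff_one, if_neg h.ne']
      · rw [coeff_zero]
  map_mul' f g := by
    ext m n
    rw [coeff_thetaFun α β hα hβ, scol_mul, map_sum, PowerSeries.coeff_mul, finset_sum_coeff]
    simp only [PowerSeries.coeff_mul, Polynomial.coeff_mul, coeff_thetaFun α β hα hβ]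
    exact Finset.sum_comm
  map_zero' := by
    ext m n
    rw [coeff_thetaFun α β hα hβ, scol]
    have : col n (0 : PowerSeries (PowerSeries k)) = 0 := by ext l; simp
    rw [this]
    simp
  map_add' f g := by
    ext m n
    rw [coeff_thetaFun α β hα hβ, scol_add, map_add, map_add, coeff_add,
      coeff_thetaFun α β hα hβ, coeff_thetaFun α β hα hβ]
  commutes' c := by
    ext m n
    rw [coeff_thetaFun α β hα hβ, scol, PowerSeries.algebraMap_apply, PowerSeries.algebraMap_apply,
      PowerSeries.algebraMap_apply, col_C, PowerSeries.expand_C, PowerSeries.coeff_C,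
      PowerSeries.coeff_C]
    rcases Nat.eq_zero_or_pos n with h | h
    · subst h
      rw [if_pos rfl, mul_zero, pow_zero, one_mul, PowerSeries.coeff_C]
      split_ifs <;> simp
    · rw [if_neg h.ne', map_zero, mul_zero, map_zero]
      split_ifs
      · rw [Polynomial.algebraMap_apply, coeff_C, if_neg h.ne']
      · rw [coeff_zero]

theorem coeff_theta (α β : ℕ) (hα : α ≠ 0) (hβ : 0 < β) (f : PowerSeries (PowerSeries k))
    (m n : ℕ) : (PowerSeries.coeff m (theta α β hα hβ f)).coeff n =
      PowerSeries.coeff m (scol α β hα n f) := coeff_thetaFun α β hα hβ f m n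

end theta

end Vale.Agent.P292.Mo
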