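import Vale.Agent.P292.Mo.Bubble4

/-! # Bubble lemma, part 5: the first edge of the Newton polygon. -/

namespace Vale.Agent.P292.Mo

open Polynomial

universe u v w

section step

variable {k : Type u} [Field k] {R : Type v} [CommRing R] [Algebra k R] {𝒜 : ℕ → Submodule k R}
  [GradedAlgebra 𝒜] {n : ℕ} {x : Fin n → R} {d : Fin n → ℕ}

theorem scol_ne_zero {α β : ℕ} {hα : α ≠ 0} {m n : ℕ} {f : PowerSeries (PowerSeries k)}
    (h : PowerSeries.coeff m (scol α β hα n f) ≠ 0) :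
    ∃ l, m = α * l + β * n ∧ PowerSeries.coeff n (PowerSeries.coeff l f) ≠ 0 := by
  have h1 : β * n ≤ m := by
    by_contra h1
    exact h (coeff_scol_of_lt α β hα n f m (by omega))
  have h2 : α ∣ m - β * n := by
    by_contra h2
    exact h (coeff_scol_of_not_dvd α β hα n m f h2)
  obtain ⟨l, hl⟩ := h2
  have h3 : m = α * l + β * n := by omega
  refine ⟨l, h3, ?_⟩
  rw [h3, coeff_scol] at h
  exact h

/-- The order of `φ` modulo `τ` is `β`, with leading coefficient `ξ`. -/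
structure IsOrd (𝒜 : ℕ → Submodule k R) (φ : R →ₐ[k] PowerSeries (PowerSeries k)) (β : ℕ)
    (ξ : R →ₐ[k] k) : Prop where
  dvd : ∀ j, ∀ r ∈ 𝒜 j, PowerSeries.X ^ (β * j) ∣ PowerSeries.constantCoeff (φ r)
  lead : ∀ j, ∀ r ∈ 𝒜 j, PowerSeries.coeff (β * j) (PowerSeries.constantCoeff (φ r)) = ξ r

/-- The result of blowing up the first edge. -/
structure IsStep (𝒜 : ℕ → Submodule k R) (φ : R →ₐ[k] PowerSeries (PowerSeries k)) (β : ℕ)
    (ξ : R →ₐ[k] k) (α' β' : ℕ) (hα : α' ≠ 0) (hβ : 0 < β') (F : R →ₐ[k] PowerSeries k[X]) :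
    Prop where
  coprime : Nat.Coprime α' β'
  eq : ∀ j, ∀ r ∈ 𝒜 j, theta α' β' hα hβ (φ r) = PowerSeries.X ^ (β' * β * j) * F r
  deg : ∀ j, ∀ r ∈ 𝒜 j, (PowerSeries.constantCoeff (F r)).natDegree ≤ β * j
  lead : ∀ j, ∀ r ∈ 𝒜 j, (PowerSeries.constantCoeff (F r)).coeff (β * j) = ξ r
  low : ∃ j, ∃ r ∈ 𝒜 j, ∃ m < β * j, (PowerSeries.constantCoeff (F r)).coeff m ≠ 0
  dvd : ∀ j, ∀ r ∈ 𝒜 j, ∀ m ≤ β * j, (PowerSeries.constantCoeff (F r)).coeff m ≠ 0 →
    α' ∣ β' * (β * j - m)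

/-- The first edge. -/
theorem exists_step (hx : ∀ i, x i ∈ 𝒜 (d i)) (hgen : Algebra.adjoin k (Set.range x) = ⊤)
    {φ : R →ₐ[k] PowerSeries (PowerSeries k)} {β : ℕ} (hβ0 : 0 < β) {ξ : R →ₐ[k] k}
    (hord : IsOrd 𝒜 φ β ξ)
    (h0 : ∃ j > 0, ∃ r ∈ 𝒜 j, PowerSeries.map PowerSeries.constantCoeff (φ r) ≠ 0) :
    ∃ (α' β' : ℕ) (hα : α' ≠ 0) (hβ : 0 < β') (F : R →ₐ[k] PowerSeries k[X]),
      IsStep 𝒜 φ β ξ α' β' hα hβ F := by
  classical
  -- a generator with a pure power of `τ`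
  obtain ⟨i₁, hi₁, hi₁'⟩ := exists_gen_ne_zero (S := k) hx hgen
    ((PowerSeries.mapAlgHom (ccA k k)).comp φ) (by
      obtain ⟨j, hj, r, hr, h⟩ := h0
      exact ⟨j, hj, r, hr, h⟩)
  have hcol : ∀ f : PowerSeries (PowerSeries k),
      PowerSeries.mapAlgHom (ccA k k) f = col 0 f := by
    intro f
    ext l
    rw [coeff_col]
    change PowerSeries.coeff l (PowerSeries.map _ f) = _
    rw [PowerSeries.coeff_map]
    simp
  rw [AlgHom.comp_apply, hcol] at hi₁'
  -- the finite set of columns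
  set I : Finset (Σ _ : Fin n, ℕ) :=
    (Finset.univ.sigma fun i => Finset.range (β * d i)).filter
      fun p => col p.2 (φ (x p.1)) ≠ 0 with hI
  have hmem : ∀ i m, (⟨i, m⟩ : Σ _ : Fin n, ℕ) ∈ I ↔ m < β * d i ∧ col m (φ (x i)) ≠ 0 := by
    intro i m
    rw [hI, Finset.mem_filter, Finset.mem_sigma, Finset.mem_range]
    simp
  obtain ⟨⟨i₀, n₀⟩, hp, hmin⟩ := Finset.exists_min_image I
    (fun p => ((col p.2 (φ (x p.1))).order.toNat : ℚ) / ((β * d p.1 - p.2 : ℕ) : ℚ))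
    ⟨⟨i₁, 0⟩, (hmem _ _).mpr ⟨Nat.mul_pos hβ0 hi₁, hi₁'⟩⟩
  obtain ⟨hn₀, hne₀⟩ := (hmem _ _).mp hp
  set l₀ := (col n₀ (φ (x i₀))).order.toNat with hl₀
  set m₀ := β * d i₀ - n₀ with hm₀
  have hm₀pos : 0 < m₀ := by omega
  have hcl₀ : PowerSeries.coeff n₀ (PowerSeries.coeff l₀ (φ (x i₀))) ≠ 0 := by
    rw [← coeff_col]
    exact PowerSeries.coeff_order hne₀
  have hl₀pos : 0 < l₀ := by
    rcases Nat.eq_zero_or_pos l₀ with h | h
    · exfalso
      apply hcl₀
      rw [h, PowerSeries.coeff_zero_eq_constantCoeff]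
      exact (PowerSeries.X_pow_dvd_iff.mp (hord.dvd _ _ (hx i₀))) _ hn₀
    · exact h
  have hmin' : ∀ i m l, m < β * d i → PowerSeries.coeff m (PowerSeries.coeff l (φ (x i))) ≠ 0 →
      l₀ * (β * d i - m) ≤ m₀ * l := by
    intro i m l h1 h2
    have h3 : col m (φ (x i)) ≠ 0 := by
      intro h3
      apply h2
      rw [← coeff_col, h3, map_zero]
    have h4 := hmin ⟨i, m⟩ ((hmem _ _).mpr ⟨h1, h3⟩)
    have h5 : (col m (φ (x i))).order.toNat ≤ l := by
      by_contra h5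
      apply h2
      rw [← coeff_col]
      exact PowerSeries.coeff_of_lt_order_toNat _ (by omega)
    have h6 : 0 < β * d i - m := by omega
    simp only at h4
    rw [div_le_div_iff₀ (by exact_mod_cast hm₀pos) (by exact_mod_cast h6)] at h4
    have h7 : l₀ * (β * d i - m) ≤ (col m (φ (x i))).order.toNat * m₀ := by exact_mod_cast h4
    calc l₀ * (β * d i - m) ≤ (col m (φ (x i))).order.toNat * m₀ := h7
      _ ≤ l * m₀ := Nat.mul_le_mul_right _ h5
      _ = m₀ * l := mul_comm _ _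
  set g := Nat.gcd m₀ l₀ with hg
  have hgpos : 0 < g := Nat.gcd_pos_of_pos_left _ hm₀pos
  obtain ⟨α', hα'⟩ : g ∣ m₀ := Nat.gcd_dvd_left _ _
  obtain ⟨β', hβ'⟩ : g ∣ l₀ := Nat.gcd_dvd_right _ _
  have hα'0 : α' ≠ 0 := by
    rintro rfl
    omega
  have hβ'0 : 0 < β' := by
    rcases Nat.eq_zero_or_pos β' with h | h
    · rw [h] at hβ'; omega
    · exact h
  have hcop : Nat.Coprime α' β' := by
    have := Nat.coprime_div_gcd_div_gcd (m := m₀) (n := l₀) hgpos
    rwa [Nat.div_eq_of_eq_mul_right hgpos hα', Nat.div_eq_of_eq_mul_right hgpos hβ'] at this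
  have hw : ∀ i m l, PowerSeries.coeff m (PowerSeries.coeff l (φ (x i))) ≠ 0 →
      β' * β * d i ≤ α' * l + β' * m := by
    intro i m l h1
    by_cases h2 : m < β * d i
    · have h3 := hmin' i m l h2 h1
      rw [hβ', hα', mul_assoc, mul_assoc] at h3
      have h4 := Nat.le_of_mul_le_mul_left h3 hgpos
      have h5 : β' * (β * d i - m) + β' * m = β' * β * d i := by
        rw [← mul_add, mul_assoc]
        congr 1
        omega
      omega
    · have h3 : β' * (β * d i) ≤ β' * m := Nat.mul_le_mul_left _ (by omega)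
      rw [mul_assoc]
      omega
  obtain ⟨F, hF⟩ := exists_untwist 𝒜 ((theta α' β' hα'0 hβ'0).comp φ)
    (PowerSeries.X ^ (β' * β)) (pow_ne_zero _ PowerSeries.X_ne_zero) hx hgen (fun i => by
      rw [← pow_mul, PowerSeries.X_pow_dvd_iff]
      intro m hm
      ext q
      rw [AlgHom.comp_apply, coeff_theta, coeff_zero]
      by_contra hcon
      obtain ⟨l, hl, hl'⟩ := scol_ne_zero hcon
      have := hw i q l hl'
      omega)
  have heq : ∀ j, ∀ r ∈ 𝒜 j, theta α' β' hα'0 hβ'0 (φ r) =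
      PowerSeries.X ^ (β' * β * j) * F r := by
    intro j r hr
    have := hF j r hr
    rwa [AlgHom.comp_apply, ← pow_mul] at this
  have hcoef : ∀ j, ∀ r ∈ 𝒜 j, ∀ m, (PowerSeries.constantCoeff (F r)).coeff m =
      PowerSeries.coeff (β' * β * j) (scol α' β' hα'0 m (φ r)) := by
    intro j r hr m
    rw [← coeff_theta α' β' hα'0 hβ'0, heq j r hr, PowerSeries.coeff_X_pow_mul', if_pos le_rfl,
      Nat.sub_self, PowerSeries.coeff_zero_eq_constantCoeff]
  refine ⟨α', β', hα'0, hβ'0, F, hcop, heq, ?_, ?_, ⟨d i₀, x i₀, hx i₀, n₀, hn₀, ?_⟩, ?_⟩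
  · intro j r hr
    rw [natDegree_le_iff_coeff_eq_zero]
    intro m hm
    rw [hcoef j r hr, coeff_scol_of_lt]
    rw [mul_assoc]
    exact Nat.mul_lt_mul_of_pos_left hm hβ'0
  · intro j r hr
    have h1 := coeff_scol α' β' hα'0 (β * j) 0 (φ r)
    rw [mul_zero, zero_add, ← mul_assoc] at h1
    rw [hcoef j r hr, h1, PowerSeries.coeff_zero_eq_constantCoeff, hord.lead j r hr]
  · have h1 : β' * β * d i₀ = α' * l₀ + β' * n₀ := by
      have h2 : β' * m₀ = α' * l₀ := by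
        rw [hα', hβ']; ring
      have h3 : β' * m₀ + β' * n₀ = β' * β * d i₀ := by
        rw [← mul_add, mul_assoc]
        congr 1
        omega
      omega
    rw [hcoef _ _ (hx i₀), h1, coeff_scol]
    exact hcl₀
  · intro j r hr m hm h
    rw [hcoef j r hr] at h
    obtain ⟨l, hl, -⟩ := scol_ne_zero h
    refine ⟨l, ?_⟩
    have h3 : β' * (β * j - m) + β' * m = β' * β * j := by
      rw [← mul_add, mul_assoc]
      congr 1
      omega
    omega

end step

end Vale.Agent.P292.Mo
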