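import Vale.Agent.P292.Mo.Bubble5

/-! # Bubble lemma, part 6: the recursion. -/

namespace Vale.Agent.P292.Mo

open Polynomial

universe u v w

section rec

variable {k : Type u} [Field k] {R : Type v} [CommRing R] [Algebra k R] {𝒜 : ℕ → Submodule k R}
  [GradedAlgebra 𝒜] {n : ℕ} {x : Fin n → R} {d : Fin n → ℕ}

/-- Two homomorphisms which agree on homogeneous elements. -/
theorem algHom_eq_of_homog {S : Type w} [CommRing S] [Algebra k S] {f g : R →ₐ[k] S}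
    (h : ∀ j, ∀ r ∈ 𝒜 j, f r = g r) (r : R) : f r = g r := by
  classical
  rw [← DirectSum.sum_support_decompose 𝒜 r, map_sum, map_sum]
  exact Finset.sum_congr rfl fun j _ => h j _ (SetLike.coe_mem _)

/-- Proportionality of points of the cone. -/
def Sim (𝒜 : ℕ → Submodule k R) (ξ w : R →ₐ[k] k) : Prop :=
  ∃ c : k, c ≠ 0 ∧ ∀ j, ∀ r ∈ 𝒜 j, ξ r = c ^ j * w r

/-- A curve of degree one or two through `w`. -/
def HasCurve (𝒜 : ℕ → Submodule k R) (w : R →ₐ[k] k) : Prop :=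
  ∃ e : ℕ, (e = 1 ∨ e = 2) ∧ ∃ ψ : R →ₐ[k] MvPolynomial (Fin 2) k,
    (∀ j, ∀ r ∈ 𝒜 j, (ψ r).IsHomogeneous (e * j)) ∧
    (∀ a : Fin 2 → k, a ≠ 0 → ∃ j > 0, ∃ r ∈ 𝒜 j, MvPolynomial.eval a (ψ r) ≠ 0) ∧
    ∀ r, MvPolynomial.eval ![1, 0] (ψ r) = w r

theorem hasCurve_of_eval {w : R →ₐ[k] k} {e : ℕ} (he : e = 1 ∨ e = 2)
    (ψ : R →ₐ[k] MvPolynomial (Fin 2) k)
    (h1 : ∀ j, ∀ r ∈ 𝒜 j, (ψ r).IsHomogeneous (e * j))
    (h2 : ∀ a : Fin 2 → k, a ≠ 0 → ∃ j > 0, ∃ r ∈ 𝒜 j, MvPolynomial.eval a (ψ r) ≠ 0)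
    (c : k) (hc : c ≠ 0)
    (h3 : ∀ j, ∀ r ∈ 𝒜 j, MvPolynomial.eval ![1, 0] (ψ r) = c ^ j * w r) : HasCurve 𝒜 w := by
  obtain ⟨ψ', hψ'⟩ := bubble_twist 𝒜 ψ (MvPolynomial.C c⁻¹)
  refine ⟨e, he, ψ', fun j r hr => ?_, fun a ha => ?_, fun r => ?_⟩
  · rw [hψ' j r hr, ← map_pow]
    exact (h1 j r hr).C_mul _
  · obtain ⟨j, hj, r, hr, h⟩ := h2 a ha
    refine ⟨j, hj, r, hr, ?_⟩
    rw [hψ' j r hr, map_mul, map_pow, MvPolynomial.eval_C]
    exact mul_ne_zero (pow_ne_zero _ (inv_ne_zero hc)) h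
  · refine algHom_eq_of_homog (𝒜 := 𝒜) (f := (MvPolynomial.aeval ![1, 0]).comp ψ') (g := w)
      (fun j r hr => ?_) r |>.symm.trans ?_ |>.symm
    · rw [AlgHom.comp_apply, MvPolynomial.aeval_eq_eval, hψ' j r hr, map_mul, map_pow,
        MvPolynomial.eval_C, h3 j r hr, ← mul_assoc, ← mul_pow, inv_mul_cancel₀ hc, one_pow,
        one_mul]
    · rfl

theorem hasCurve_infty {w : R →ₐ[k] k} {e : ℕ} (he : e = 1 ∨ e = 2) {Ψ : R →ₐ[k] k[X]}
    (hdeg : ∀ j, ∀ r ∈ 𝒜 j, (Ψ r).natDegree ≤ e * j)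
    (hinf : ∃ j > 0, ∃ r ∈ 𝒜 j, (Ψ r).coeff (e * j) ≠ 0)
    (hbpf : ∀ a : k, ∃ j > 0, ∃ r ∈ 𝒜 j, (Ψ r).eval a ≠ 0)
    (c : k) (hc : c ≠ 0) (h3 : ∀ j, ∀ r ∈ 𝒜 j, (Ψ r).coeff (e * j) = c ^ j * w r) :
    HasCurve 𝒜 w := by
  obtain ⟨ψ, h4, h5, h6, -⟩ := curve_of_bpf hdeg hinf hbpf
  exact hasCurve_of_eval he ψ h4 h5 c hc fun j r hr => by rw [h6 j r hr, h3 j r hr]

theorem hasCurve_zero {w : R →ₐ[k] k} {e : ℕ} (he : e = 1 ∨ e = 2) {Ψ : R →ₐ[k] k[X]}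
    (hdeg : ∀ j, ∀ r ∈ 𝒜 j, (Ψ r).natDegree ≤ e * j)
    (hinf : ∃ j > 0, ∃ r ∈ 𝒜 j, (Ψ r).coeff (e * j) ≠ 0)
    (hbpf : ∀ a : k, ∃ j > 0, ∃ r ∈ 𝒜 j, (Ψ r).eval a ≠ 0)
    (c : k) (hc : c ≠ 0) (h3 : ∀ j, ∀ r ∈ 𝒜 j, (Ψ r).eval 0 = c ^ j * w r) :
    HasCurve 𝒜 w := by
  obtain ⟨ψ, h4, h5, -, h6⟩ := curve_of_bpf hdeg hinf hbpf
  refine hasCurve_of_eval he ((MvPolynomial.rename (Equiv.swap (0 : Fin 2) 1)).comp ψ)
    (fun j r hr => ?_) (fun a ha => ?_) c hc fun j r hr => ?_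
  · rw [AlgHom.comp_apply]
    exact (h4 j r hr).rename_isHomogeneous
  · obtain ⟨j, hj, r, hr, h⟩ := h5 (a ∘ Equiv.swap (0 : Fin 2) 1) (by
      intro h0
      apply ha
      funext i
      have := congrFun h0 (Equiv.swap (0 : Fin 2) 1 i)
      simpa using this)
    refine ⟨j, hj, r, hr, ?_⟩
    rw [AlgHom.comp_apply, MvPolynomial.eval_rename]
    exact h
  · rw [AlgHom.comp_apply, MvPolynomial.eval_rename, ← h3 j r hr, ← h6 j r hr]
    congr 1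
    have : (![1, 0] : Fin 2 → k) ∘ Equiv.swap (0 : Fin 2) 1 = ![0, 1] := by
      funext i
      fin_cases i <;> simp
    rw [this]

/-- The ideal generated by the image of the irrelevant ideal. -/
def imI {S : Type w} [CommRing S] [Algebra k S] (𝒜 : ℕ → Submodule k R) (φ : R →ₐ[k] S) :
    Ideal S := Ideal.span {f | ∃ j > 0, ∃ r ∈ 𝒜 j, f = φ r}

theorem imI_map {S : Type*} {S' : Type*} [CommRing S] [Algebra k S] [CommRing S'] [Algebra k S']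
    (φ : R →ₐ[k] S) (g : S →ₐ[k] S') {y : S} (hy : y ∈ imI 𝒜 φ) : g y ∈ imI 𝒜 (g.comp φ) := by
  have h1 : imI 𝒜 φ ≤ (imI 𝒜 (g.comp φ)).comap g := by
    rw [imI, Ideal.span_le]
    rintro _ ⟨j, hj, r, hr, rfl⟩
    exact Ideal.subset_span ⟨j, hj, r, hr, rfl⟩
  exact h1 hy

theorem imI_pure {φ : R →ₐ[k] PowerSeries (PowerSeries k)} {L : ℕ}
    (h : PowerSeries.X ^ L ∈ imI 𝒜 φ) :
    ∃ j > 0, ∃ r ∈ 𝒜 j, PowerSeries.map PowerSeries.constantCoeff (φ r) ≠ 0 := by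
  by_contra hcon
  push Not at hcon
  have h1 := imI_map φ (PowerSeries.mapAlgHom (ccA k k)) h
  have h2 : imI 𝒜 ((PowerSeries.mapAlgHom (ccA k k)).comp φ) ≤ ⊥ := by
    rw [imI, Ideal.span_le]
    rintro _ ⟨j, hj, r, hr, rfl⟩
    exact hcon j hj r hr
  have h3 := h2 h1
  rw [Ideal.mem_bot, map_pow] at h3
  have h4 : PowerSeries.mapAlgHom (ccA k k) (PowerSeries.X : PowerSeries (PowerSeries k)) =
      PowerSeries.X := PowerSeries.map_X _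
  rw [h4] at h3
  exact pow_ne_zero _ PowerSeries.X_ne_zero h3

theorem theta_X (α β : ℕ) (hα : α ≠ 0) (hβ : 0 < β) :
    theta α β hα hβ (PowerSeries.X : PowerSeries (PowerSeries k)) = PowerSeries.X ^ α := by
  ext m q
  rw [coeff_theta, PowerSeries.coeff_X_pow]
  have h1 : col q (PowerSeries.X : PowerSeries (PowerSeries k)) =
      if q = 0 then PowerSeries.X else 0 := by
    ext l
    rw [coeff_col, PowerSeries.coeff_X]
    by_cases hq : q = 0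
    · subst hq
      rw [if_pos rfl, PowerSeries.coeff_X]
      split_ifs <;> simp
    · rw [if_neg hq, map_zero]
      split_ifs
      · rw [PowerSeries.coeff_one, if_neg hq]
      · rw [map_zero]
  rw [scol, h1]
  by_cases hq : q = 0
  · subst hq
    rw [if_pos rfl, mul_zero, pow_zero, one_mul, PowerSeries.expand_X, PowerSeries.coeff_X_pow]
    split_ifs <;> simp
  · rw [if_neg hq, map_zero, mul_zero, map_zero]
    split_ifs
    · rw [coeff_one, if_neg hq]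
    · rw [coeff_zero]

variable {φ : R →ₐ[k] PowerSeries (PowerSeries k)} {β : ℕ} {ξ : R →ₐ[k] k} {α' β' : ℕ}
  {hα : α' ≠ 0} {hβ : 0 < β'} {F : R →ₐ[k] PowerSeries k[X]}

/-- The exponent of `τ` in the ideal. -/
theorem IsStep.imI (hs : IsStep 𝒜 φ β ξ α' β' hα hβ F) {L : ℕ}
    (h : PowerSeries.X ^ L ∈ imI 𝒜 φ) (hβ0 : 0 < β) :
    β' * β ≤ α' * L ∧ PowerSeries.X ^ (α' * L - β' * β) ∈ Mo.imI 𝒜 F := by
  have h1 := imI_map φ (theta α' β' hα hβ) h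
  rw [map_pow, theta_X, ← pow_mul] at h1
  have h2 : Mo.imI 𝒜 ((theta α' β' hα hβ).comp φ) ≤
      Ideal.span {PowerSeries.X ^ (β' * β)} * Mo.imI 𝒜 F := by
    rw [Mo.imI, Ideal.span_le]
    rintro _ ⟨j, hj, r, hr, rfl⟩
    rw [SetLike.mem_coe, Ideal.mem_span_singleton_mul]
    refine ⟨PowerSeries.X ^ (β' * β * (j - 1)) * F r,
      Ideal.mul_mem_left _ _ (Ideal.subset_span ⟨j, hj, r, hr, rfl⟩), ?_⟩
    rw [AlgHom.comp_apply, hs.eq j r hr, ← mul_assoc, ← pow_add]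
    congr 2
    obtain ⟨i, rfl⟩ : ∃ i, j = i + 1 := ⟨j - 1, by omega⟩
    rw [Nat.add_sub_cancel]
    ring
  have h3 := h2 h1
  rw [Ideal.mem_span_singleton_mul] at h3
  obtain ⟨y, hy, hy'⟩ := h3
  by_cases hle : β' * β ≤ α' * L
  · refine ⟨hle, ?_⟩
    have h4 : (PowerSeries.X : PowerSeries k[X]) ^ (α' * L) =
        PowerSeries.X ^ (β' * β) * PowerSeries.X ^ (α' * L - β' * β) := by
      rw [← pow_add]; congr 1; omega
    rw [h4] at hy'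
    rw [← mul_left_cancel₀ (pow_ne_zero _ PowerSeries.X_ne_zero) hy']
    exact hy
  · exfalso
    have h4 : (PowerSeries.X : PowerSeries k[X]) ^ (β' * β) =
        PowerSeries.X ^ (α' * L) * PowerSeries.X ^ (β' * β - α' * L) := by
      rw [← pow_add]; congr 1; omega
    rw [h4, mul_assoc] at hy'
    have h5 : PowerSeries.X ^ (β' * β - α' * L) * y = 1 := by
      apply mul_left_cancel₀ (pow_ne_zero (α' * L) (PowerSeries.X_ne_zero (R := k[X])))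
      rw [hy', mul_one]
    have h6 := congrArg PowerSeries.constantCoeff h5
    rw [map_mul, map_pow, PowerSeries.constantCoeff_X, map_one, zero_pow (by omega),
      zero_mul] at h6
    exact zero_ne_one h6

/-- Recentring. -/
noncomputable def recen (a : k) : PowerSeries k[X] →ₐ[k] PowerSeries (PowerSeries k) :=
  PowerSeries.mapAlgHom (expandAt a)

theorem recen_apply (a : k) (f : PowerSeries k[X]) :
    recen a f = PowerSeries.map (expandAt a : k[X] →+* PowerSeries k) f := rfl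

theorem constantCoeff_recen (a : k) (f : PowerSeries k[X]) :
    PowerSeries.constantCoeff (recen a f) = expandAt a (PowerSeries.constantCoeff f) := by
  rw [recen_apply, ← PowerSeries.coeff_zero_eq_constantCoeff_apply, PowerSeries.coeff_map,
    PowerSeries.coeff_zero_eq_constantCoeff_apply]
  rfl

theorem recen_X (a : k) : recen a (PowerSeries.X : PowerSeries k[X]) = PowerSeries.X := by
  rw [recen_apply]; exact PowerSeries.map_X _

theorem IsStep.imI_recen (hs : IsStep 𝒜 φ β ξ α' β' hα hβ F) {L : ℕ}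
    (h : PowerSeries.X ^ L ∈ Mo.imI 𝒜 φ) (hβ0 : 0 < β) (a : k) :
    β' * β ≤ α' * L ∧ PowerSeries.X ^ (α' * L - β' * β) ∈ Mo.imI 𝒜 ((recen a).comp F) := by
  obtain ⟨h1, h2⟩ := hs.imI h hβ0
  refine ⟨h1, ?_⟩
  have h3 := imI_map F (recen a) h2
  rwa [map_pow, recen_X] at h3

/-- The special fibre of the blow-up. -/
noncomputable def spec (F : R →ₐ[k] PowerSeries k[X]) : R →ₐ[k] k[X] := (ccA k k[X]).comp F

@[simp] theorem spec_apply (F : R →ₐ[k] PowerSeries k[X]) (r : R) :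
    spec F r = PowerSeries.constantCoeff (F r) := rfl

/-- Base point removal for a blow-up. -/
theorem IsStep.base (hs : IsStep 𝒜 φ β ξ α' β' hα hβ F) (hLB : IsLB 𝒜)
    (hx : ∀ i, x i ∈ 𝒜 (d i)) (hgen : Algebra.adjoin k (Set.range x) = ⊤)
    (hξ : ∃ j > 0, ∃ r ∈ 𝒜 j, ξ r ≠ 0) :
    ∃ (b e : ℕ) (h : k[X]) (Ψ' : R →ₐ[k] k[X]), b + e = β ∧ h.Monic ∧ h.natDegree = b ∧
      (∀ j, ∀ r ∈ 𝒜 j, PowerSeries.constantCoeff (F r) = h ^ j * Ψ' r) ∧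
      (∀ j, ∀ r ∈ 𝒜 j, (Ψ' r).natDegree ≤ e * j) ∧
      (∀ j, ∀ r ∈ 𝒜 j, (Ψ' r).coeff (e * j) = ξ r) ∧
      ∀ a : k, ∃ j > 0, ∃ r ∈ 𝒜 j, (Ψ' r).eval a ≠ 0 := by
  obtain ⟨b, e, h, Ψ', h1, h2, h3, h4, h5, h6, h7⟩ := base_points hLB hx hgen β (spec F)
    hs.deg (by
      obtain ⟨j, hj, r, hr, h⟩ := hξ
      exact ⟨j, hj, r, hr, by rwa [spec_apply, hs.lead j r hr]⟩)
  exact ⟨b, e, h, Ψ', h1, h2, h3, h4, h5, fun j r hr => by
    rw [h6 j r hr, spec_apply, hs.lead j r hr], h7⟩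

theorem eq_C_of_zero_mul {p : k[X]} {j : ℕ} (h1 : p.natDegree ≤ 0 * j) {c : k}
    (h2 : p.coeff (0 * j) = c) : p = C c := by
  rw [zero_mul] at h1 h2
  rw [← h2]
  exact eq_C_of_natDegree_le_zero h1

/-- There are homogeneous elements of degree prime to the characteristic. -/
theorem exists_degree (hLB : IsLB 𝒜) (hξ : ∃ j > 0, ∃ r ∈ 𝒜 j, ξ r ≠ 0) :
    ∃ j > 0, ∃ r ∈ 𝒜 j, ξ r ≠ 0 ∧ (j : k) ≠ 0 := by
  by_contra hcon
  push Not at hcon
  have h1 : ringChar k = 1 := by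
    refine hLB ξ hξ _ fun j r hr h => ?_
    rcases Nat.eq_zero_or_pos j with h0 | h0
    · rw [h0]; exact dvd_zero _
    · rw [← CharP.cast_eq_zero_iff k (ringChar k)]
      exact hcon j h0 r hr h
  have h2 : (1 : k) = 0 := by
    have := (CharP.cast_eq_zero_iff k (ringChar k) 1).mpr (by rw [h1])
    simpa using this
  exact one_ne_zero h2

end rec

end Vale.Agent.P292.Mo
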