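import Mathlib

/-! # Bubble lemma, part A: evaluation of power series in a power series ring. -/

namespace Vale.Agent.P292.Mo

open Polynomial

section EV

variable {A B : Type*} [CommRing A] [CommRing B]

/-- `f ↦ f^ι (a)` for `a` divisible by `X`. -/
noncomputable def evFun (ι : A →+* PowerSeries B) (a : PowerSeries B) (f : PowerSeries A) :
    PowerSeries B :=
  PowerSeries.mk fun n => PowerSeries.coeff n ((f.trunc (n + 1)).eval₂ ι a)

theorem dvd_eval₂_of_coeff {ι : A →+* PowerSeries B} {a : PowerSeries B}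
    (ha : PowerSeries.X ∣ a) {N : ℕ} {q : A[X]} (hq : ∀ i < N, q.coeff i = 0) :
    (PowerSeries.X : PowerSeries B) ^ N ∣ q.eval₂ ι a := by
  obtain ⟨q', rfl⟩ := Polynomial.X_pow_dvd_iff.mpr hq
  rw [eval₂_mul, eval₂_pow, eval₂_X]
  exact (pow_dvd_pow_of_dvd ha N).mul_right _

theorem dvd_evFun_sub {ι : A →+* PowerSeries B} {a : PowerSeries B}
    (ha : PowerSeries.X ∣ a) (f : PowerSeries A) (N : ℕ) :
    (PowerSeries.X : PowerSeries B) ^ N ∣ evFun ι a f - (f.trunc N).eval₂ ι a := by
  rw [PowerSeries.X_pow_dvd_iff]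
  intro n hn
  have h : (PowerSeries.X : PowerSeries B) ^ (n + 1) ∣
      (f.trunc (n + 1)).eval₂ ι a - (f.trunc N).eval₂ ι a := by
    rw [← eval₂_sub]
    apply dvd_eval₂_of_coeff ha
    intro i hi
    rw [coeff_sub, PowerSeries.coeff_trunc, PowerSeries.coeff_trunc, if_pos hi,
      if_pos (by omega), sub_self]
  have h2 := (PowerSeries.X_pow_dvd_iff.mp h) n (Nat.lt_succ_self n)
  rw [map_sub] at h2 ⊢
  rw [← h2]
  simp [evFun]

theorem eq_of_forall_dvd_sub {f g : PowerSeries B}
    (h : ∀ N, (PowerSeries.X : PowerSeries B) ^ N ∣ f - g) : f = g := by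
  ext n
  have := PowerSeries.X_pow_dvd_iff.mp (h (n + 1)) n (Nat.lt_succ_self n)
  rw [map_sub] at this
  exact sub_eq_zero.mp this

theorem evFun_mul {ι : A →+* PowerSeries B} {a : PowerSeries B}
    (ha : PowerSeries.X ∣ a) (f g : PowerSeries A) :
    evFun ι a (f * g) = evFun ι a f * evFun ι a g := by
  apply eq_of_forall_dvd_sub
  intro N
  have h1 := dvd_evFun_sub (ι := ι) ha (f * g) N
  have h2 := dvd_evFun_sub (ι := ι) ha f N
  have h3 := dvd_evFun_sub (ι := ι) ha g N
  have h4 : (PowerSeries.X : PowerSeries B) ^ N ∣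
      ((f * g).trunc N).eval₂ ι a - (f.trunc N).eval₂ ι a * (g.trunc N).eval₂ ι a := by
    rw [← eval₂_mul, ← eval₂_sub]
    apply dvd_eval₂_of_coeff ha
    intro i hi
    rw [coeff_sub, PowerSeries.coeff_trunc, if_pos hi, Polynomial.coeff_mul,
      PowerSeries.coeff_mul, sub_eq_zero]
    apply Finset.sum_congr rfl
    intro x hx
    have := Finset.HasAntidiagonal.mem_antidiagonal.mp hx
    rw [PowerSeries.coeff_trunc, PowerSeries.coeff_trunc, if_pos (by omega), if_pos (by omega)]
  have e : evFun ι a (f * g) - evFun ι a f * evFun ι a g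
      = (evFun ι a (f * g) - ((f * g).trunc N).eval₂ ι a)
        + (((f * g).trunc N).eval₂ ι a - (f.trunc N).eval₂ ι a * (g.trunc N).eval₂ ι a)
        - (evFun ι a f - (f.trunc N).eval₂ ι a) * evFun ι a g
        - (f.trunc N).eval₂ ι a * (evFun ι a g - (g.trunc N).eval₂ ι a) := by ring
  rw [e]
  exact dvd_sub (dvd_sub (dvd_add h1 h4) (h2.mul_right _)) (h3.mul_left _)

theorem evFun_add {ι : A →+* PowerSeries B} {a : PowerSeries B} (f g : PowerSeries A) :
    evFun ι a (f + g) = evFun ι a f + evFun ι a g := by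
  ext n
  simp [evFun, map_add, eval₂_add]

/-- Evaluation of power series with coefficients in `A` at `a ∈ X B⟦X⟧`, along
`ι : A → B⟦X⟧`. -/
noncomputable def EV (ι : A →+* PowerSeries B) (a : PowerSeries B) (ha : PowerSeries.X ∣ a) :
    PowerSeries A →+* PowerSeries B where
  toFun := evFun ι a
  map_one' := by
    ext n
    simp [evFun, PowerSeries.trunc_one]
  map_mul' := evFun_mul ha
  map_zero' := by
    ext n
    simp [evFun]
  map_add' := evFun_add

theorem EV_coe {ι : A →+* PowerSeries B} {a : PowerSeries B} (ha : PowerSeries.X ∣ a)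
    (q : A[X]) : EV ι a ha (q : PowerSeries A) = q.eval₂ ι a := by
  apply eq_of_forall_dvd_sub
  intro N
  have h1 := dvd_evFun_sub (ι := ι) ha (q : PowerSeries A) N
  have h2 : (PowerSeries.X : PowerSeries B) ^ N ∣
      ((q : PowerSeries A).trunc N).eval₂ ι a - q.eval₂ ι a := by
    rw [← eval₂_sub]
    apply dvd_eval₂_of_coeff ha
    intro i hi
    rw [coeff_sub, PowerSeries.coeff_trunc, if_pos hi, Polynomial.coeff_coe, sub_self]
  have := dvd_add h1 h2
  simpa [EV] using this

theorem EV_C {ι : A →+* PowerSeries B} {a : PowerSeries B} (ha : PowerSeries.X ∣ a)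
    (c : A) : EV ι a ha (PowerSeries.C c) = ι c := by
  have := EV_coe (ι := ι) ha (Polynomial.C c)
  simpa using this

theorem EV_X {ι : A →+* PowerSeries B} {a : PowerSeries B} (ha : PowerSeries.X ∣ a) :
    EV ι a ha PowerSeries.X = a := by
  have := EV_coe (ι := ι) ha (Polynomial.X)
  simpa using this

theorem constantCoeff_EV {ι : A →+* PowerSeries B} {a : PowerSeries B}
    (ha : PowerSeries.X ∣ a) (f : PowerSeries A) :
    PowerSeries.constantCoeff (EV ι a ha f)
      = PowerSeries.constantCoeff (ι (PowerSeries.constantCoeff f)) := by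
  have h := dvd_evFun_sub (ι := ι) ha f 1
  rw [pow_one, PowerSeries.X_dvd_iff, map_sub, sub_eq_zero] at h
  change PowerSeries.constantCoeff (evFun ι a f) = _
  rw [h]
  have : f.trunc 1 = Polynomial.C (PowerSeries.constantCoeff f) := by
    ext i
    rw [PowerSeries.coeff_trunc, Polynomial.coeff_C]
    rcases Nat.eq_zero_or_pos i with hi | hi
    · subst hi
      simp
    · rw [if_neg (by omega), if_neg (by omega)]
  rw [this, eval₂_C]

end EV

end Vale.Agent.P292.Mo
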