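import Vale.Agent.P292.Mo.Lattice

/-! # P292, Mori step, block II.b: the Euler characteristic of a symplectic bundle on a curve. -/

namespace Vale.Agent.P292.Mo

open Module Submodule

variable {k K : Type*} [Field k] [Field K] [Algebra k K] {ι : Type*} [Fintype ι] [DecidableEq ι]
  {A O : Subalgebra k K}

/-- The Euler characteristic of a lattice. -/
theorem chi_lat (hA : OneDim A) (hF : Fred (Subalgebra.toSubmodule A) (Subalgebra.toSubmodule O))
    (T : Matrix ι ι K) (hT : T.det ≠ 0) :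
    Fred ((lat ι A).map (act k T)) (lat ι O) ∧
      chi ((lat ι A).map (act k T)) (lat ι O) =
        Fintype.card ι * chi (Subalgebra.toSubmodule A) (Subalgebra.toSubmodule O) +
          dg A T.det := by
  have h1 := chi_pis (ι := ι) (L := fun _ => Subalgebra.toSubmodule A)
    (M := fun _ => Subalgebra.toSubmodule O) (fun _ => hF)
  have h2 := ind_lat hA T hT
  have h3 := chi_eq_ind h2.1 h1.1
  refine ⟨h3.1, ?_⟩
  have h4 : chi (lat ι A) (lat ι O) =
      Fintype.card ι * chi (Subalgebra.toSubmodule A) (Subalgebra.toSubmodule O) := by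
    rw [lat, lat, h1.2, Finset.sum_const, Finset.card_univ, nsmul_eq_mul]
  have h5 := h3.2
  rw [h2.2] at h5
  rw [← h4]
  exact h5

theorem chi_sc_A (hA : OneDim A)
    (hF : Fred (Subalgebra.toSubmodule A) (Subalgebra.toSubmodule O)) {c : K} (hc : c ≠ 0) :
    Fred (sc c (Subalgebra.toSubmodule A)) (Subalgebra.toSubmodule O) ∧
    chi (sc c (Subalgebra.toSubmodule A)) (Subalgebra.toSubmodule O) =
      chi (Subalgebra.toSubmodule A) (Subalgebra.toSubmodule O) + dg A c :=
  chi_eq_ind (hA.com hc) hF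

/-- Elements of `O` have nonnegative degree. -/
theorem dg_nonneg (hA : OneDim A)
    (hF : Fred (Subalgebra.toSubmodule A) (Subalgebra.toSubmodule O)) {b : K} (hb : b ∈ O)
    (hb0 : b ≠ 0) : 0 ≤ dg A b := by
  have h1 := chi_sc_A hA hF hb0
  have h2 := chi_sc (k := k) (inv_ne_zero hb0) (sc b (Subalgebra.toSubmodule A))
    (Subalgebra.toSubmodule O)
  rw [sc_sc, inv_mul_cancel₀ hb0, sc_one] at h2
  have h3 := h2.1.2 h1.1
  have h4 : Subalgebra.toSubmodule O ≤ sc b⁻¹ (Subalgebra.toSubmodule O) := fun x hx =>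
    mem_sc.2 ⟨b * x, O.mul_mem hb hx, by rw [inv_mul_cancel_left₀ hb0]⟩
  have f1 : Module.Finite k
      ↥(Subalgebra.toSubmodule A ⊓ sc b⁻¹ (Subalgebra.toSubmodule O)) := h3.1
  have f2 : Module.Finite k (K ⧸ (Subalgebra.toSubmodule A ⊔ Subalgebra.toSubmodule O)) := hF.2
  have g1 : finrank k ↥(Subalgebra.toSubmodule A ⊓ Subalgebra.toSubmodule O) ≤
      finrank k ↥(Subalgebra.toSubmodule A ⊓ sc b⁻¹ (Subalgebra.toSubmodule O)) :=
    Submodule.finrank_mono (inf_le_inf_left _ h4)
  have g2 : finrank k (K ⧸ (Subalgebra.toSubmodule A ⊔ sc b⁻¹ (Subalgebra.toSubmodule O))) ≤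
      finrank k (K ⧸ (Subalgebra.toSubmodule A ⊔ Subalgebra.toSubmodule O)) := by
    refine LinearMap.finrank_le_finrank_of_surjective
      (f := Submodule.factor (sup_le_sup_left h4 (Subalgebra.toSubmodule A))) ?_
    exact Submodule.factor_surjective _
  have e1 := h1.2
  rw [← h2.2] at e1
  rw [chi, chi] at e1
  omega

/-- Units of `O` have degree zero. -/
theorem dg_unit_O (hA : OneDim A)
    (hF : Fred (Subalgebra.toSubmodule A) (Subalgebra.toSubmodule O)) {b : K} (hb : b ∈ O)
    (hb' : b⁻¹ ∈ O) (hb0 : b ≠ 0) : dg A b = 0 := by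
  have h1 := dg_nonneg hA hF hb hb0
  have h2 := dg_nonneg hA hF hb' (inv_ne_zero hb0)
  have h3 := hA.dg_mul hb0 (inv_ne_zero hb0)
  rw [mul_inv_cancel₀ hb0, dg_one] at h3
  omega

/-- The number of zeros of a section `a = b λ ^ j` of the line bundle of degree `d = - dg A λ`. -/
theorem zeros_le (hA : OneDim A)
    (hF : Fred (Subalgebra.toSubmodule A) (Subalgebra.toSubmodule O)) {l : K} (hl : l ≠ 0) {a b : K}
    (ha : a ∈ A) (hb : b ∈ O) (ha0 : a ≠ 0) {j : ℕ} (hab : a = b * l ^ j) :
    (cod (sc a (Subalgebra.toSubmodule A)) (Subalgebra.toSubmodule A) : ℤ) ≤ j * (- dg A l) := by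
  have hb0 : b ≠ 0 := by
    rintro rfl
    exact ha0 (by rw [hab, zero_mul])
  have h1 := dg_of_mem ha
  have h2 := dg_nonneg hA hF hb hb0
  have h3 : dg A a = dg A b + j * dg A l := by
    rw [hab, hA.dg_mul hb0 (pow_ne_zero _ hl), hA.dg_pow hl]
  have h4 : (j : ℤ) * (- dg A l) = - (j * dg A l) := by ring
  rw [h4]
  omega

/-- **Block II.b.** The Euler characteristic of a symplectic bundle: `E` has the basis `e` over
`A` and the basis `T e` over `O`, the matrices `MA`, `MO` of the symplectic form with values in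
the line bundle `l ^ q` are invertible over `A` resp. `O`. `Λ` is the lattice of the sections
which vanish at the marks. -/
theorem finrank_lt (hA : OneDim A)
    (hF : Fred (Subalgebra.toSubmodule A) (Subalgebra.toSubmodule O)) {l : K} (hl : l ≠ 0) {q : ℕ}
    {T MA MO : Matrix ι ι K} (hT : T.det ≠ 0) (hMA : MA.det ∈ A) (hMA' : MA.det⁻¹ ∈ A)
    (hMA0 : MA.det ≠ 0) (hMO : MO.det ∈ O) (hMO' : MO.det⁻¹ ∈ O) (hMO0 : MO.det ≠ 0)
    (hrel : l ^ q • MO = T * MA * T.transpose) [Nonempty ι]
    {Λ : Submodule k (ι → K)} (hΛ : Λ ≤ lat ι A) (hΛf : Fc Λ (lat ι A)) {m : ℕ}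
    (hm : cod Λ (lat ι A) ≤ m * Fintype.card ι)
    (hlt : 2 * (m : ℤ) < q * (- dg A l) +
      2 * chi (Subalgebra.toSubmodule A) (Subalgebra.toSubmodule O)) :
    Fred Λ ((lat ι O).map (act k T.transpose)) ∧
    finrank k ((ι → K) ⧸ (Λ ⊔ (lat ι O).map (act k T.transpose))) <
      finrank k ↥(Λ ⊓ (lat ι O).map (act k T.transpose)) := by
  set n := Fintype.card ι with hn
  have hn0 : 0 < (n : ℤ) := by exact_mod_cast Fintype.card_pos
  have hTt : T.transpose.det ≠ 0 := by rwa [Matrix.det_transpose]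
  have hTi : (T.transpose)⁻¹.det ≠ 0 := by
    rw [Matrix.det_nonsing_inv, Ring.inverse_eq_inv']
    exact inv_ne_zero hTt
  -- the degree of the determinant
  have d1 : 2 * dg A T.det = n * q * dg A l := by
    have h1 := congrArg Matrix.det hrel
    rw [Matrix.det_smul, Matrix.det_mul, Matrix.det_mul, Matrix.det_transpose, ← hn] at h1
    have h2 : dg A ((l ^ q) ^ n * MO.det) = n * q * dg A l := by
      rw [hA.dg_mul (pow_ne_zero _ (pow_ne_zero _ hl)) hMO0, dg_unit_O hA hF hMO hMO' hMO0,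
        hA.dg_pow (pow_ne_zero _ hl), hA.dg_pow hl]
      ring
    have h3 : dg A (T.det * MA.det * T.det) = 2 * dg A T.det := by
      rw [hA.dg_mul (mul_ne_zero hT hMA0) hT, hA.dg_mul hT hMA0, dg_unit hMA hMA' hMA0]
      ring
    rw [← h3, ← h1, h2]
  -- the Euler characteristic without marks
  have c1 := chi_lat (ι := ι) hA hF (T.transpose)⁻¹ hTi
  have c2 := chi_map (actE k T.transpose hTt) ((lat ι A).map (act k (T.transpose)⁻¹)) (lat ι O)
  have c3 : ((lat ι A).map (act k (T.transpose)⁻¹)).map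
      ((actE k T.transpose hTt : (ι → K) ≃ₗ[k] (ι → K)) : (ι → K) →ₗ[k] (ι → K)) = lat ι A := by
    rw [coe_actE, ← Submodule.map_comp, ← act_mul, Matrix.mul_nonsing_inv _ (Ne.isUnit hTt)]
    have : act k (1 : Matrix ι ι K) = LinearMap.id := LinearMap.ext fun v => by
      rw [act_apply, Matrix.one_mulVec, LinearMap.id_apply]
    rw [this, Submodule.map_id]
  rw [c3, coe_actE] at c2
  have F1 := c2.1.2 c1.1
  have c4 : chi (lat ι A) ((lat ι O).map (act k T.transpose)) =
      n * chi (Subalgebra.toSubmodule A) (Subalgebra.toSubmodule O) - dg A T.det := by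
    rw [c2.2, c1.2]
    have h5 : dg A (T.transpose)⁻¹.det = - dg A T.det := by
      rw [Matrix.det_nonsing_inv, Ring.inverse_eq_inv', Matrix.det_transpose]
      have h6 := hA.dg_mul hT (inv_ne_zero hT)
      rw [mul_inv_cancel₀ hT, dg_one] at h6
      omega
    rw [h5]
    ring
  -- with marks
  have c5 := chi_of_le (M := (lat ι O).map (act k T.transpose)) hΛ hΛf
  have F2 := c5.1.1 F1
  have c6 := c5.2 F2
  refine ⟨F2, ?_⟩
  have hm' : (cod Λ (lat ι A) : ℤ) ≤ m * n := by exact_mod_cast hm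
  rw [c4] at c6
  have c7 : chi Λ ((lat ι O).map (act k T.transpose)) =
      (finrank k ↥(Λ ⊓ (lat ι O).map (act k T.transpose)) : ℤ) -
        finrank k ((ι → K) ⧸ (Λ ⊔ (lat ι O).map (act k T.transpose))) := rfl
  have key : 0 < 2 * (n * chi (Subalgebra.toSubmodule A) (Subalgebra.toSubmodule O) -
      dg A T.det - m * n) := by
    have : 2 * (n * chi (Subalgebra.toSubmodule A) (Subalgebra.toSubmodule O) -
      dg A T.det - m * n) = n * (q * (- dg A l) +
      2 * chi (Subalgebra.toSubmodule A) (Subalgebra.toSubmodule O) - 2 * m) := by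
      linear_combination -d1
    rw [this]
    exact mul_pos hn0 (by linarith)
  have : (finrank k ((ι → K) ⧸ (Λ ⊔ (lat ι O).map (act k T.transpose))) : ℤ) <
      finrank k ↥(Λ ⊓ (lat ι O).map (act k T.transpose)) := by
    rw [c7] at c6
    linarith
  exact_mod_cast this

end Vale.Agent.P292.Mo
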