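import Vale.Agent.P292.Mo.Idx

/-! # P292, Mori step, block II.b: the lattice of the sections vanishing at the marks. -/

namespace Vale.Agent.P292.Mo

open Module Submodule

universe u v w

variable {k : Type u} [Field k] {K : Type w} [Field K] [Algebra k K] {A₀ : Subalgebra k K}

/-- The elements of `A₀` which vanish at all the marks. -/
def markI {m : ℕ} (c : Fin m → (A₀ →ₐ[k] k)) : Submodule k K :=
  (⨅ i, LinearMap.ker (c i).toLinearMap).map (Subalgebra.toSubmodule A₀).subtype

theorem mem_markI {m : ℕ} {c : Fin m → (A₀ →ₐ[k] k)} {x : K} :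
    x ∈ markI c ↔ ∃ h : x ∈ A₀, ∀ i, c i ⟨x, h⟩ = 0 := by
  rw [markI, Submodule.mem_map]
  constructor
  · rintro ⟨y, hy, rfl⟩
    rw [Submodule.mem_iInf] at hy
    exact ⟨y.2, fun i => hy i⟩
  · rintro ⟨h, hx⟩
    refine ⟨⟨x, h⟩, ?_, rfl⟩
    rw [Submodule.mem_iInf]
    exact fun i => hx i

theorem markI_le {m : ℕ} (c : Fin m → (A₀ →ₐ[k] k)) :
    markI c ≤ Subalgebra.toSubmodule A₀ := fun _ hx => (mem_markI.1 hx).1

theorem mul_mem_markI {m : ℕ} {c : Fin m → (A₀ →ₐ[k] k)} {a x : K} (ha : a ∈ A₀)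
    (hx : x ∈ markI c) : a * x ∈ markI c := by
  obtain ⟨h, h0⟩ := mem_markI.1 hx
  refine mem_markI.2 ⟨A₀.mul_mem ha h, fun i => ?_⟩
  have : (⟨a * x, A₀.mul_mem ha h⟩ : A₀) = ⟨a, ha⟩ * ⟨x, h⟩ := rfl
  rw [this, map_mul, h0 i, mul_zero]

/-- Distinct marks impose independent conditions. -/
theorem marks_surjective {m : ℕ} {c : Fin m → (A₀ →ₐ[k] k)} (hc : Function.Injective c) :
    Function.Surjective (fun a : A₀ => fun i => c i a) := by
  classical
  -- the ideals are pairwise coprime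
  have hcop : Pairwise (Function.onFun IsCoprime fun i => RingHom.ker (c i).toRingHom) := by
    intro i j hij
    have hne : c i ≠ c j := fun h => hij (hc h)
    obtain ⟨a, ha⟩ : ∃ a, c i a ≠ c j a := by
      by_contra h
      push Not at h
      exact hne (AlgHom.ext h)
    change IsCoprime (RingHom.ker (c i).toRingHom) (RingHom.ker (c j).toRingHom)
    rw [Ideal.isCoprime_iff_exists]
    have hd : c j a - c i a ≠ 0 := sub_ne_zero.2 (Ne.symm ha)
    refine ⟨algebraMap k A₀ (c j a - c i a)⁻¹ * (a - algebraMap k A₀ (c i a)), ?_,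
      algebraMap k A₀ (c j a - c i a)⁻¹ * (algebraMap k A₀ (c j a) - a), ?_, ?_⟩
    · rw [RingHom.mem_ker]
      change c i _ = 0
      rw [map_mul, map_sub, AlgHom.commutes (c i)]
      simp
    · rw [RingHom.mem_ker]
      change c j _ = 0
      rw [map_mul, map_sub, AlgHom.commutes (c j)]
      simp
    · rw [← mul_add]
      have : a - algebraMap k A₀ (c i a) + (algebraMap k A₀ (c j a) - a) =
          algebraMap k A₀ (c j a - c i a) := by
        rw [map_sub]; ring
      rw [this, ← map_mul, inv_mul_cancel₀ hd, map_one]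
  intro v
  have hsur := Ideal.pi_quotient_surjective (I := fun i => RingHom.ker (c i).toRingHom) hcop
    (fun i => Ideal.Quotient.mk _ (algebraMap k A₀ (v i)))
  obtain ⟨a, ha⟩ := hsur
  refine ⟨a, ?_⟩
  funext i
  have h1 := ha i
  rw [Ideal.Quotient.eq, RingHom.mem_ker] at h1
  have h2 : c i (a - algebraMap k A₀ (v i)) = 0 := h1
  rw [map_sub, AlgHom.commutes, sub_eq_zero] at h2
  exact h2

theorem cod_markI {m : ℕ} {c : Fin m → (A₀ →ₐ[k] k)} (hc : Function.Injective c) :
    Fc (markI c) (Subalgebra.toSubmodule A₀) ∧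
      cod (markI c) (Subalgebra.toSubmodule A₀) = m := by
  let f : ↥(Subalgebra.toSubmodule A₀) →ₗ[k] (Fin m → k) := LinearMap.pi fun i =>
    (c i).toLinearMap
  have hsur : Function.Surjective f := marks_surjective hc
  have hker : LinearMap.ker f =
      (markI c).comap (Subalgebra.toSubmodule A₀).subtype := by
    ext x
    rw [LinearMap.mem_ker, Submodule.mem_comap, mem_markI]
    constructor
    · intro h
      exact ⟨x.2, fun i => congrFun h i⟩
    · rintro ⟨h, h0⟩
      funext i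
      exact h0 i
  let e : (↥(Subalgebra.toSubmodule A₀) ⧸ (markI c).comap (Subalgebra.toSubmodule A₀).subtype)
      ≃ₗ[k] (Fin m → k) := (Submodule.quotEquivOfEq _ _ hker.symm).trans
        (f.quotKerEquivOfSurjective hsur)
  have hfin : FiniteDimensional k (↥(Subalgebra.toSubmodule A₀) ⧸
      (markI c).comap (Subalgebra.toSubmodule A₀).subtype) := Module.Finite.equiv e.symm
  refine ⟨(finite_quot _ _).1 hfin, ?_⟩
  rw [← finrank_quot, LinearEquiv.finrank_eq e, finrank_fin_fun]

/-- The Euler characteristic of a symplectic bundle with marks. -/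
theorem chi_bundle {A₁ : Subalgebra k K} (hCD : IsCD A₀ A₁) {u : K} (hu : u ≠ 0) {N : ℕ}
    {T M0 M1 : Matrix (Fin N) (Fin N) K} (hM0 : M0.det ∈ A₀) (hM0' : M0.det⁻¹ ∈ A₀)
    (hM00 : M0.det ≠ 0) (hM1 : M1.det ∈ A₁) (hM1' : M1.det⁻¹ ∈ A₁) (hM10 : M1.det ≠ 0)
    (hrel : T * M0 * T.transpose = u⁻¹ • M1) {m : ℕ} {c : Fin m → (A₀ →ₐ[k] k)}
    (hc : Function.Injective c) :
    Fred (pis fun _ : Fin N => markI c) ((lat (Fin N) A₁).map (act k T.transpose)) ∧
    2 * chi (pis fun _ : Fin N => markI c) ((lat (Fin N) A₁).map (act k T.transpose)) =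
      2 * N * chi0 A₀ A₁ + N * idx A₁ u - 2 * m * N := by
  have hA := hCD.oneDim
  have hF := hCD.fred
  have hui : u⁻¹ ≠ 0 := inv_ne_zero hu
  have h1 : T.det * M0.det * T.det = (u⁻¹) ^ N * M1.det := by
    have := congrArg Matrix.det hrel
    rwa [Matrix.det_mul, Matrix.det_mul, Matrix.det_transpose, Matrix.det_smul,
      Fintype.card_fin] at this
  have hT : T.det ≠ 0 := by
    intro h0
    rw [h0, mul_zero] at h1
    exact mul_ne_zero (pow_ne_zero _ hui) hM10 h1.symm
  have hTt : T.transpose.det ≠ 0 := by rwa [Matrix.det_transpose]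
  have h2 : 2 * dg A₁ T.det = N * idx A₁ u := by
    have e1 : dg A₁ (T.det * M0.det * T.det) = 2 * dg A₁ T.det := by
      rw [hA.dg_mul (mul_ne_zero hT hM00) hT, hA.dg_mul hT hM00, dg_unit_O hA hF hM0 hM0' hM00]
      ring
    have e2 : dg A₁ ((u⁻¹) ^ N * M1.det) = N * idx A₁ u := by
      rw [hA.dg_mul (pow_ne_zero _ hui) hM10, dg_unit hM1 hM1' hM10, hA.dg_pow hui]
      have := idx_eq (A₁ := A₁) u⁻¹
      rw [hCD.idx_inv hu] at this
      have h3 : dg A₁ u⁻¹ = idx A₁ u := by linarith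
      rw [h3]
      ring
    rw [← e1, h1, e2]
  have c1 := chi_lat (ι := Fin N) hA hF T.transpose hTt
  have F1 : Fred (lat (Fin N) A₀) ((lat (Fin N) A₁).map (act k T.transpose)) := Fred.comm c1.1
  have c2 : chi (lat (Fin N) A₀) ((lat (Fin N) A₁).map (act k T.transpose)) =
      N * chi0 A₀ A₁ + dg A₁ T.det := by
    rw [chi_comm, c1.2, chi0_eq, Fintype.card_fin, Matrix.det_transpose]
  have hm := cod_markI hc
  have c3 := cod_pis (ι := Fin N) (fun _ => markI c) (fun _ => Subalgebra.toSubmodule A₀)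
    (fun _ => hm.1)
  have hle : (pis fun _ : Fin N => markI c) ≤ lat (Fin N) A₀ := fun v hv =>
    mem_pis.2 fun i => markI_le c (mem_pis.1 hv i)
  have c4 := chi_of_le (M := (lat (Fin N) A₁).map (act k T.transpose)) hle c3.1
  have F2 := c4.1.1 F1
  have c5 := c4.2 F2
  have c6 : (cod (pis fun _ : Fin N => markI c) (lat (Fin N) A₀) : ℤ) = N * m := by
    have := c3.2
    rw [Finset.sum_const, Finset.card_univ, Fintype.card_fin, hm.2, smul_eq_mul] at this
    exact_mod_cast this
  refine ⟨F2, ?_⟩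
  rw [c2, c6] at c5
  linear_combination -2 * c5 + h2

end Vale.Agent.P292.Mo
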