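import Vale.Agent.P292.Mo.DefT
import Vale.Agent.P292.Mo.Marks

/-! # P292, Mori step, block II.b: the Euler characteristic of the derivations along a curve. -/

namespace Vale.Agent.P292.Mo

open Module Submodule

universe u v w

section inj

variable {k : Type*} [Field k] {V W : Type*} [AddCommGroup V] [Module k V] [AddCommGroup W]
  [Module k W]

theorem cod_map_inj {f : V →ₗ[k] W} (hf : Function.Injective f) (D L : Submodule k V) :
    cod (D.map f) (L.map f) = cod D L ∧ (Fc (D.map f) (L.map f) ↔ Fc D L) := by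
  let g : (V ⧸ D) →ₗ[k] (W ⧸ D.map f) := D.mapQ (D.map f) f (Submodule.le_comap_map f D)
  have hg : Function.Injective g := by
    rw [← LinearMap.ker_eq_bot, Submodule.ker_mapQ, Submodule.comap_map_eq_of_injective hf,
      Submodule.mkQ_map_self]
  have h : (L.map D.mkQ).map g = (L.map f).map (D.map f).mkQ := by
    rw [← Submodule.map_comp, ← Submodule.map_comp]
    congr 1
  let e : ↥(L.map D.mkQ) ≃ₗ[k] ↥((L.map D.mkQ).map g) := Submodule.equivMapOfInjective g hg _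
  rw [h] at e
  exact ⟨(LinearEquiv.finrank_eq e).symm, ⟨fun h => by
    have : Module.Finite k _ := h
    exact Module.Finite.equiv e.symm, fun h => by
    have : Module.Finite k _ := h
    exact Module.Finite.equiv e⟩⟩

end inj

section

variable {k : Type u} [Field k] {R : Type v} [CommRing R] [Algebra k R]
  {𝒜 : ℕ → Submodule k R} {P : R →ₗ[k] R →ₗ[k] R} {K : Type w} [Field K] [Algebra k K]
  {φ : R →ₐ[k] K}

/-- Derivations over `φ` are determined by their values on a frame. -/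
theorem frame_apply {N : ℕ} {x : Fin N → R} {d : Fin N → ℕ} {g : R} (h : IsFr 𝒜 x d g) (r : R) :
    ∃ c : Fin N → K, ∀ δ ∈ DerS φ, φ g * δ r = ∑ i, c i * δ (x i) := by
  obtain ⟨c, hc⟩ := h.gen r
  refine ⟨fun i => φ (c i), fun δ hδ => ?_⟩
  let _ : Module R K := Module.compHom K φ.toRingHom
  have hsm : ∀ (r : R) (z : K), r • z = φ r * z := fun _ _ => rfl
  have _ : IsScalarTower k R K := ⟨fun c r z => by rw [hsm, hsm, map_smul, smul_mul_assoc]⟩
  let D' : Derivation k R K := Derivation.mk' δ (fun a b => by rw [hsm, hsm]; exact hδ a b)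
  have hD' : ∀ s, D' s = δ s := fun _ => rfl
  have h1 := congrArg D'.liftKaehlerDifferential hc
  rw [map_smul, map_sum, Derivation.liftKaehlerDifferential_comp_D, hsm, hD'] at h1
  rw [h1]
  refine Finset.sum_congr rfl fun i _ => ?_
  rw [map_smul, Derivation.liftKaehlerDifferential_comp_D, hsm, hD']

theorem frame_ext {N : ℕ} {x : Fin N → R} {d : Fin N → ℕ} {g : R} (h : IsFr 𝒜 x d g)
    (hg : φ g ≠ 0) {δ δ' : R →ₗ[k] K} (h1 : δ ∈ DerS φ) (h2 : δ' ∈ DerS φ)
    (he : ∀ i, δ (x i) = δ' (x i)) : δ = δ' := by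
  ext r
  obtain ⟨c, hc⟩ := frame_apply (φ := φ) h r
  have e1 := hc δ h1
  have e2 := hc δ' h2
  refine mul_left_cancel₀ hg ?_
  rw [e1, e2]
  exact Finset.sum_congr rfl fun i _ => by rw [he i]

/-- The Hamiltonian derivation over `φ`. -/
def hmd (P : R →ₗ[k] R →ₗ[k] R) (φ : R →ₐ[k] K) (a : R) : R →ₗ[k] K := φ.toLinearMap ∘ₗ P a

theorem hmd_apply (a r : R) : hmd P φ a r = φ (P a r) := rfl

theorem hmd_mem (hl : ∀ a b c, P a (b * c) = P a b * c + b * P a c) (a : R) :
    hmd P φ a ∈ DerS φ := by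
  intro r s
  rw [hmd_apply, hmd_apply, hmd_apply, hl, map_add, map_mul, map_mul]
  ring

theorem DerS_mul_mem {δ : R →ₗ[k] K} (h : δ ∈ DerS φ) (a : K) :
    (LinearMap.mulLeft k a ∘ₗ δ) ∈ DerS φ := by
  intro r s
  simp only [LinearMap.comp_apply, LinearMap.mulLeft_apply, h r s]
  ring

/-- The derivation `∑ a_j z_j {x_j, .}`. -/
def hmL (P : R →ₗ[k] R →ₗ[k] R) (φ : R →ₐ[k] K) {N : ℕ} (x : Fin N → R) (z : Fin N → K) :
    (Fin N → K) →ₗ[k] (R →ₗ[k] K) where
  toFun a := ∑ j, LinearMap.mulLeft k (a j * z j) ∘ₗ hmd P φ (x j)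
  map_add' a b := by
    rw [← Finset.sum_add_distrib]
    refine Finset.sum_congr rfl fun j _ => ?_
    ext r
    simp only [Pi.add_apply, LinearMap.comp_apply, LinearMap.mulLeft_apply, LinearMap.add_apply]
    ring
  map_smul' c a := by
    rw [RingHom.id_apply, Finset.smul_sum]
    refine Finset.sum_congr rfl fun j _ => ?_
    ext r
    simp only [Pi.smul_apply, LinearMap.comp_apply, LinearMap.mulLeft_apply,
      LinearMap.smul_apply, smul_mul_assoc]

theorem hmL_apply {N : ℕ} (x : Fin N → R) (z a : Fin N → K) (r : R) :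
    hmL P φ x z a r = ∑ j, a j * z j * φ (P (x j) r) := by
  simp only [hmL, LinearMap.coe_mk, AddHom.coe_mk, LinearMap.sum_apply, LinearMap.comp_apply,
    LinearMap.mulLeft_apply, hmd_apply]

theorem hmL_mem (hl : ∀ a b c, P a (b * c) = P a b * c + b * P a c) {N : ℕ} (x : Fin N → R)
    (z a : Fin N → K) : hmL P φ x z a ∈ DerS φ := by
  intro r s
  rw [hmL_apply, hmL_apply, hmL_apply, Finset.mul_sum, Finset.mul_sum, ← Finset.sum_add_distrib]
  refine Finset.sum_congr rfl fun j _ => ?_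
  rw [hl, map_add, map_mul, map_mul]
  ring

theorem skew_of_alt (ha : ∀ a, P a a = 0) (a b : R) : P a b = - P b a := by
  have h := ha (a + b)
  rw [map_add, map_add, LinearMap.add_apply, LinearMap.add_apply, ha a, ha b, zero_add,
    add_zero] at h
  exact eq_neg_of_add_eq_zero_right h

/-- The matrix of the brackets of a frame, scaled by `y` and `z`. -/
def scM (P : R →ₗ[k] R →ₗ[k] R) (φ : R →ₐ[k] K) {N : ℕ} (x : Fin N → R) (y z : Fin N → K) :
    Matrix (Fin N) (Fin N) K := Matrix.of fun i j => y i * z j * φ (P (x i) (x j))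

theorem det_scM {N : ℕ} (x : Fin N → R) (y z : Fin N → K) :
    (scM P φ x y z).det = (∏ i, y i) * (∏ i, z i) * φ (brM P x).det := by
  have h : scM P φ x y z = Matrix.diagonal y * (brM P x).map φ * Matrix.diagonal z := by
    ext i j
    rw [Matrix.mul_diagonal, Matrix.diagonal_mul, scM, Matrix.of_apply, Matrix.map_apply, brM,
      Matrix.of_apply]
    ring
  rw [h, Matrix.det_mul, Matrix.det_mul, Matrix.det_diagonal, Matrix.det_diagonal]
  have : ((brM P x).map φ).det = φ (brM P x).det := by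
    rw [AlgHom.map_det]
    rfl
  rw [this]
  ring

/-- Coordinates with respect to a scaled frame: the derivation `δ` has coordinates
`(M')⁻¹ (y δ(x))`, where `M'` is the transpose of `scM x z y`. -/
theorem hmL_coord {N : ℕ} {x : Fin N → R} {d : Fin N → ℕ} {g : R} (h : IsFr 𝒜 x d g)
    (hl : ∀ a b c, P a (b * c) = P a b * c + b * P a c)
    (hg : φ g ≠ 0) (hdet : φ (brM P x).det ≠ 0) {y z : Fin N → K} (hy : ∀ i, y i ≠ 0)
    (hz : ∀ i, z i ≠ 0) {δ : R →ₗ[k] K} (hδ : δ ∈ DerS φ) :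
    hmL P φ x z (((scM P φ x z y).transpose)⁻¹.mulVec fun i => y i * δ (x i)) = δ := by
  have hD : (scM P φ x z y).transpose.det ≠ 0 := by
    rw [Matrix.det_transpose, det_scM]
    exact mul_ne_zero (mul_ne_zero (Finset.prod_ne_zero_iff.2 fun i _ => hz i)
      (Finset.prod_ne_zero_iff.2 fun i _ => hy i)) hdet
  refine frame_ext h hg (hmL_mem hl _ _ _) hδ fun i => ?_
  refine mul_left_cancel₀ (hy i) ?_
  set a := ((scM P φ x z y).transpose)⁻¹.mulVec fun i => y i * δ (x i) with ha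
  have h1 : (scM P φ x z y).transpose.mulVec a = fun i => y i * δ (x i) := by
    rw [ha, Matrix.mulVec_mulVec, Matrix.mul_nonsing_inv _ (Ne.isUnit hD), Matrix.one_mulVec]
  have h2 := congrFun h1 i
  rw [← h2, hmL_apply, Matrix.mulVec, dotProduct, Finset.mul_sum]
  refine Finset.sum_congr rfl fun j _ => ?_
  rw [Matrix.transpose_apply, scM, Matrix.of_apply]
  ring

theorem hmL_injective {N : ℕ} {x : Fin N → R} (hdet : φ (brM P x).det ≠ 0) {z : Fin N → K}
    (hz : ∀ i, z i ≠ 0) : Function.Injective (hmL P φ x z) := by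
  rw [injective_iff_map_eq_zero]
  intro a ha
  have hD : (scM P φ x z 1).transpose.det ≠ 0 := by
    rw [Matrix.det_transpose, det_scM]
    refine mul_ne_zero (mul_ne_zero (Finset.prod_ne_zero_iff.2 fun i _ => hz i) ?_) hdet
    simp
  refine Matrix.eq_zero_of_mulVec_eq_zero hD ?_
  funext i
  have h1 := LinearMap.congr_fun ha (x i)
  rw [hmL_apply, LinearMap.zero_apply] at h1
  rw [Pi.zero_apply, ← h1, Matrix.mulVec, dotProduct]
  refine Finset.sum_congr rfl fun j _ => ?_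
  rw [Matrix.transpose_apply, scM, Matrix.of_apply, Pi.one_apply]
  ring

theorem det_mem_sub {n : Type*} [Fintype n] [DecidableEq n] {B : Subalgebra k K}
    {M : Matrix n n K} (hM : ∀ i j, M i j ∈ B) : M.det ∈ B := by
  rw [Matrix.det_apply']
  refine B.sum_mem fun σ _ => B.mul_mem ?_ (B.prod_mem fun i _ => hM _ _)
  exact B.intCast_mem _

theorem inv_mulVec_mem {N : ℕ} {B : Subalgebra k K} {M : Matrix (Fin N) (Fin N) K}
    (hM : ∀ i j, M i j ∈ B) (hdet : M.det⁻¹ ∈ B) {I : Submodule k K}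
    (hI : ∀ b ∈ B, ∀ x ∈ I, b * x ∈ I) {v : Fin N → K} (hv : ∀ i, v i ∈ I) (i : Fin N) :
    (M⁻¹.mulVec v) i ∈ I := by
  rw [Matrix.mulVec, dotProduct]
  refine I.sum_mem fun j _ => hI _ ?_ _ (hv j)
  rw [Matrix.inv_def, Matrix.smul_apply, smul_eq_mul, Ring.inverse_eq_inv']
  refine B.mul_mem hdet ?_
  rw [Matrix.adjugate_apply]
  refine det_mem_sub fun a b => ?_
  by_cases ha : a = j
  · subst ha
    rw [Matrix.updateRow_self]
    by_cases hb : b = i
    · subst hb
      rw [Pi.single_eq_same]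
      exact B.one_mem
    · rw [Pi.single_eq_of_ne hb]
      exact B.zero_mem
  · rw [Matrix.updateRow_ne ha]
    exact hM a b

end

section main

variable {k : Type u} [Field k] {R : Type v} [CommRing R] [Algebra k R]
  {𝒜 : ℕ → Submodule k R} [GradedAlgebra 𝒜] {P : R →ₗ[k] R →ₗ[k] R} {K : Type w} [Field K]
  [Algebra k K] {φ : R →ₐ[k] K} {A₀ A₁ : Subalgebra k K} {u : K}

theorem IsMp.mem0 (h : IsMp 𝒜 A₀ A₁ u φ) (r : R) : φ r ∈ A₀ := by
  induction r using DirectSum.Decomposition.inductionOn 𝒜 with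
  | zero => rw [map_zero]; exact A₀.zero_mem
  | homogeneous m => exact (h.sec _ _ m.2).1
  | add r s hr hs => rw [map_add]; exact A₀.add_mem hr hs

omit [GradedAlgebra 𝒜] in
theorem IsMp.mem1 (h : IsMp 𝒜 A₀ A₁ u φ) {n : ℕ} {r : R} (hr : r ∈ 𝒜 n) : u ^ n * φ r ∈ A₁ :=
  (h.sec n r hr).2

/-- The bracket along the curve on the second chart. -/
theorem IsMp.bracket1 (h : IsMp 𝒜 A₀ A₁ u φ) (hPM : IsPM 𝒜 P) {m n : ℕ} {a b : R} (ha : a ∈ 𝒜 m)
    (hb : b ∈ 𝒜 n) : u ^ ((m : ℤ) - 1) * u ^ n * φ (P a b) ∈ A₁ := by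
  rcases Nat.eq_zero_or_pos (m + n) with h0 | h0
  · have hb0 : b ∈ 𝒜 0 := by
      have : n = 0 := by omega
      rwa [this] at hb
    obtain ⟨c, rfl⟩ := hPM.connected b hb0
    have h1 : P a 1 = 0 := by
      have h6 := hPM.leibniz a 1 1
      rw [mul_one, mul_one, one_mul] at h6
      have h7 : P a 1 + 0 = P a 1 + P a 1 := by rw [add_zero]; exact h6
      exact (add_left_cancel h7).symm
    rw [Algebra.algebraMap_eq_smul_one, map_smul, h1, smul_zero, map_zero, mul_zero]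
    exact A₁.zero_mem
  · have h1 := h.mem1 (hPM.degree m n (m + n - 1) (by omega) a ha b hb)
    have h2 : u ^ ((m : ℤ) - 1) * u ^ n = u ^ (m + n - 1) := by
      rw [← zpow_natCast u n, ← zpow_add₀ h.u_ne, ← zpow_natCast u (m + n - 1)]
      congr 1
      omega
    rwa [h2]

theorem prod_zpow_sum {F : Type*} [Field F] {u : F} (hu : u ≠ 0) {ι : Type*} (s : Finset ι)
    (f : ι → ℤ) : ∏ i ∈ s, u ^ f i = u ^ ∑ i ∈ s, f i := by
  classical
  induction s using Finset.induction_on with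
  | empty => simp
  | insert a s ha ih => rw [Finset.prod_insert ha, Finset.sum_insert ha, ih, zpow_add₀ hu]

/-- **Block II.b.** Riemann-Roch for the derivations along the curve vanishing at the marks. -/
theorem chi_der (hPM : IsPM 𝒜 P) (hCD : IsCD A₀ A₁) (hMp : IsMp 𝒜 A₀ A₁ u φ) {N : ℕ}
    {x : Fin N → R} {d : Fin N → ℕ} {g : R} {x' : Fin N → R} {d' : Fin N → ℕ} {g' : R}
    (h0 : IsFr0 𝒜 P A₀ φ x d g) (h1 : IsFr1 𝒜 P A₁ u φ x' d' g') {m : ℕ}
    {c : Fin m → (A₀ →ₐ[k] k)} (hc : Function.Injective c) :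
    FiniteDimensional k ↥(T0 𝒜 φ (markI c) A₁ u) ∧
    FiniteDimensional k ↥(ObS 𝒜 φ (markI c) A₁ u) ∧
    2 * (finrank k ↥(T0 𝒜 φ (markI c) A₁ u) : ℤ) - 2 * finrank k ↥(ObS 𝒜 φ (markI c) A₁ u) =
      2 * N * chi0 A₀ A₁ + N * idx A₁ u - 2 * m * N := by
  have hu := hMp.u_ne
  have hl := hPM.leibniz
  -- scalings
  set z1 : Fin N → K := fun j => u ^ ((d' j : ℤ) - 1) with hz1
  set y1 : Fin N → K := fun j => u ^ d' j with hy1
  have hz1' : ∀ j, z1 j ≠ 0 := fun j => zpow_ne_zero _ hu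
  have hy1' : ∀ j, y1 j ≠ 0 := fun j => pow_ne_zero _ hu
  have hzy : ∀ j, u * z1 j = y1 j := fun j => by
    rw [hz1, hy1]
    change u * u ^ ((d' j : ℤ) - 1) = u ^ d' j
    rw [← zpow_one_add₀ hu, ← zpow_natCast]
    congr 1
    ring
  have hone : ∀ j : Fin N, (1 : Fin N → K) j ≠ 0 := fun j => one_ne_zero
  set Φ := hmL P φ x 1 with hΦ
  set Φ' := hmL P φ x' z1 with hΦ'
  have hΦinj : Function.Injective Φ := hmL_injective h0.det_ne hone
  -- matrices
  set M0 := scM P φ x 1 1 with hM0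
  set M1 := scM P φ x' z1 y1 with hM1
  have M0mem : ∀ i j, M0 i j ∈ A₀ := fun i j => by
    rw [hM0, scM, Matrix.of_apply, Pi.one_apply, Pi.one_apply, one_mul, one_mul]
    exact hMp.mem0 _
  have M1mem : ∀ i j, M1 i j ∈ A₁ := fun i j =>
    hMp.bracket1 hPM (h1.fr.hom i) (h1.fr.hom j)
  have M0det : M0.det = φ (brM P x).det := by
    rw [hM0, det_scM]; simp
  have M1det : M1.det = u ^ ((2 : ℤ) * (∑ i, (d' i : ℤ)) - N) * φ (brM P x').det := by
    rw [hM1, det_scM]
    congr 1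
    have e1 : ∏ i, z1 i = u ^ (∑ i, ((d' i : ℤ) - 1)) := by
      exact prod_zpow_sum hu _ _
    have e2 : ∏ i, y1 i = u ^ (∑ i, (d' i : ℤ)) := by
      rw [hy1, Finset.prod_pow_eq_pow_sum, ← zpow_natCast]
      push_cast
      rfl
    rw [e1, e2, ← zpow_add₀ hu]
    congr 1
    rw [Finset.sum_sub_distrib, Finset.sum_const, Finset.card_univ, Fintype.card_fin,
      nsmul_eq_mul, mul_one]
    ring
  -- coordinates of the second frame in the first one
  have hmem : ∀ i, hmL P φ x' z1 (Pi.single i 1) ∈ DerS φ := fun i => hmL_mem hl _ _ _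
  have hsingle : ∀ i r, hmL P φ x' z1 (Pi.single i 1) r = z1 i * φ (P (x' i) r) := by
    intro i r
    rw [hmL_apply, Finset.sum_eq_single i]
    · rw [Pi.single_eq_same, one_mul]
    · intro j _ hj
      rw [Pi.single_eq_of_ne hj, zero_mul, zero_mul]
    · intro hi
      exact absurd (Finset.mem_univ i) hi
  have hT : ∀ i, ∃ t : Fin N → K, ∀ r, z1 i * φ (P (x' i) r) = ∑ j, t j * φ (P (x j) r) := by
    intro i
    have h2 := hmL_coord h0.fr hl h0.g_ne h0.det_ne hone hone (hmem i)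
    refine ⟨((scM P φ x 1 1).transpose)⁻¹.mulVec fun l =>
        (1 : Fin N → K) l * hmL P φ x' z1 (Pi.single i 1) (x l), fun r => ?_⟩
    have h3 := LinearMap.congr_fun h2 r
    rw [hsingle, hmL_apply] at h3
    rw [← h3]
    refine Finset.sum_congr rfl fun j _ => ?_
    rw [Pi.one_apply, mul_one]
  choose t ht using hT
  set T : Matrix (Fin N) (Fin N) K := Matrix.of t with hTdef
  have hΦT : ∀ b : Fin N → K, Φ' b = Φ (T.transpose.mulVec b) := by
    intro b
    ext r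
    rw [hΦ, hΦ', hmL_apply, hmL_apply]
    simp only [Matrix.mulVec, dotProduct, Matrix.transpose_apply, hTdef, Matrix.of_apply,
      Pi.one_apply, mul_one]
    have e1 : ∀ i, b i * z1 i * φ (P (x' i) r) = ∑ j, t i j * b i * φ (P (x j) r) := by
      intro i
      rw [mul_assoc, ht i r, Finset.mul_sum]
      exact Finset.sum_congr rfl fun j _ => by ring
    rw [Finset.sum_congr rfl fun i _ => e1 i, Finset.sum_comm]
    exact Finset.sum_congr rfl fun j _ => by rw [Finset.sum_mul]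
  have hrel : T * M0 * T.transpose = u⁻¹ • M1 := by
    ext i j
    rw [Matrix.smul_apply, Matrix.mul_apply, hM1, scM, Matrix.of_apply, smul_eq_mul]
    have e1 : ∀ l, (T * M0) i l = z1 i * φ (P (x' i) (x l)) := by
      intro l
      rw [Matrix.mul_apply, ht i (x l)]
      refine Finset.sum_congr rfl fun a _ => ?_
      rw [hM0, scM, Matrix.of_apply, hTdef, Matrix.of_apply, Pi.one_apply, Pi.one_apply]
      ring
    have e2 : ∀ l, (T * M0) i l * T.transpose l j = - (z1 i * (t j l * φ (P (x l) (x' i)))) := by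
      intro l
      rw [e1, Matrix.transpose_apply, hTdef, Matrix.of_apply, skew_of_alt hPM.alternating (x' i),
        map_neg]
      ring
    rw [Finset.sum_congr rfl fun l _ => e2 l, Finset.sum_neg_distrib, ← Finset.mul_sum,
      ← ht j (x' i), skew_of_alt hPM.alternating (x' j), map_neg, ← hzy j]
    field_simp
  -- the lattices
  have hL0 : Der0 φ (markI c) = (pis fun _ : Fin N => markI c).map Φ := by
    ext δ
    rw [mem_Der0]
    constructor
    · rintro ⟨hδ, hv⟩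
      refine ⟨_, ?_, hmL_coord h0.fr hl h0.g_ne h0.det_ne hone hone hδ⟩
      refine mem_pis.2 fun i => ?_
      refine inv_mulVec_mem (B := A₀) (M := M0.transpose) (fun i j => M0mem j i) ?_
        (fun b hb x hx => mul_mem_markI hb hx) (fun j => ?_) i
      · rw [Matrix.det_transpose, M0det]
        exact h0.unit
      · rw [Pi.one_apply, one_mul]
        exact hv _
    · rintro ⟨a, ha, rfl⟩
      refine ⟨hmL_mem hl _ _ _, fun r => ?_⟩
      rw [hΦ, hmL_apply]
      refine Submodule.sum_mem _ fun j _ => ?_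
      rw [Pi.one_apply, mul_one, mul_comm]
      exact mul_mem_markI (hMp.mem0 _) (mem_pis.1 ha j)
  have hL1' : Der1 𝒜 φ A₁ u = (lat (Fin N) A₁).map Φ' := by
    ext δ
    rw [mem_Der1]
    constructor
    · rintro ⟨hδ, hv⟩
      refine ⟨_, ?_, hmL_coord h1.fr hl h1.g_ne h1.det_ne hy1' hz1' hδ⟩
      refine mem_pis.2 fun i => ?_
      refine inv_mulVec_mem (B := A₁) (M := M1.transpose) (I := Subalgebra.toSubmodule A₁)
        (fun i j => M1mem j i) ?_ (fun b hb x hx => A₁.mul_mem hb hx) (fun j => ?_) i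
      · rw [Matrix.det_transpose, M1det]
        exact h1.unit
      · exact hv _ _ (h1.fr.hom j)
    · rintro ⟨a, ha, rfl⟩
      refine ⟨hmL_mem hl _ _ _, fun n r hr => ?_⟩
      rw [hΦ', hmL_apply, Finset.mul_sum]
      refine A₁.sum_mem fun j _ => ?_
      have : u ^ n * (a j * z1 j * φ (P (x' j) r)) =
          a j * (u ^ ((d' j : ℤ) - 1) * u ^ n * φ (P (x' j) r)) := by
        rw [hz1]
        ring
      rw [this]
      exact A₁.mul_mem (mem_pis.1 ha j) (hMp.bracket1 hPM (h1.fr.hom j) hr)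
  have hL1 : Der1 𝒜 φ A₁ u = ((lat (Fin N) A₁).map (act k T.transpose)).map Φ := by
    rw [hL1', ← Submodule.map_comp]
    congr 1
    exact LinearMap.ext fun b => hΦT b
  have hLtop : DerS φ = (⊤ : Submodule k (Fin N → K)).map Φ := by
    ext δ
    constructor
    · intro hδ
      exact ⟨_, trivial, hmL_coord h0.fr hl h0.g_ne h0.det_ne hone hone hδ⟩
    · rintro ⟨a, -, rfl⟩
      exact hmL_mem hl _ _ _
  -- Riemann-Roch
  have hb := chi_bundle (c := c) hCD hu (M0 := M0) (M1 := M1) (T := T) (det_mem_sub M0mem)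
    (by rw [M0det]; exact h0.unit) (by rw [M0det]; exact h0.det_ne) (det_mem_sub M1mem)
    (by rw [M1det]; exact h1.unit)
    (by rw [M1det]; exact mul_ne_zero (zpow_ne_zero _ hu) h1.det_ne) hrel hc
  set Λ := (pis fun _ : Fin N => markI c) with hΛ
  set M := (lat (Fin N) A₁).map (act k T.transpose) with hM
  have eT : T0 𝒜 φ (markI c) A₁ u = (Λ ⊓ M).map Φ := by
    rw [T0, hL0, hL1, Submodule.map_inf _ hΦinj]
  let e : ↥(Λ ⊓ M) ≃ₗ[k] ↥((Λ ⊓ M).map Φ) := Submodule.equivMapOfInjective Φ hΦinj _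
  have f1 : Module.Finite k ↥(Λ ⊓ M) := hb.1.1
  have fT : FiniteDimensional k ↥(T0 𝒜 φ (markI c) A₁ u) ∧
      finrank k ↥(T0 𝒜 φ (markI c) A₁ u) = finrank k ↥(Λ ⊓ M) := by
    rw [eT]
    exact ⟨Module.Finite.equiv e, (LinearEquiv.finrank_eq e).symm⟩
  have eS : Der0 φ (markI c) ⊔ Der1 𝒜 φ A₁ u = (Λ ⊔ M).map Φ := by
    rw [hL0, hL1, Submodule.map_sup]
  have ct := cod_top (Λ ⊔ M)
  have ci := cod_map_inj hΦinj (Λ ⊔ M) ⊤
  have fS : FiniteDimensional k ↥(ObS 𝒜 φ (markI c) A₁ u) ∧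
      finrank k ↥(ObS 𝒜 φ (markI c) A₁ u) = finrank k ((Fin N → K) ⧸ (Λ ⊔ M)) := by
    have e1 : FiniteDimensional k ↥(ObS 𝒜 φ (markI c) A₁ u) ↔
        Fc (Der0 φ (markI c) ⊔ Der1 𝒜 φ A₁ u) (DerS φ) := Iff.rfl
    have e2 : finrank k ↥(ObS 𝒜 φ (markI c) A₁ u) =
        cod (Der0 φ (markI c) ⊔ Der1 𝒜 φ A₁ u) (DerS φ) := rfl
    rw [e1, e2, eS, hLtop, ci.1, ci.2, ct.1, ct.2]
    exact ⟨hb.1.2, rfl⟩
  refine ⟨fT.1, fS.1, ?_⟩
  rw [fT.2, fS.2]
  have h5 := hb.2
  have h6 : chi Λ M = (finrank k ↥(Λ ⊓ M) : ℤ) - finrank k ((Fin N → K) ⧸ (Λ ⊔ M)) := rfl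
  rw [h6] at h5
  linarith

/-- `chi_der` for marks indexed by any finite type, and any description of the ideal of the
marks. -/
theorem chi_der_fintype (hPM : IsPM 𝒜 P) (hCD : IsCD A₀ A₁) (hMp : IsMp 𝒜 A₀ A₁ u φ) {N : ℕ}
    {x : Fin N → R} {d : Fin N → ℕ} {g : R} {x' : Fin N → R} {d' : Fin N → ℕ} {g' : R}
    (h0 : IsFr0 𝒜 P A₀ φ x d g) (h1 : IsFr1 𝒜 P A₁ u φ x' d' g') {ι : Type*} [Fintype ι]
    {c : ι → (A₀ →ₐ[k] k)} (hc : Function.Injective c) {I : Submodule k K}
    (hI : ∀ a, a ∈ I ↔ ∃ h : a ∈ A₀, ∀ l, c l ⟨a, h⟩ = 0) :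
    FiniteDimensional k ↥(T0 𝒜 φ I A₁ u) ∧
    FiniteDimensional k ↥(ObS 𝒜 φ I A₁ u) ∧
    2 * (finrank k ↥(T0 𝒜 φ I A₁ u) : ℤ) - 2 * finrank k ↥(ObS 𝒜 φ I A₁ u) =
      2 * N * chi0 A₀ A₁ + N * idx A₁ u - 2 * Fintype.card ι * N := by
  let e := (Fintype.equivFin ι).symm
  have hI' : I = markI (fun i => c (e i)) := by
    ext a
    rw [hI a, mem_markI]
    constructor
    · rintro ⟨h, h'⟩
      exact ⟨h, fun i => h' _⟩
    · rintro ⟨h, h'⟩
      refine ⟨h, fun l => ?_⟩
      have := h' (e.symm l)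
      simpa using this
  subst hI'
  exact chi_der hPM hCD hMp h0 h1 (hc.comp e.injective)

end main

end Vale.Agent.P292.Mo
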