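import Vale.Agent.P292.Mo.Defs

/-! # Closed points of the first chart. -/

namespace Vale.Agent.P292.Mo

universe u w

namespace C0

variable {k : Type u} [Field k] {K : Type w} [Field K] [Algebra k K]

theorem le_IC (B : Subalgebra k K) : B ≤ IC B := fun x hx =>
  (integralClosure B K).algebraMap_mem ⟨x, hx⟩

/-- Every element of `k[t, 1/g(t)]` is `f(t)` divided by a power of `g(t)`. -/
theorem exists_mul_pow_B0 {t : K} {g : Polynomial k} (hgt : Polynomial.aeval t g ≠ 0)
    {x : K} (hx : x ∈ B0 t g) :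
    ∃ (f : Polynomial k) (n : ℕ), x * (Polynomial.aeval t g) ^ n = Polynomial.aeval t f := by
  unfold B0 at hx
  induction hx using Algebra.adjoin_induction with
  | mem y hy =>
    rcases hy with rfl | hy
    · exact ⟨Polynomial.X, 0, by simp⟩
    · rw [Set.mem_singleton_iff] at hy
      subst hy
      exact ⟨1, 1, by rw [pow_one, inv_mul_cancel₀ hgt, map_one]⟩
  | algebraMap c => exact ⟨Polynomial.C c, 0, by simp⟩
  | add a b _ _ ha hb =>
    obtain ⟨f, n, h⟩ := ha
    obtain ⟨f', n', h'⟩ := hb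
    refine ⟨f * g ^ n' + f' * g ^ n, n + n', ?_⟩
    rw [map_add, map_mul, map_mul, map_pow, map_pow, ← h, ← h']
    ring
  | mul a b _ _ ha hb =>
    obtain ⟨f, n, h⟩ := ha
    obtain ⟨f', n', h'⟩ := hb
    refine ⟨f * f', n + n', ?_⟩
    rw [map_mul, ← h, ← h']
    ring

theorem coe_aeval {B : Subalgebra k K} (b : B) (q : Polynomial k) :
    ((Polynomial.aeval b q : B) : K) = Polynomial.aeval (b : K) q :=
  (Polynomial.aeval_algHom_apply B.val b q).symm

theorem aeval_mem_B0 (t : K) (g q : Polynomial k) : Polynomial.aeval t q ∈ B0 t g := by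
  have htB : t ∈ B0 t g := Algebra.subset_adjoin (Set.mem_insert _ _)
  have := (Polynomial.aeval (⟨t, htB⟩ : B0 t g) q).2
  rwa [coe_aeval] at this

/-- A homomorphism from `k[t, 1/g(t)]` to a domain which kills a nonzero polynomial in `t` has
values in `k`. -/
theorem range_B0_le_bot [IsAlgClosed k] {t : K} {g : Polynomial k}
    {D : Type w} [CommRing D] [IsDomain D] [Algebra k D] (ψ : B0 t g →ₐ[k] D)
    (f : Polynomial k) (hf : f ≠ 0)
    (h : ∀ h : Polynomial.aeval t f ∈ B0 t g, ψ ⟨Polynomial.aeval t f, h⟩ = 0)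
    (hgt : Polynomial.aeval t g ≠ 0) (b : B0 t g) : ψ b ∈ (⊥ : Subalgebra k D) := by
  have htB : t ∈ B0 t g := Algebra.subset_adjoin (Set.mem_insert _ _)
  have hgB : (Polynomial.aeval t g)⁻¹ ∈ B0 t g :=
    Algebra.subset_adjoin (Set.mem_insert_of_mem _ (Set.mem_singleton _))
  -- `ψ t` is a scalar
  obtain ⟨c, hc⟩ : ∃ c : k, ψ ⟨t, htB⟩ = algebraMap k D c := by
    have h1 : Polynomial.aeval (ψ ⟨t, htB⟩) f = 0 := by
      rw [Polynomial.aeval_algHom_apply, ← h (aeval_mem_B0 t g f)]
      congr 1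
      exact Subtype.ext (coe_aeval _ f)
    have h3 : f = Polynomial.C f.leadingCoeff *
        (f.roots.map fun a => Polynomial.X - Polynomial.C a).prod :=
      (IsAlgClosed.splits f).eq_prod_roots
    rw [h3, map_mul, Polynomial.aeval_C, map_multiset_prod, Multiset.map_map] at h1
    rcases mul_eq_zero.1 h1 with h4 | h4
    · exfalso
      have : Function.Injective (algebraMap k D) := (algebraMap k D).injective
      rw [map_eq_zero_iff _ this] at h4
      exact hf (Polynomial.leadingCoeff_eq_zero.1 h4)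
    · rw [Multiset.prod_eq_zero_iff, Multiset.mem_map] at h4
      obtain ⟨a, -, ha⟩ := h4
      refine ⟨a, ?_⟩
      simpa [sub_eq_zero] using ha
  have hS : ∀ x (hx : x ∈ B0 t g), ψ ⟨x, hx⟩ ∈ (⊥ : Subalgebra k D) := by
    intro x hx
    induction hx using Algebra.adjoin_induction with
    | mem y hy =>
      rcases hy with rfl | hy
      · exact Algebra.mem_bot.2 ⟨c, hc.symm⟩
      · rw [Set.mem_singleton_iff] at hy
        subst hy
        have h5 : ψ ⟨(Polynomial.aeval t g)⁻¹, hgB⟩ * algebraMap k D (g.eval c) = 1 := by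
          have h6 : algebraMap k D (g.eval c) = ψ (Polynomial.aeval (⟨t, htB⟩ : B0 t g) g) := by
            rw [← Polynomial.aeval_algHom_apply, hc, Polynomial.aeval_algebraMap_apply,
              Polynomial.coe_aeval_eq_eval]
          rw [h6, ← map_mul, ← map_one ψ]
          congr 1
          apply Subtype.ext
          show (Polynomial.aeval t g)⁻¹ * (Polynomial.aeval (⟨t, htB⟩ : B0 t g) g : K) = 1
          rw [coe_aeval, inv_mul_cancel₀ hgt]
        have h7 : g.eval c ≠ 0 := by
          intro h8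
          rw [h8, map_zero, mul_zero] at h5
          exact zero_ne_one h5
        refine Algebra.mem_bot.2 ⟨(g.eval c)⁻¹, ?_⟩
        have h9 : algebraMap k D (g.eval c)⁻¹ * algebraMap k D (g.eval c) = 1 := by
          rw [← map_mul, inv_mul_cancel₀ h7, map_one]
        have h10 : algebraMap k D (g.eval c) ≠ 0 := fun h => by
          rw [h, mul_zero] at h9; exact zero_ne_one h9
        exact mul_right_cancel₀ h10 (h9.trans h5.symm)
    | algebraMap r =>
      have : ψ (algebraMap k (B0 t g) r) ∈ (⊥ : Subalgebra k D) := by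
        rw [AlgHom.commutes]
        exact Subalgebra.algebraMap_mem _ r
      exact this
    | add a b ha' hb' ha hb =>
      have : ψ (⟨a, ha'⟩ + ⟨b, hb'⟩) ∈ (⊥ : Subalgebra k D) := by
        rw [map_add]
        exact add_mem ha hb
      exact this
    | mul a b ha' hb' ha hb =>
      have : ψ (⟨a, ha'⟩ * ⟨b, hb'⟩) ∈ (⊥ : Subalgebra k D) := by
        rw [map_mul]
        exact mul_mem ha hb
      exact this
  exact hS b.1 b.2

/-- An integral extension of a ring whose image in a domain is `k` has image `k`. -/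
theorem surj_of_bot [IsAlgClosed k] {A B D : Type w} [CommRing A] [Algebra k A] [CommRing B]
    [Algebra k B] [CommRing D] [IsDomain D] [Algebra k D] (ι : B →ₐ[k] A) (q : A →ₐ[k] D)
    (hq : Function.Surjective q)
    (hint : ∀ a : A, ∃ p : Polynomial B, p.Monic ∧ Polynomial.eval₂ ι.toRingHom a p = 0)
    (hbot : ∀ b, q (ι b) ∈ (⊥ : Subalgebra k D)) : Function.Surjective (algebraMap k D) := by
  have hinj : Function.Injective (algebraMap k D) := (algebraMap k D).injective
  let χ : B →ₐ[k] k :=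
    (Algebra.botEquivOfInjective hinj).toAlgHom.comp ((q.comp ι).codRestrict ⊥ hbot)
  have hχ : ∀ b, algebraMap k D (χ b) = q (ι b) := by
    intro b
    obtain ⟨c, hc⟩ := Algebra.mem_bot.1 (hbot b)
    have h1 : ((q.comp ι).codRestrict ⊥ hbot) b = algebraMap k (⊥ : Subalgebra k D) c :=
      Subtype.ext hc.symm
    have h2 : χ b = c := by
      show (Algebra.botEquivOfInjective hinj) (((q.comp ι).codRestrict ⊥ hbot) b) = c
      rw [h1, AlgEquiv.commutes]
      rfl
    rw [h2, hc]
  have : Algebra.IsIntegral k D := by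
    refine ⟨fun x => ?_⟩
    obtain ⟨a, rfl⟩ := hq x
    obtain ⟨p, hp, hpa⟩ := hint a
    refine ⟨p.map χ.toRingHom, hp.map _, ?_⟩
    rw [Polynomial.eval₂_map]
    have h1 : (algebraMap k D).comp χ.toRingHom = q.toRingHom.comp ι.toRingHom :=
      RingHom.ext fun b => hχ b
    rw [h1]
    have h2 := Polynomial.hom_eval₂ p ι.toRingHom q.toRingHom a
    rw [hpa, map_zero] at h2
    exact h2.symm
  exact (IsAlgClosed.algebraMap_bijective_of_isIntegral (k := k)).2

/-- Integral equations inside the integral closure. -/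
theorem exists_eq_IC (B : Subalgebra k K) (a : IC B) : ∃ p : Polynomial B, p.Monic ∧
    Polynomial.eval₂ (Subalgebra.inclusion (le_IC B)).toRingHom a p = 0 := by
  obtain ⟨p, hp, hpa⟩ := a.2
  refine ⟨p, hp, Subtype.ext ?_⟩
  have h2 := Polynomial.hom_eval₂ p (Subalgebra.inclusion (le_IC B)).toRingHom
    (IC B).val.toRingHom a
  exact h2.trans hpa

/-- A nonzero ideal of the integral closure contains a nonzero element of the base. -/
theorem exists_mem_base {B : Subalgebra k K} (I : Ideal (IC B)) (hI : I ≠ ⊥) :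
    ∃ b : B, b ≠ 0 ∧ Subalgebra.inclusion (le_IC B) b ∈ I := by
  obtain ⟨s, hs, hs0⟩ := Submodule.exists_mem_ne_zero_of_ne_bot hI
  let _ : Algebra B (IC B) := (Subalgebra.inclusion (le_IC B)).toRingHom.toAlgebra
  obtain ⟨p, hp, hps⟩ := exists_eq_IC B s
  have hne := Ideal.comap_ne_bot_of_integral_mem (R := B) hs0 hs ⟨p, hp, hps⟩
  obtain ⟨b, hb, hb0⟩ := Submodule.exists_mem_ne_zero_of_ne_bot hne
  exact ⟨b, hb0, hb⟩

end C0

open C0 in
/-- F3d: closed points of the first chart. -/
theorem closed_IC0 {k : Type u} [Field k] {K : Type w} [Field K] [Algebra k K]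
    [IsAlgClosed k] {t : K} (ht : Transcendental k t)
    [FiniteDimensional (IntermediateField.adjoin k {t}) K] {g : Polynomial k} (hg : g ≠ 0)
    (𝔭 : Ideal (IC (B0 t g))) (h𝔭 : 𝔭.IsPrime) (h0 : 𝔭 ≠ ⊥) :
    Function.Surjective (algebraMap k (IC (B0 t g) ⧸ 𝔭)) := by
  have hgt : Polynomial.aeval t g ≠ 0 := fun h => hg ((transcendental_iff.1 ht) g h)
  have : IsDomain (IC (B0 t g) ⧸ 𝔭) := Ideal.Quotient.isDomain 𝔭
  obtain ⟨b, hb0, hb⟩ := exists_mem_base 𝔭 h0
  obtain ⟨f, n, hfn⟩ := exists_mul_pow_B0 hgt b.2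
  refine surj_of_bot (Subalgebra.inclusion (le_IC (B0 t g))) (Ideal.Quotient.mkₐ k 𝔭)
    Ideal.Quotient.mk_surjective (exists_eq_IC _) ?_
  refine range_B0_le_bot ((Ideal.Quotient.mkₐ k 𝔭).comp (Subalgebra.inclusion (le_IC (B0 t g))))
    f ?_ ?_ hgt
  · rintro rfl
    rw [map_zero] at hfn
    rcases mul_eq_zero.1 hfn with h | h
    · exact hb0 (Subtype.ext h)
    · exact pow_ne_zero _ hgt h
  · intro h
    have h1 : (⟨Polynomial.aeval t f, h⟩ : B0 t g) =
        b * ⟨Polynomial.aeval t g, aeval_mem_B0 t g g⟩ ^ n := Subtype.ext hfn.symm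
    rw [h1, map_mul]
    have h2 : ((Ideal.Quotient.mkₐ k 𝔭).comp (Subalgebra.inclusion (le_IC (B0 t g)))) b = 0 :=
      Ideal.Quotient.eq_zero_iff_mem.2 hb
    rw [h2, zero_mul]

end Vale.Agent.P292.Mo
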