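import Vale.Agent.P292.Mo.Defs

/-! # P292, part II, F3e: closed points of the second chart. -/

namespace Vale.Agent.P292.Mo

open Polynomial

universe u w

namespace ClosedIC1

variable {k : Type u} [Field k] {K : Type w} [Field K] [Algebra k K]

theorem mem_B1 {t : K} {g : k[X]} {x : K} : x ∈ B1 t g ↔ ∃ a b : k[X],
    aeval t b ≠ 0 ∧ IsCoprime b g ∧ a.natDegree ≤ b.natDegree ∧ x = aeval t a / aeval t b :=
  Iff.rfl

theorem le_IC (B : Subalgebra k K) {x : K} (hx : x ∈ B) : x ∈ IC B :=
  (mem_integralClosure_iff B K).2 (isIntegral_algebraMap (x := (⟨x, hx⟩ : B)))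

theorem aeval_ne {t : K} (ht : Transcendental k t) {a : k[X]} (ha : a ≠ 0) : aeval t a ≠ 0 :=
  fun h => ha ((transcendental_iff_injective.1 ht) (by rw [h, map_zero]))

/-- The coordinate at infinity. -/
noncomputable def sp (t : K) (l : k) : K := (t - algebraMap k K l)⁻¹

theorem tl_ne {t : K} (ht : Transcendental k t) (l : k) : t - algebraMap k K l ≠ 0 := by
  have := aeval_ne ht (X_sub_C_ne_zero l)
  simpa using this

theorem conv {t : K} (ht : Transcendental k t) (l : k) {a : k[X]} {d : ℕ}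
    (ha : a.natDegree ≤ d) :
    aeval t a * sp t l ^ d = aeval (sp t l) (reflect d (taylor l a)) := by
  have h0 := tl_ne ht l
  let _ : Invertible (t - algebraMap k K l) := invertibleOfNonzero h0
  have h1 := eval₂_reflect_mul_pow (algebraMap k K) (t - algebraMap k K l) d (taylor l a)
    (by rw [natDegree_taylor]; exact ha)
  have h2 : eval₂ (algebraMap k K) (t - algebraMap k K l) (taylor l a) = aeval t a := by
    rw [← aeval_def, taylor_apply, aeval_comp]
    congr 2
    simp
  rw [h2] at h1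
  have h3 : ⅟(t - algebraMap k K l) = sp t l := by
    rw [invOf_eq_inv]
    rfl
  rw [h3] at h1
  rw [← h1, mul_assoc, ← mul_pow, sp, mul_inv_cancel₀ h0, one_pow, mul_one]
  rfl

theorem cop {g : k[X]} {l : k} (hl : g.eval l ≠ 0) (n : ℕ) : IsCoprime ((X - C l) ^ n) g := by
  apply IsCoprime.pow_left
  rw [(irreducible_X_sub_C l).coprime_iff_not_dvd, dvd_iff_isRoot]
  exact hl

theorem sp_mem {t : K} (ht : Transcendental k t) {g : k[X]} {l : k} (hl : g.eval l ≠ 0) :
    sp t l ∈ B1 t g := by
  refine ⟨1, X - C l, aeval_ne ht (X_sub_C_ne_zero l), ?_, ?_, ?_⟩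
  · simpa using cop hl 1
  · simp
  · simp [sp]

/-- `b(t) s ^ deg b` is a unit of `B1` if `b` is prime to `g`. -/
theorem unit_mem {t : K} (ht : Transcendental k t) {g : k[X]} {l : k} (_hl : g.eval l ≠ 0)
    {b : k[X]} (hb : b ≠ 0) (hbg : IsCoprime b g) :
    (aeval t b * sp t l ^ b.natDegree)⁻¹ ∈ B1 t g := by
  refine ⟨(X - C l) ^ b.natDegree, b, aeval_ne ht hb, hbg, ?_, ?_⟩
  · rw [natDegree_pow, natDegree_X_sub_C, mul_one]
  · rw [mul_inv, sp, inv_pow, inv_inv, map_pow, div_eq_inv_mul]
    simp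

/-- The element of the Jacobson radical. -/
noncomputable def rad (t : K) (g : k[X]) (l : k) : K := aeval t g * sp t l ^ (g.natDegree + 1)

theorem rad_mem {t : K} (ht : Transcendental k t) {g : k[X]} {l : k} (hl : g.eval l ≠ 0) :
    rad t g l ∈ B1 t g := by
  refine ⟨g, (X - C l) ^ (g.natDegree + 1), aeval_ne ht (pow_ne_zero _ (X_sub_C_ne_zero l)),
    cop hl _, ?_, ?_⟩
  · rw [natDegree_pow, natDegree_X_sub_C, mul_one]
    exact Nat.le_succ _
  · rw [rad, sp, inv_pow, map_pow, div_eq_mul_inv]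
    simp

/-- `1 - y u` is a unit of `B1`. -/
theorem one_sub_unit {t : K} (ht : Transcendental k t) {g : k[X]} {l : k} (hl : g.eval l ≠ 0)
    {y : K} (hy : y ∈ B1 t g) : 1 - y * rad t g l ≠ 0 ∧ (1 - y * rad t g l)⁻¹ ∈ B1 t g := by
  obtain ⟨a, b, hb, hbg, hab, rfl⟩ := hy
  have hb0 : b ≠ 0 := fun h => hb (by rw [h, map_zero])
  set n := g.natDegree with hn
  set D : k[X] := b * (X - C l) ^ (n + 1) with hD
  set A : k[X] := D - a * g with hA
  have hX : aeval t (X - C l) = t - algebraMap k K l := by simp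
  have h0 := tl_ne ht l
  have hDd : D.natDegree = b.natDegree + (n + 1) := by
    rw [hD, natDegree_mul hb0 (pow_ne_zero _ (X_sub_C_ne_zero l)), natDegree_pow,
      natDegree_X_sub_C, mul_one]
  have hlt : (a * g).natDegree < D.natDegree := by
    rw [hDd]
    have := natDegree_mul_le (p := a) (q := g)
    omega
  have hAd : A.natDegree = D.natDegree := natDegree_sub_eq_left_of_natDegree_lt hlt
  have hA0 : A ≠ 0 := by
    intro h
    rw [h, natDegree_zero] at hAd
    omega
  have hDK : aeval t D = aeval t b * (t - algebraMap k K l) ^ (n + 1) := by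
    rw [hD, map_mul, map_pow, hX]
  have hDK0 : aeval t D ≠ 0 := by
    rw [hDK]
    exact mul_ne_zero hb (pow_ne_zero _ h0)
  have hAK : aeval t A = aeval t b * (t - algebraMap k K l) ^ (n + 1) -
      aeval t a * aeval t g := by
    rw [hA, map_sub, hDK, map_mul]
  have hval : 1 - aeval t a / aeval t b * rad t g l = aeval t A / aeval t D := by
    rw [hAK, hDK, rad, sp, ← hn, inv_pow]
    have h1 : (t - algebraMap k K l) ^ (n + 1) ≠ 0 := pow_ne_zero _ h0
    field_simp
  rw [hval]
  refine ⟨div_ne_zero (aeval_ne ht hA0) hDK0, ?_⟩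
  rw [inv_div]
  refine ⟨D, A, aeval_ne ht hA0, ?_, by rw [hAd], rfl⟩
  have h1 : IsCoprime D g := hbg.mul_left (cop hl _)
  have h2 : A = D + g * (-a) := by rw [hA]; ring
  rw [h2]
  exact (IsCoprime.add_mul_left_left_iff).2 h1

/-- Every maximal ideal of the integral closure contains the radical element. -/
theorem rad_mem_max {t : K} (ht : Transcendental k t) {g : k[X]} {l : k} (hl : g.eval l ≠ 0)
    (m : Ideal (IC (B1 t g))) (hm : m.IsMaximal) :
    (⟨rad t g l, le_IC _ (rad_mem ht hl)⟩ : IC (B1 t g)) ∈ m := by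
  let S := integralClosure (B1 t g) K
  let m' : Ideal S := m
  have hm' : m'.IsMaximal := hm
  have hn : (m'.comap (algebraMap (B1 t g) S)).IsMaximal :=
    Ideal.isMaximal_comap_of_isIntegral_of_isMaximal (R := B1 t g) (S := S) m'
  set n := m'.comap (algebraMap (B1 t g) S) with hndef
  set u : B1 t g := ⟨rad t g l, rad_mem ht hl⟩ with hu
  have hun : u ∈ n := by
    by_contra hcon
    obtain ⟨y, i, hi, hyi⟩ := hn.exists_inv hcon
    have h1 := one_sub_unit ht hl y.2
    have h2 : i.1 = 1 - y.1 * rad t g l := by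
      have := congrArg Subtype.val hyi
      simp only [Subalgebra.coe_add, Subalgebra.coe_mul, Subalgebra.coe_one, hu] at this
      rw [← this]
      ring
    have h3 : IsUnit i := by
      refine IsUnit.of_mul_eq_one ⟨(1 - y.1 * rad t g l)⁻¹, h1.2⟩ (Subtype.ext ?_)
      show i.1 * (1 - y.1 * rad t g l)⁻¹ = 1
      rw [h2, mul_inv_cancel₀ h1.1]
    exact hn.ne_top (Ideal.eq_top_of_isUnit_mem _ hi h3)
  exact hun

/-- The coordinate `s` in the integral closure. -/
noncomputable def sg {t : K} (ht : Transcendental k t) {g : k[X]} {l : k} (hl : g.eval l ≠ 0) :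
    IC (B1 t g) := ⟨sp t l, le_IC _ (sp_mem ht hl)⟩

/-- The polynomial of the radical element. -/
noncomputable def UU (g : k[X]) (l : k) : k[X] := reflect g.natDegree (taylor l g) * X

theorem rad_eq {t : K} (ht : Transcendental k t) (g : k[X]) (l : k) :
    rad t g l = aeval (sp t l) (UU g l) := by
  rw [UU, map_mul, aeval_X, ← conv ht l le_rfl, rad, pow_succ, mul_assoc]

theorem UU_ne {t : K} (ht : Transcendental k t) {g : k[X]} (hg : g ≠ 0) (l : k) :
    UU g l ≠ 0 := by
  intro h
  have h1 := rad_eq ht g l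
  rw [h, map_zero, rad] at h1
  rcases mul_eq_zero.1 h1 with h2 | h2
  · exact aeval_ne ht hg h2
  · have h3 := pow_eq_zero_iff (Nat.succ_ne_zero _) |>.1 h2
    exact inv_ne_zero (tl_ne ht l) h3

theorem aeval_sg_UU {t : K} (ht : Transcendental k t) {g : k[X]} {l : k} (hl : g.eval l ≠ 0)
    (m : Ideal (IC (B1 t g))) (hm : m.IsMaximal) : aeval (sg ht hl) (UU g l) ∈ m := by
  have h1 := rad_mem_max ht hl m hm
  have h2 : (⟨rad t g l, le_IC _ (rad_mem ht hl)⟩ : IC (B1 t g)) = aeval (sg ht hl) (UU g l) := by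
    apply Subtype.ext
    show rad t g l = _
    rw [rad_eq ht]
    exact (coe_aeval_mk_apply (p := UU g l) _ (le_IC _ (sp_mem ht hl))).symm
  rwa [← h2]

/-- Integral elements over an algebraically closed field are constant. -/
theorem int_const [IsAlgClosed k] {E : Type*} [CommRing E] [IsDomain E] [Algebra k E] {x : E}
    (hx : IsIntegral k x) : ∃ c, algebraMap k E c = x := by
  obtain ⟨c, hc⟩ := (IsAlgClosed.algebraMap_bijective_of_isIntegral (k := k)
    (K := integralClosure k E)).2 ⟨x, hx⟩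
  exact ⟨c, congrArg Subtype.val hc⟩

/-- The residue fields of the integral closure are `k`. -/
theorem residue [IsAlgClosed k] {t : K} (ht : Transcendental k t) {g : k[X]} (hg : g ≠ 0) {l : k}
    (hl : g.eval l ≠ 0) (m : Ideal (IC (B1 t g))) (hm : m.IsMaximal) :
    Function.Surjective (algebraMap k (IC (B1 t g) ⧸ m)) := by
  set E := IC (B1 t g) ⧸ m with hE
  have hnt : Nontrivial E := Ideal.Quotient.nontrivial_iff.2 hm.ne_top
  have hdom : IsDomain E := (Ideal.Quotient.isDomain_iff_prime m).2 hm.isPrime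
  let π : IC (B1 t g) →ₐ[k] E := Ideal.Quotient.mkₐ k m
  have hle : B1 t g ≤ IC (B1 t g) := fun x hx => le_IC _ hx
  let ι : B1 t g →ₐ[k] IC (B1 t g) := Subalgebra.inclusion hle
  -- the coordinate
  have h1 : aeval (π (sg ht hl)) (UU g l) = 0 := by
    rw [aeval_algHom_apply]
    exact Ideal.Quotient.eq_zero_iff_mem.2 (aeval_sg_UU ht hl m hm)
  obtain ⟨μ, hμ⟩ : ∃ μ, algebraMap k E μ = π (sg ht hl) :=
    int_const (IsAlgebraic.isIntegral ⟨UU g l, UU_ne ht hg l, h1⟩)
  have hev : ∀ P : k[X], π (aeval (sg ht hl) P) = algebraMap k E (P.eval μ) := by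
    intro P
    rw [← aeval_algHom_apply, ← hμ, aeval_algebraMap_apply, coe_aeval_eq_eval]
  -- elements of `B1`
  have h2 : ∀ b : B1 t g, ∃ β, algebraMap k E β = π (ι b) := by
    rintro ⟨x, hx⟩
    have hx' := hx
    obtain ⟨a, b, hb, hbg, hab, hxe⟩ := hx'
    have hb0 : b ≠ 0 := fun h => hb (by rw [h, map_zero])
    set d := b.natDegree with hd
    set A := reflect d (taylor l a) with hA
    set B := reflect d (taylor l b) with hB
    have hAs := conv ht l hab
    have hBs := conv ht l (le_refl b.natDegree)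
    have hsd : sp t l ^ d ≠ 0 := pow_ne_zero _ (inv_ne_zero (tl_ne ht l))
    have h3 : (ι ⟨x, hx⟩) * aeval (sg ht hl) B = aeval (sg ht hl) A := by
      apply Subtype.ext
      have e1 : ((aeval (sg ht hl) B : IC (B1 t g)) : K) = aeval (sp t l) B :=
        coe_aeval_mk_apply (p := B) _ (le_IC _ (sp_mem ht hl))
      have e2 : ((aeval (sg ht hl) A : IC (B1 t g)) : K) = aeval (sp t l) A :=
        coe_aeval_mk_apply (p := A) _ (le_IC _ (sp_mem ht hl))
      show x * ((aeval (sg ht hl) B : IC (B1 t g)) : K) = _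
      rw [e1, e2, hA, hB, ← hAs, ← hBs, hxe, ← hd]
      field_simp
    have h4 : IsUnit (aeval (sg ht hl) B) := by
      refine IsUnit.of_mul_eq_one ⟨_, le_IC _ (unit_mem ht hl hb0 hbg)⟩ (Subtype.ext ?_)
      have e1 : ((aeval (sg ht hl) B : IC (B1 t g)) : K) = aeval (sp t l) B :=
        coe_aeval_mk_apply (p := B) _ (le_IC _ (sp_mem ht hl))
      show ((aeval (sg ht hl) B : IC (B1 t g)) : K) * _ = 1
      rw [e1, hB, ← hBs]
      exact mul_inv_cancel₀ (mul_ne_zero hb hsd)
    have h5 := h4.map π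
    rw [hev] at h5
    have h6 : B.eval μ ≠ 0 := by
      intro h
      rw [h, map_zero] at h5
      exact not_isUnit_zero h5
    have h7 := congrArg π h3
    rw [map_mul, hev, hev] at h7
    refine ⟨A.eval μ / B.eval μ, ?_⟩
    have h8 : algebraMap k E (B.eval μ) * algebraMap k E (B.eval μ)⁻¹ = 1 := by
      rw [← map_mul, mul_inv_cancel₀ h6, map_one]
    rw [div_eq_mul_inv, map_mul, ← h7, mul_assoc, h8, mul_one]
  -- integral elements
  intro y
  obtain ⟨x, rfl⟩ := Ideal.Quotient.mk_surjective y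
  apply int_const
  obtain ⟨p, hp, hpx⟩ : IsIntegral (B1 t g) (x : K) := x.2
  let f : B1 t g →+* E := (π.comp ι : B1 t g →ₐ[k] E)
  have h9 : eval₂ f (π x) p = 0 := by
    have h10 : eval₂ (ι : B1 t g →+* IC (B1 t g)) x p = 0 := by
      apply Subtype.ext
      have h11 : ((eval₂ (ι : B1 t g →+* IC (B1 t g)) x p : IC (B1 t g)) : K) =
          eval₂ (algebraMap (B1 t g) K) (x : K) p := by
        have := hom_eval₂ p (ι : B1 t g →+* IC (B1 t g)) ((IC (B1 t g)).val : IC (B1 t g) →+* K) x
        exact this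
      rw [h11, hpx]
      rfl
    have h12 := congrArg π h10
    rw [map_zero] at h12
    rw [← h12]
    exact (hom_eval₂ p (ι : B1 t g →+* IC (B1 t g)) (π : IC (B1 t g) →+* E) x).symm
  have h13 : p.map f ∈ lifts (algebraMap k E) := by
    rw [lifts_iff_coeff_lifts]
    intro n
    rw [coeff_map]
    exact h2 _
  obtain ⟨q, hq, _, hqm⟩ := lifts_and_degree_eq_and_monic h13 (hp.map f)
  refine ⟨q, hqm, ?_⟩
  show eval₂ (algebraMap k E) (π x) q = 0
  rw [← eval_map, hq, eval_map]
  exact h9

theorem hom_of_max [IsAlgClosed k] {t : K} (ht : Transcendental k t) {g : k[X]} (hg : g ≠ 0)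
    {l : k} (hl : g.eval l ≠ 0) (m : Ideal (IC (B1 t g))) (hm : m.IsMaximal) :
    ∃ c : IC (B1 t g) →ₐ[k] k, ∀ a ∈ m, c a = 0 := by
  have hnt : Nontrivial (IC (B1 t g) ⧸ m) := Ideal.Quotient.nontrivial_iff.2 hm.ne_top
  let e : k ≃ₐ[k] (IC (B1 t g) ⧸ m) := AlgEquiv.ofBijective (Algebra.ofId k _)
    ⟨(algebraMap k (IC (B1 t g) ⧸ m)).injective, residue ht hg hl m hm⟩
  refine ⟨e.symm.toAlgHom.comp (Ideal.Quotient.mkₐ k m), fun a ha => ?_⟩
  show e.symm (Ideal.Quotient.mk m a) = 0
  rw [Ideal.Quotient.eq_zero_iff_mem.2 ha, map_zero]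

/-- The value of the coordinate is a root. -/
theorem hom_root {t : K} (ht : Transcendental k t) {g : k[X]} {l : k}
    (hl : g.eval l ≠ 0) (c : IC (B1 t g) →ₐ[k] k) : (UU g l).eval (c (sg ht hl)) = 0 := by
  have hs : Function.Surjective (c : IC (B1 t g) →+* k) := fun x =>
    ⟨algebraMap k _ x, c.commutes x⟩
  have h1 := aeval_sg_UU ht hl (RingHom.ker (c : IC (B1 t g) →+* k))
    (RingHom.ker_isMaximal_of_surjective _ hs)
  have h2 : c (aeval (sg ht hl) (UU g l)) = 0 := h1
  rw [← aeval_algHom_apply, coe_aeval_eq_eval] at h2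
  exact h2

/-- Linear independence over `k[s]` of elements separated by points over `s = μ`. -/
theorem indep {A : Type*} [CommRing A] [IsDomain A] [Algebra k A] {ι : Type} [Fintype ι]
    [DecidableEq ι] {σ : A} {μ : k} (hσ : σ - algebraMap k A μ ≠ 0) (c : ι → A →ₐ[k] k)
    (hc : ∀ i, c i σ = μ) (e : ι → A) (he : ∀ i, c i (e i) ≠ 0)
    (he' : ∀ i j, i ≠ j → c j (e i) = 0) (n : ℕ) :
    ∀ P : ι → k[X], (∀ i, (P i).degree < n) → ∑ i, aeval σ (P i) * e i = 0 → ∀ i, P i = 0 := by
  induction n with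
  | zero =>
    intro P hP _ i
    exact degree_eq_bot.1 (Nat.WithBot.lt_zero_iff.1 (by simpa using hP i))
  | succ n ih =>
    intro P hP hsum
    have h1 : ∀ j, (P j).eval μ = 0 := by
      intro j
      have h2 := congrArg (c j) hsum
      rw [map_sum, map_zero, Finset.sum_eq_single j] at h2
      · rw [map_mul, ← aeval_algHom_apply, hc, coe_aeval_eq_eval] at h2
        exact (mul_eq_zero.1 h2).resolve_right (he j)
      · intro i _ hij
        rw [map_mul, he' i j hij, mul_zero]
      · intro h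
        exact absurd (Finset.mem_univ _) h
    have h3 : ∀ j, ∃ Q, P j = (X - C μ) * Q := fun j => dvd_iff_isRoot.2 (h1 j)
    choose Q hQ using h3
    have hQd : ∀ j, (Q j).degree < n := by
      intro j
      by_cases h0 : Q j = 0
      · rw [h0, degree_zero]
        exact WithBot.bot_lt_coe _
      · have h4 := hP j
        rw [hQ j, degree_mul, degree_X_sub_C, degree_eq_natDegree h0] at h4
        rw [degree_eq_natDegree h0]
        norm_cast at h4 ⊢
        omega
    have hQs : ∑ i, aeval σ (Q i) * e i = 0 := by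
      have h5 : (σ - algebraMap k A μ) * ∑ i, aeval σ (Q i) * e i = 0 := by
        rw [Finset.mul_sum, ← hsum]
        refine Finset.sum_congr rfl fun i _ => ?_
        rw [hQ i, map_mul, map_sub, aeval_X, aeval_C, mul_assoc]
      exact (mul_eq_zero.1 h5).resolve_left hσ
    intro i
    rw [hQ i, ih Q hQd hQs i, mul_zero]

/-- Common denominators. -/
theorem denom {t : K} {ι : Type} [Fintype ι] [DecidableEq ι]
    (x : ι → IntermediateField.adjoin k {t}) : ∃ (Q : k[X]) (P : ι → k[X]), Q ≠ 0 ∧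
      ∀ i, aeval t Q * (x i : K) = aeval t (P i) := by
  have h1 : ∀ i, ∃ p q : k[X], q ≠ 0 ∧ aeval t q * (x i : K) = aeval t p := by
    intro i
    obtain ⟨p, q, hpq⟩ := (IntermediateField.mem_adjoin_simple_iff k (x i : K)).1 (x i).2
    by_cases hq : aeval t q = 0
    · refine ⟨0, 1, one_ne_zero, ?_⟩
      rw [hpq, hq, div_zero, mul_zero, map_zero]
    · refine ⟨p, q, fun h => hq (by rw [h, map_zero]), ?_⟩
      rw [hpq, mul_div_cancel₀ _ hq]
  choose p q hq hpq using h1
  refine ⟨∏ i, q i, fun i => p i * ∏ j ∈ Finset.univ.erase i, q j,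
    Finset.prod_ne_zero_iff.2 fun i _ => hq i, fun i => ?_⟩
  rw [← Finset.mul_prod_erase Finset.univ q (Finset.mem_univ i), map_mul, map_mul, ← hpq i]
  ring

/-- Finitely many points over `s = μ`. -/
theorem finite_fiber {t : K} (ht : Transcendental k t)
    [FiniteDimensional (IntermediateField.adjoin k {t}) K] {g : k[X]} {l : k}
    (hl : g.eval l ≠ 0) (μ : k) :
    Finite {c : IC (B1 t g) →ₐ[k] k // c (sg ht hl) = μ} := by
  classical
  by_contra hinf
  rw [not_finite_iff_infinite] at hinf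
  set d := Module.finrank (IntermediateField.adjoin k {t}) K with hd
  let f := Infinite.natEmbedding {c : IC (B1 t g) →ₐ[k] k // c (sg ht hl) = μ}
  let c : Fin (d + 1) → IC (B1 t g) →ₐ[k] k := fun i => (f i.val).1
  have hc : ∀ i, c i (sg ht hl) = μ := fun i => (f i.val).2
  have hinj : ∀ i j, i ≠ j → ∃ x, c i x ≠ c j x := by
    intro i j hij
    by_contra hcon
    push Not at hcon
    apply hij
    have h1 : c i = c j := AlgHom.ext hcon
    have h2 : f i.val = f j.val := Subtype.ext h1
    exact Fin.ext (f.injective h2)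
  choose! x hx using hinj
  let e : Fin (d + 1) → IC (B1 t g) := fun i =>
    ∏ j ∈ Finset.univ.erase i, (x i j - algebraMap k _ (c j (x i j)))
  have he : ∀ i, c i (e i) ≠ 0 := by
    intro i
    rw [map_prod]
    refine Finset.prod_ne_zero_iff.2 fun j hj => ?_
    rw [map_sub, AlgHom.commutes, sub_ne_zero]
    exact hx i j (Finset.ne_of_mem_erase hj).symm
  have he' : ∀ i j, i ≠ j → c j (e i) = 0 := by
    intro i j hij
    rw [map_prod]
    refine Finset.prod_eq_zero (Finset.mem_erase.2 ⟨hij.symm, Finset.mem_univ j⟩) ?_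
    rw [map_sub, AlgHom.commutes]
    exact sub_self _
  have hσ : sg ht hl - algebraMap k (IC (B1 t g)) μ ≠ 0 := by
    intro h
    have h1 := congrArg Subtype.val h
    have h2 : sp t l = algebraMap k K μ := by
      have : sp t l - algebraMap k K μ = 0 := h1
      exact sub_eq_zero.1 this
    have h3 : t - algebraMap k K l = (algebraMap k K μ)⁻¹ := by
      rw [← h2, sp, inv_inv]
    apply ht
    have h4 : t = algebraMap k K (l + μ⁻¹) := by
      rw [map_add, map_inv₀, ← h3]
      ring
    rw [h4]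
    exact isAlgebraic_algebraMap _
  have hdep : ¬ LinearIndependent (IntermediateField.adjoin k {t}) fun i => (e i : K) := by
    intro h
    have := h.fintype_card_le_finrank
    rw [Fintype.card_fin] at this
    omega
  obtain ⟨b, hb, i0, hi0⟩ := Fintype.not_linearIndependent_iff.1 hdep
  obtain ⟨Q, P, hQ, hP⟩ := denom b
  set M := Finset.univ.sup fun i => (P i).natDegree with hM
  have hPM : ∀ i, (P i).natDegree ≤ M := fun i =>
    Finset.le_sup (f := fun i => (P i).natDegree) (Finset.mem_univ i)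
  have key := indep hσ c hc e he he' (M + 1) (fun i => reflect M (taylor l (P i))) (by
    intro i
    rw [degree_lt_iff_coeff_zero]
    intro m hm
    rw [coeff_reflect]
    have h5 : M < m := hm
    rw [revAt_eq_self_of_lt h5]
    apply coeff_eq_zero_of_natDegree_lt
    rw [natDegree_taylor]
    exact lt_of_le_of_lt (hPM i) h5) (by
    apply Subtype.ext
    have h6 : ∀ i, ((aeval (sg ht hl) (reflect M (taylor l (P i))) : IC (B1 t g)) : K) =
        aeval t (P i) * sp t l ^ M := by
      intro i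
      rw [conv ht l (hPM i)]
      exact coe_aeval_mk_apply _ (le_IC _ (sp_mem ht hl))
    rw [AddSubmonoidClass.coe_finsetSum]
    show ∑ i, ((aeval (sg ht hl) (reflect M (taylor l (P i))) : IC (B1 t g)) : K) * (e i : K) = 0
    have h7 : ∀ i, ((aeval (sg ht hl) (reflect M (taylor l (P i))) : IC (B1 t g)) : K) *
        (e i : K) = (aeval t Q * sp t l ^ M) * (b i • (e i : K)) := by
      intro i
      rw [h6, ← hP i]
      have : b i • (e i : K) = (b i : K) * (e i : K) := rfl
      rw [this]
      ring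
    simp_rw [h7]
    rw [← Finset.mul_sum, hb, mul_zero]) i0
  apply hi0
  have h8 := conv ht l (hPM i0)
  rw [key, map_zero] at h8
  have hsM : sp t l ^ M ≠ 0 := pow_ne_zero _ (inv_ne_zero (tl_ne ht l))
  have h9 : aeval t (P i0) = 0 := (mul_eq_zero.1 h8).resolve_right hsM
  rw [← hP i0] at h9
  have h10 : (b i0 : K) = 0 := (mul_eq_zero.1 h9).resolve_left (aeval_ne ht hQ)
  exact Subtype.ext h10

end ClosedIC1

open ClosedIC1 in
/-- F3e: closed points of the second chart: finitely many. -/
theorem closed_IC1 {k : Type u} [Field k] {K : Type w} [Field K] [Algebra k K]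
    [IsAlgClosed k] {t : K} (ht : Transcendental k t)
    [FiniteDimensional (IntermediateField.adjoin k {t}) K]
    [Algebra.IsSeparable (IntermediateField.adjoin k {t}) K] {g : Polynomial k} (hg : g ≠ 0) :
    Finite (IC (B1 t g) →ₐ[k] k) ∧
      ∀ a : IC (B1 t g), (∀ c : IC (B1 t g) →ₐ[k] k, c a ≠ 0) → IsUnit a := by
  classical
  obtain ⟨l, hl⟩ : ∃ l, g.eval l ≠ 0 := by
    by_contra hcon
    push Not at hcon
    exact hg (Polynomial.funext fun x => by rw [hcon x, eval_zero])
  constructor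
  · rw [← Set.finite_univ_iff]
    have h1 : ((UU g l).roots.toFinset : Set k).Finite := Finset.finite_toSet _
    have h2 := h1.preimage' (f := fun c : IC (B1 t g) →ₐ[k] k => c (sg ht hl)) (fun μ _ => by
      have h3 : Finite ((fun c : IC (B1 t g) →ₐ[k] k => c (sg ht hl)) ⁻¹' {μ}) :=
        finite_fiber ht hl μ
      exact Set.toFinite _)
    refine h2.subset fun c _ => ?_
    rw [Set.mem_preimage, Finset.mem_coe, Multiset.mem_toFinset, mem_roots (UU_ne ht hg l)]
    exact hom_root ht hl c
  · intro a ha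
    by_contra hu
    obtain ⟨m, hm, ham⟩ := exists_max_ideal_of_mem_nonunits hu
    obtain ⟨c, hc⟩ := hom_of_max ht hg hl m hm
    exact ha c (hc a ham)

end Vale.Agent.P292.Mo
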