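import Vale.Agent.P292.Mo.Defs

/-! Block II.c: Euler characteristics of pairs of subspaces, and the number of zeros of a
section. -/

namespace Vale.Agent.P292.Mo.Ct

open Module

section chi

variable {k W : Type*} [Field k] [AddCommGroup W] [Module k W]

/-- both the intersection and the cokernel are finite dimensional -/
def Fin2 (U V : Submodule k W) : Prop :=
  FiniteDimensional k ↥(U ⊓ V) ∧ FiniteDimensional k (W ⧸ (U ⊔ V))

/-- Euler characteristic -/
noncomputable def chi (U V : Submodule k W) : ℤ :=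
  (finrank k ↥(U ⊓ V) : ℤ) - finrank k (W ⧸ (U ⊔ V))

/-- the quotient `V / X` for `X ≤ V` -/
abbrev Quo (X V : Submodule k W) : Type _ := ↥V ⧸ X.comap V.subtype

/-- the connecting map `V / X → W / (U + X)` -/
noncomputable def conn (U X V : Submodule k W) : Quo X V →ₗ[k] W ⧸ (U ⊔ X) :=
  (X.comap V.subtype).mapQ (U ⊔ X) V.subtype (Submodule.comap_mono le_sup_right)

/-- the map `U ∩ V → V / X` -/
noncomputable def restr (U X V : Submodule k W) : ↥(U ⊓ V) →ₗ[k] Quo X V :=
  (X.comap V.subtype).mkQ ∘ₗ Submodule.inclusion inf_le_right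

lemma range_restr (U X V : Submodule k W) (h : X ≤ V) :
    LinearMap.range (restr U X V) = LinearMap.ker (conn U X V) := by
  apply le_antisymm
  · rintro _ ⟨x, rfl⟩
    rw [LinearMap.mem_ker]
    change (U ⊔ X).mkQ (x : W) = 0
    rw [Submodule.mkQ_apply, Submodule.Quotient.mk_eq_zero]
    exact Submodule.mem_sup_left x.2.1
  · intro y hy
    obtain ⟨y, rfl⟩ := Submodule.mkQ_surjective _ y
    rw [LinearMap.mem_ker] at hy
    change (U ⊔ X).mkQ (y : W) = 0 at hy
    rw [Submodule.mkQ_apply, Submodule.Quotient.mk_eq_zero, Submodule.mem_sup] at hy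
    obtain ⟨a, ha, b, hb, hab⟩ := hy
    have haV : a ∈ V := by
      have : a = y - b := by rw [← hab]; abel
      rw [this]
      exact sub_mem y.2 (h hb)
    refine ⟨⟨a, ha, haV⟩, ?_⟩
    change (X.comap V.subtype).mkQ ⟨a, haV⟩ = _
    rw [Submodule.mkQ_apply, Submodule.mkQ_apply, Submodule.Quotient.eq]
    change a - (y : W) ∈ X
    rw [← hab]
    have : a - (a + b) = - b := by abel
    rw [this]
    exact neg_mem hb

lemma map_ker_restr (U X V : Submodule k W) (h : X ≤ V) :
    (LinearMap.ker (restr U X V)).map (U ⊓ V).subtype = U ⊓ X := by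
  ext x
  constructor
  · rintro ⟨y, hy, rfl⟩
    refine ⟨y.2.1, ?_⟩
    rw [SetLike.mem_coe, LinearMap.mem_ker] at hy
    change (X.comap V.subtype).mkQ _ = 0 at hy
    rw [Submodule.mkQ_apply, Submodule.Quotient.mk_eq_zero] at hy
    exact hy
  · rintro ⟨hx, hx'⟩
    refine ⟨⟨x, hx, h hx'⟩, ?_, rfl⟩
    rw [SetLike.mem_coe, LinearMap.mem_ker]
    change (X.comap V.subtype).mkQ _ = 0
    rw [Submodule.mkQ_apply, Submodule.Quotient.mk_eq_zero]
    exact hx'

/-- the kernel of the restriction is the intersection -/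
noncomputable def kerEquiv (U X V : Submodule k W) (h : X ≤ V) :
    ↥(LinearMap.ker (restr U X V)) ≃ₗ[k] ↥(U ⊓ X) :=
  (Submodule.equivMapOfInjective (U ⊓ V).subtype (Submodule.injective_subtype _) _).trans
    (LinearEquiv.ofEq _ _ (map_ker_restr U X V h))

/-- the cokernel of the connecting map -/
noncomputable def cokEquiv (U X V : Submodule k W) (h : X ≤ V) :
    ((W ⧸ (U ⊔ X)) ⧸ LinearMap.range (conn U X V)) ≃ₗ[k] W ⧸ (U ⊔ V) := by
  refine (Submodule.quotEquivOfEq _ _ ?_).trans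
    (Submodule.quotientQuotientEquivQuotient (U ⊔ X) (U ⊔ V) (sup_le_sup_left h U))
  rw [conn, Submodule.range_mapQ, Submodule.range_subtype, Submodule.map_sup]
  have h1 : U.map (U ⊔ X).mkQ = ⊥ := by
    rw [Submodule.eq_bot_iff]
    rintro _ ⟨x, hx, rfl⟩
    rw [Submodule.mkQ_apply, Submodule.Quotient.mk_eq_zero]
    exact Submodule.mem_sup_left hx
  rw [h1, bot_sup_eq]

lemma fin2_of_fin2_left {U X V : Submodule k W} (h : X ≤ V) [FiniteDimensional k (Quo X V)]
    (hF : Fin2 U X) : Fin2 U V := by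
  obtain ⟨h1, h2⟩ := hF
  constructor
  · have h3 : FiniteDimensional k ↥(LinearMap.ker (restr U X V)) :=
      (kerEquiv U X V h).symm.finiteDimensional
    have h4 : FiniteDimensional k (↥(U ⊓ V) ⧸ LinearMap.ker (restr U X V)) :=
      (restr U X V).quotKerEquivRange.symm.finiteDimensional
    exact Module.Finite.of_submodule_quotient (LinearMap.ker (restr U X V))
  · exact (cokEquiv U X V h).finiteDimensional

lemma fin2_of_fin2_right {U X V : Submodule k W} (h : X ≤ V) [FiniteDimensional k (Quo X V)]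
    (hF : Fin2 U V) : Fin2 U X := by
  obtain ⟨h1, h2⟩ := hF
  constructor
  · exact (kerEquiv U X V h).finiteDimensional
  · have h3 : FiniteDimensional k ((W ⧸ (U ⊔ X)) ⧸ LinearMap.range (conn U X V)) :=
      (cokEquiv U X V h).symm.finiteDimensional
    exact Module.Finite.of_submodule_quotient (LinearMap.range (conn U X V))

lemma finite_quo {U X V : Submodule k W} (h : X ≤ V) (h1 : FiniteDimensional k ↥(U ⊓ V))
    (h2 : FiniteDimensional k (W ⧸ (U ⊔ X))) : FiniteDimensional k (Quo X V) := by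
  have h3 : FiniteDimensional k ↥(LinearMap.ker (conn U X V)) := by
    rw [← range_restr U X V h]
    infer_instance
  have h4 : FiniteDimensional k (Quo X V ⧸ LinearMap.ker (conn U X V)) :=
    (conn U X V).quotKerEquivRange.symm.finiteDimensional
  exact Module.Finite.of_submodule_quotient (LinearMap.ker (conn U X V))

lemma chi_eq {U X V : Submodule k W} (h : X ≤ V) [FiniteDimensional k (Quo X V)]
    (hF : Fin2 U X) : chi U V = chi U X + finrank k (Quo X V) := by
  have hF' := fin2_of_fin2_left h hF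
  obtain ⟨h1, h2⟩ := hF
  obtain ⟨h1', h2'⟩ := hF'
  have e1 := (LinearMap.ker (restr U X V)).finrank_quotient_add_finrank
  have e2 := (restr U X V).quotKerEquivRange.finrank_eq
  have e3 := (kerEquiv U X V h).finrank_eq
  have e4 := (LinearMap.ker (conn U X V)).finrank_quotient_add_finrank
  have e5 := (conn U X V).quotKerEquivRange.finrank_eq
  have e6 := (LinearMap.range (conn U X V)).finrank_quotient_add_finrank
  have e7 := (cokEquiv U X V h).finrank_eq
  have e8 : finrank k ↥(LinearMap.range (restr U X V)) =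
      finrank k ↥(LinearMap.ker (conn U X V)) := by rw [range_restr U X V h]
  rw [chi, chi]
  omega

lemma chi_comm (U V : Submodule k W) : chi U V = chi V U := by
  rw [chi, chi, inf_comm, sup_comm]

lemma fin2_comm {U V : Submodule k W} (h : Fin2 U V) : Fin2 V U := by
  rw [Fin2, inf_comm, sup_comm]
  exact h

/-! ### Relative index -/

lemma comm_relIdx {U V V' : Submodule k W} (hF : Fin2 U V) (hc : Comm V V') :
    Fin2 U V' ∧ chi U V = chi U V' + relIdx V V' := by
  obtain ⟨h1, h2⟩ := hc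
  have e1 : V'.comap V.subtype = (V ⊓ V').comap V.subtype := by
    ext x; simp
  have e2 : V.comap V'.subtype = (V ⊓ V').comap V'.subtype := by
    ext x; simp
  have g1 : FiniteDimensional k (Quo (V ⊓ V') V) := by
    rw [e1] at h1; exact h1
  have g2 : FiniteDimensional k (Quo (V ⊓ V') V') := by
    rw [e2] at h2; exact h2
  have f1 := fin2_of_fin2_right (U := U) (inf_le_left : V ⊓ V' ≤ V) hF
  have f2 := fin2_of_fin2_left (U := U) (inf_le_right : V ⊓ V' ≤ V') f1
  have c1 := chi_eq (U := U) (inf_le_left : V ⊓ V' ≤ V) f1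
  have c2 := chi_eq (U := U) (inf_le_right : V ⊓ V' ≤ V') f1
  refine ⟨f2, ?_⟩
  rw [relIdx, e1, e2, c1, c2]
  ring

lemma comm_of_le {X V V' : Submodule k W} (h : X ≤ V) (h' : X ≤ V')
    [FiniteDimensional k (Quo X V)] [FiniteDimensional k (Quo X V')] : Comm V V' := by
  constructor
  · exact Module.Finite.of_surjective
      (Submodule.factor (Submodule.comap_mono h' : X.comap V.subtype ≤ V'.comap V.subtype))
      (Submodule.factor_surjective _)
  · exact Module.Finite.of_surjective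
      (Submodule.factor (Submodule.comap_mono h : X.comap V'.subtype ≤ V.comap V'.subtype))
      (Submodule.factor_surjective _)

/-! ### Transport by linear equivalences -/

lemma fin2_map (e : W ≃ₗ[k] W) {U V : Submodule k W} (h : Fin2 U V) :
    Fin2 (U.map (e : W →ₗ[k] W)) (V.map (e : W →ₗ[k] W)) := by
  obtain ⟨h1, h2⟩ := h
  constructor
  · rw [← Submodule.map_inf (e : W →ₗ[k] W) e.injective]
    exact (e.submoduleMap (U ⊓ V)).finiteDimensional
  · rw [← Submodule.map_sup]
    exact (Submodule.Quotient.equiv (U ⊔ V) _ e rfl).finiteDimensional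

lemma chi_map (e : W ≃ₗ[k] W) (U V : Submodule k W) :
    chi (U.map (e : W →ₗ[k] W)) (V.map (e : W →ₗ[k] W)) = chi U V := by
  rw [chi, chi, ← Submodule.map_inf (e : W →ₗ[k] W) e.injective, ← Submodule.map_sup,
    (e.submoduleMap (U ⊓ V)).finrank_eq, (Submodule.Quotient.equiv (U ⊔ V) _ e rfl).finrank_eq]

/-- transport of quotients -/
noncomputable def quoMap (e : W ≃ₗ[k] W) (X V : Submodule k W) :
    Quo X V ≃ₗ[k] Quo (X.map (e : W →ₗ[k] W)) (V.map (e : W →ₗ[k] W)) :=
  Submodule.Quotient.equiv _ _ (e.submoduleMap V) (by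
    ext x
    constructor
    · rintro ⟨y, hy, rfl⟩
      exact ⟨y, hy, rfl⟩
    · rintro ⟨y, hy, hyx⟩
      obtain ⟨z, hz, hzx⟩ := x.2
      have : y = z := e.injective (hyx.trans hzx.symm)
      refine ⟨⟨z, hz⟩, ?_, Subtype.ext hzx⟩
      rw [this] at hy
      exact hy)

lemma comm_map (e : W ≃ₗ[k] W) {X V : Submodule k W} (h : Comm X V) :
    Comm (X.map (e : W →ₗ[k] W)) (V.map (e : W →ₗ[k] W)) := by
  obtain ⟨h1, h2⟩ := h
  exact ⟨(quoMap e V X).finiteDimensional, (quoMap e X V).finiteDimensional⟩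

lemma relIdx_map (e : W ≃ₗ[k] W) (X V : Submodule k W) :
    relIdx (X.map (e : W →ₗ[k] W)) (V.map (e : W →ₗ[k] W)) = relIdx X V := by
  rw [relIdx, relIdx]
  have e1 := (quoMap e V X).finrank_eq
  have e2 := (quoMap e X V).finrank_eq
  rw [e1, e2]

end chi

section curve

variable {k K : Type*} [Field k] [Field K] [Algebra k K]

/-- multiplication by a nonzero element -/
noncomputable def mulE (k : Type*) {K : Type*} [Field k] [Field K] [Algebra k K] (x : K)
    (hx : x ≠ 0) : K ≃ₗ[k] K :=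
  { LinearMap.mulLeft k x with
    invFun := fun y => x⁻¹ * y
    left_inv := fun y => by simp [hx]
    right_inv := fun y => by simp [hx] }

lemma mulE_coe (x : K) (hx : x ≠ 0) : ((mulE k x hx : K ≃ₗ[k] K) : K →ₗ[k] K) =
    LinearMap.mulLeft k x := rfl

lemma map_mul_mul (x y : K) (U : Submodule k K) :
    (U.map (LinearMap.mulLeft k y)).map (LinearMap.mulLeft k x) =
      U.map (LinearMap.mulLeft k (x * y)) := by
  rw [← Submodule.map_comp, ← LinearMap.mulLeft_mul]

lemma map_one_mul (U : Submodule k K) : U.map (LinearMap.mulLeft k (1 : K)) = U := by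
  rw [LinearMap.mulLeft_one, Submodule.map_id]

variable {A₀ A₁ : Subalgebra k K}

lemma comm_mul (hC : IsCD A₀ A₁) (u : K) (hu : u ≠ 0) :
    Comm (Subalgebra.toSubmodule A₁) ((Subalgebra.toSubmodule A₁).map (LinearMap.mulLeft k u)) := by
  obtain ⟨a, ha, b, hb, hb0, hab⟩ := hC.frac u
  have ha0 : a ≠ 0 := by
    rintro rfl
    apply hu
    rw [hab, zero_div]
  have h1 : (Subalgebra.toSubmodule A₁).map (LinearMap.mulLeft k a) ≤
      Subalgebra.toSubmodule A₁ := by
    rintro _ ⟨x, hx, rfl⟩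
    exact A₁.mul_mem ha hx
  have h2 : (Subalgebra.toSubmodule A₁).map (LinearMap.mulLeft k b) ≤
      Subalgebra.toSubmodule A₁ := by
    rintro _ ⟨x, hx, rfl⟩
    exact A₁.mul_mem hb hx
  have hab' : a = u * b := by rw [hab]; field_simp
  have h3 : (Subalgebra.toSubmodule A₁).map (LinearMap.mulLeft k a) ≤
      (Subalgebra.toSubmodule A₁).map (LinearMap.mulLeft k u) := by
    rw [hab', ← map_mul_mul]
    exact Submodule.map_mono h2
  have f1 : FiniteDimensional k (Quo ((Subalgebra.toSubmodule A₁).map (LinearMap.mulLeft k a))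
      (Subalgebra.toSubmodule A₁)) := hC.finQ a ha ha0
  have f2 : FiniteDimensional k (Quo ((Subalgebra.toSubmodule A₁).map (LinearMap.mulLeft k b))
      (Subalgebra.toSubmodule A₁)) := hC.finQ b hb hb0
  have f3 := (quoMap (mulE k u hu) ((Subalgebra.toSubmodule A₁).map (LinearMap.mulLeft k b))
      (Subalgebra.toSubmodule A₁)).finiteDimensional
  rw [mulE_coe, map_mul_mul, ← hab'] at f3
  exact comm_of_le h1 h3

/-- the Euler characteristic of the powers of the line bundle -/
lemma chi_pow (hC : IsCD A₀ A₁) (u : K) (hu : u ≠ 0) (n : ℕ) :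
    Fin2 (Subalgebra.toSubmodule A₀)
      ((Subalgebra.toSubmodule A₁).map (LinearMap.mulLeft k (u⁻¹ ^ n))) ∧
    chi (Subalgebra.toSubmodule A₀)
      ((Subalgebra.toSubmodule A₁).map (LinearMap.mulLeft k (u⁻¹ ^ n))) =
      chi (Subalgebra.toSubmodule A₀) (Subalgebra.toSubmodule A₁) + n * idx A₁ u := by
  induction n with
  | zero =>
    rw [pow_zero, map_one_mul]
    refine ⟨⟨hC.fin0, hC.fin1⟩, ?_⟩
    simp
  | succ n ih =>
    obtain ⟨ih1, ih2⟩ := ih
    have hu' : u⁻¹ ^ (n + 1) ≠ 0 := pow_ne_zero _ (inv_ne_zero hu)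
    have h1 := comm_map (mulE k _ hu') (comm_mul hC u hu)
    have h2 := relIdx_map (mulE k _ hu') (Subalgebra.toSubmodule A₁)
      ((Subalgebra.toSubmodule A₁).map (LinearMap.mulLeft k u))
    rw [mulE_coe, map_mul_mul] at h1 h2
    have e : u⁻¹ ^ (n + 1) * u = u⁻¹ ^ n := by
      rw [pow_succ, mul_assoc, inv_mul_cancel₀ hu, mul_one]
    rw [e] at h1 h2
    have h3 := comm_relIdx ih1 h1.symm
    have h4 := comm_relIdx h3.1 h1
    refine ⟨h3.1, ?_⟩
    rw [h4.2, h2, ih2]
    change _ + idx A₁ u = _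
    push_cast
    ring

/-- zeros of a section -/
theorem zero_bound (hC : IsCD A₀ A₁) {u : K} (hu : u ≠ 0) {n : ℕ} {a : K}
    (ha : a ∈ Sec A₀ A₁ u n) (ha0 : a ≠ 0) :
    FiniteDimensional k (Quo ((Subalgebra.toSubmodule A₀).map (LinearMap.mulLeft k a))
      (Subalgebra.toSubmodule A₀)) ∧
    (finrank k (Quo ((Subalgebra.toSubmodule A₀).map (LinearMap.mulLeft k a))
      (Subalgebra.toSubmodule A₀)) : ℤ) ≤ n * idx A₁ u := by
  obtain ⟨haA, hua⟩ := mem_Sec.mp ha
  obtain ⟨f1, c1⟩ := chi_pow hC u hu n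
  have f2 := fin2_map (mulE k a ha0) (U := Subalgebra.toSubmodule A₀)
    (V := Subalgebra.toSubmodule A₁) ⟨hC.fin0, hC.fin1⟩
  have c2 := chi_map (mulE k a ha0) (Subalgebra.toSubmodule A₀) (Subalgebra.toSubmodule A₁)
  rw [mulE_coe] at f2 c2
  have l0 : (Subalgebra.toSubmodule A₀).map (LinearMap.mulLeft k a) ≤
      Subalgebra.toSubmodule A₀ := by
    rintro _ ⟨x, hx, rfl⟩
    exact A₀.mul_mem haA hx
  have l1 : (Subalgebra.toSubmodule A₁).map (LinearMap.mulLeft k a) ≤
      (Subalgebra.toSubmodule A₁).map (LinearMap.mulLeft k (u⁻¹ ^ n)) := by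
    rintro _ ⟨x, hx, rfl⟩
    refine ⟨u ^ n * a * x, A₁.mul_mem hua hx, ?_⟩
    simp only [LinearMap.mulLeft_apply]
    rw [inv_pow, mul_assoc, inv_mul_cancel_left₀ (pow_ne_zero _ hu)]
  -- finiteness of the quotients
  have q1 : FiniteDimensional k (Quo ((Subalgebra.toSubmodule A₁).map (LinearMap.mulLeft k a))
      ((Subalgebra.toSubmodule A₁).map (LinearMap.mulLeft k (u⁻¹ ^ n)))) := by
    have hua0 : u ^ n * a ≠ 0 := mul_ne_zero (pow_ne_zero _ hu) ha0
    have hu' : u⁻¹ ^ n ≠ 0 := pow_ne_zero _ (inv_ne_zero hu)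
    have f4 : FiniteDimensional k (Quo ((Subalgebra.toSubmodule A₁).map
      (LinearMap.mulLeft k (u ^ n * a))) (Subalgebra.toSubmodule A₁)) :=
      hC.finQ _ hua hua0
    have f5 := (quoMap (mulE k _ hu') ((Subalgebra.toSubmodule A₁).map
      (LinearMap.mulLeft k (u ^ n * a))) (Subalgebra.toSubmodule A₁)).finiteDimensional
    rw [mulE_coe, map_mul_mul] at f5
    have e : u⁻¹ ^ n * (u ^ n * a) = a := by
      rw [inv_pow, inv_mul_cancel_left₀ (pow_ne_zero _ hu)]
    rwa [e] at f5
  have f3 := fin2_of_fin2_right l1 f1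
  have q0 : FiniteDimensional k (Quo ((Subalgebra.toSubmodule A₀).map (LinearMap.mulLeft k a))
      (Subalgebra.toSubmodule A₀)) :=
    finite_quo (U := (Subalgebra.toSubmodule A₁).map (LinearMap.mulLeft k a)) l0
      (fin2_comm f3).1 (fin2_comm f2).2
  have c3 := chi_eq l1 f3
  have c4 := chi_eq l0 (fin2_comm f2)
  rw [chi_comm, chi_comm _ (Submodule.map _ (Subalgebra.toSubmodule A₀)), c2] at c4
  refine ⟨q0, ?_⟩
  have h5 : (0 : ℤ) ≤ (finrank k (Quo ((Subalgebra.toSubmodule A₁).map (LinearMap.mulLeft k a))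
      ((Subalgebra.toSubmodule A₁).map (LinearMap.mulLeft k (u⁻¹ ^ n)))) : ℤ) := by positivity
  linarith

/-! ### Marks -/

/-- simultaneous jets at distinct points -/
theorem exists_jets {ι : Type*} [Fintype ι] {A : Type*} [CommRing A] [Algebra k A]
    (c : ι → (A →ₐ[k] k)) (hinj : Function.Injective c)
    (ex : ι → (A →ₐ[k] PowerSeries k))
    (hc : ∀ l x, PowerSeries.constantCoeff (ex l x) = c l x)
    (hsurj : ∀ l (n : ℕ) (f : PowerSeries k), ∃ x, (PowerSeries.X : PowerSeries k) ^ n ∣ ex l x - f)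
    (b : ι → ℕ) (f : ι → PowerSeries k) :
    ∃ x, ∀ l, (PowerSeries.X : PowerSeries k) ^ b l ∣ ex l x - f l := by
  classical
  let J : ι → Ideal A := fun l =>
    (Ideal.span {(PowerSeries.X : PowerSeries k) ^ b l}).comap (ex l)
  have hJ : ∀ l x, x ∈ J l ↔ (PowerSeries.X : PowerSeries k) ^ b l ∣ ex l x := by
    intro l x
    rw [Ideal.mem_comap, Ideal.mem_span_singleton]
  have hpow : ∀ l x, c l x = 0 → x ^ b l ∈ J l := by
    intro l x hx
    rw [hJ, map_pow]
    refine pow_dvd_pow_of_dvd ?_ _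
    rw [PowerSeries.X_dvd_iff, hc, hx]
  have hcop : Pairwise fun i j => IsCoprime (J i) (J j) := by
    intro i j hij
    have h1 : c i ≠ c j := fun h => hij (hinj h)
    obtain ⟨x, hx⟩ := DFunLike.ne_iff.mp h1
    have hne : c j x - c i x ≠ 0 := sub_ne_zero.mpr (Ne.symm hx)
    let y : A := algebraMap k A (c j x - c i x)⁻¹ * (x - algebraMap k A (c i x))
    have hy : c i y = 0 := by simp [y]
    have hy' : c j (1 - y) = 0 := by
      simp only [y, map_sub, map_one, map_mul, AlgHom.commutes, Algebra.algebraMap_self,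
        RingHom.id_apply]
      rw [inv_mul_cancel₀ hne, sub_self]
    have h2 : IsCoprime (y ^ b i) ((1 - y) ^ b j) := by
      refine IsCoprime.pow ?_
      exact ⟨1, 1, by ring⟩
    rw [Ideal.isCoprime_iff_exists]
    obtain ⟨u, v, huv⟩ := h2
    exact ⟨u * y ^ b i, (J i).mul_mem_left _ (hpow i y hy), v * (1 - y) ^ b j,
      (J j).mul_mem_left _ (hpow j _ hy'), huv⟩
  choose g hg using fun l => hsurj l (b l) (f l)
  obtain ⟨x, hx⟩ := Ideal.exists_forall_sub_mem_ideal hcop g
  refine ⟨x, fun l => ?_⟩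
  have h3 := (hJ l _).mp (hx l)
  have h4 : ex l x - f l = ex l (x - g l) + (ex l (g l) - f l) := by
    rw [map_sub]; ring
  rw [h4]
  exact dvd_add h3 (hg l)

/-- The number of zeros of a section at the marks, with multiplicities. -/
theorem sum_order_le (hC : IsCD A₀ A₁) {u : K} (hu : u ≠ 0) {n : ℕ} {a : K}
    (ha : a ∈ Sec A₀ A₁ u n) (ha0 : a ≠ 0) {ι : Type*} [Fintype ι]
    (c : ι → (A₀ →ₐ[k] k)) (hinj : Function.Injective c)
    (ex : ι → (A₀ →ₐ[k] PowerSeries k))
    (hc : ∀ l x, PowerSeries.constantCoeff (ex l x) = c l x)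
    (hsurj : ∀ l (n : ℕ) (f : PowerSeries k), ∃ x, (PowerSeries.X : PowerSeries k) ^ n ∣ ex l x - f)
    (b : ι → ℕ) (hb : ∀ l, (PowerSeries.X : PowerSeries k) ^ b l ∣ ex l ⟨a, ha.1⟩) :
    ((∑ l, b l : ℕ) : ℤ) ≤ n * idx A₁ u := by
  classical
  obtain ⟨h1, h2⟩ := zero_bound hC hu ha ha0
  refine le_trans ?_ h2
  let T : ↥A₀ →ₗ[k] (∀ l : ι, Fin (b l) → k) :=
    LinearMap.pi fun l => LinearMap.pi fun j =>
      (PowerSeries.coeff (j : ℕ)) ∘ₗ (ex l).toLinearMap
  have hT : ∀ x l (j : Fin (b l)), T x l j = PowerSeries.coeff (j : ℕ) (ex l x) :=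
    fun x l j => rfl
  have hker : ((Subalgebra.toSubmodule A₀).map (LinearMap.mulLeft k a)).comap
      (Subalgebra.toSubmodule A₀).subtype ≤ LinearMap.ker T := by
    rintro x ⟨y, hy, hxy⟩
    rw [LinearMap.mem_ker]
    funext l j
    rw [hT]
    have h3 : x = (⟨a, ha.1⟩ : A₀) * ⟨y, hy⟩ := Subtype.ext hxy.symm
    have h4 : (PowerSeries.X : PowerSeries k) ^ b l ∣ ex l x := by
      rw [h3, map_mul]
      exact Dvd.dvd.mul_right (hb l) _
    exact PowerSeries.X_pow_dvd_iff.mp h4 _ j.2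
  have hTs : Function.Surjective T := by
    intro y
    obtain ⟨x, hx⟩ := exists_jets c hinj ex hc hsurj b
      (fun l => PowerSeries.mk fun j => if h : j < b l then y l ⟨j, h⟩ else 0)
    refine ⟨x, ?_⟩
    funext l j
    rw [hT]
    have h5 := PowerSeries.X_pow_dvd_iff.mp (hx l) j j.2
    rw [map_sub, PowerSeries.coeff_mk, dif_pos j.2, sub_eq_zero] at h5
    exact h5
  let T' : Quo ((Subalgebra.toSubmodule A₀).map (LinearMap.mulLeft k a))
      (Subalgebra.toSubmodule A₀) →ₗ[k] (∀ l : ι, Fin (b l) → k) :=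
    Submodule.liftQ _ T hker
  have hT's : Function.Surjective T' := by
    intro y
    obtain ⟨x, hx⟩ := hTs y
    exact ⟨Submodule.Quotient.mk x, hx⟩
  have h6 := LinearMap.finrank_le_finrank_of_surjective hT's
  have h7 : finrank k (∀ l : ι, Fin (b l) → k) = ∑ l, b l := by
    rw [Module.finrank_pi_fintype]
    exact Finset.sum_congr rfl fun l _ => Module.finrank_fin_fun k
  rw [h7] at h6
  exact_mod_cast h6

end curve

end Vale.Agent.P292.Mo.Ct
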