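import Vale.Agent.P292.Mo.Defs

/-!
# The rings of functions of a curve over the line (P292, block F3, common base)
-/

namespace Vale.Agent.P292.Mo

open Polynomial

universe u w

section

variable {k : Type u} [Field k] {K : Type w} [Field K] [Algebra k K]

/-- A subring of the rational functions of `s` which contains `k[s]` is a principal ideal ring. -/
theorem crv_pir (s : K) (B : Subalgebra k K) (hs : s ∈ B)
    (hB : ∀ x ∈ B, ∃ a b : k[X], aeval s b ≠ 0 ∧ x = aeval s a / aeval s b) :
    IsPrincipalIdealRing B := by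
  classical
  let ψ : k[X] →ₐ[k] B := aeval ⟨s, hs⟩
  have hψ : ∀ p, ((ψ p : B) : K) = aeval s p := by
    intro p
    have : B.val.comp ψ = aeval s := by ext; simp [ψ]
    exact DFunLike.congr_fun this p
  constructor
  intro I
  obtain ⟨d, hd⟩ := (IsPrincipalIdealRing.principal (I.comap ψ)).principal
  refine ⟨ψ d, le_antisymm ?_ ?_⟩
  · intro x hx
    obtain ⟨a, b, hb, hab⟩ := hB x x.2
    have hb0 : b ≠ 0 := fun h => hb (by rw [h, map_zero])
    set g := EuclideanDomain.gcd a b with hg
    obtain ⟨a', ha'⟩ := EuclideanDomain.gcd_dvd_left a b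
    obtain ⟨b', hb'⟩ := EuclideanDomain.gcd_dvd_right a b
    rw [← hg] at ha' hb'
    have hg0 : g ≠ 0 := by rintro h; rw [h, zero_mul] at hb'; exact hb0 hb'
    have hbez := EuclideanDomain.gcd_eq_gcd_ab a b
    rw [← hg] at hbez
    set p := EuclideanDomain.gcdA a b
    set q := EuclideanDomain.gcdB a b
    have h1 : a' * p + b' * q = 1 := by
      apply mul_left_cancel₀ hg0
      calc g * (a' * p + b' * q) = (g * a') * p + (g * b') * q := by ring
        _ = g * 1 := by rw [← ha', ← hb', ← hbez, mul_one]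
    have hgs : aeval s g ≠ 0 := by
      intro h
      apply hb
      rw [hb', map_mul, h, zero_mul]
    have hb's : aeval s b' ≠ 0 := by
      intro h
      apply hb
      rw [hb', map_mul, h, mul_zero]
    have hx' : (x : K) = aeval s a' / aeval s b' := by
      rw [hab, ha', hb', map_mul, map_mul, mul_div_mul_left _ _ hgs]
    have hinv : (aeval s b')⁻¹ ∈ B := by
      have h2 : (aeval s b')⁻¹ = (x : K) * aeval s p + aeval s q := by
        rw [hx']
        have h3 : aeval s a' * aeval s p + aeval s b' * aeval s q = 1 := by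
          rw [← map_mul, ← map_mul, ← map_add, h1, map_one]
        field_simp
        exact h3.symm
      rw [h2, ← hψ p, ← hψ q]
      exact (x * ψ p + ψ q).2
    have hxb : x * ψ b' = ψ a' := by
      apply Subtype.ext
      show (x : K) * (ψ b' : B) = (ψ a' : B)
      rw [hψ, hψ, hx']
      field_simp
    have ha'I : a' ∈ I.comap ψ := by
      rw [Ideal.mem_comap, ← hxb]
      exact Ideal.mul_mem_right _ _ hx
    rw [hd, Ideal.submodule_span_eq, Ideal.mem_span_singleton] at ha'I
    obtain ⟨c, hc⟩ := ha'I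
    rw [Ideal.submodule_span_eq, Ideal.mem_span_singleton]
    refine ⟨ψ c * ⟨(aeval s b')⁻¹, hinv⟩, ?_⟩
    apply Subtype.ext
    show (x : K) = (ψ d : B) * ((ψ c : B) * (aeval s b')⁻¹)
    rw [hψ, hψ, hx', hc, map_mul]
    field_simp
  · rw [Ideal.submodule_span_eq, Ideal.span_singleton_le_iff_mem]
    have : d ∈ I.comap ψ := by
      rw [hd]
      exact Submodule.mem_span_singleton_self d
    exact this

variable {t : K}

theorem mem_IC_iff (B : Subalgebra k K) (x : K) : x ∈ IC B ↔ IsIntegral B x := Iff.rfl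

/-- The structure of the integral closure of a principal ideal ring of rational functions. -/
theorem crv_basis (B : Subalgebra k K)
    (hBF : ∀ x ∈ B, x ∈ IntermediateField.adjoin k {t})
    (hfr : ∀ x ∈ IntermediateField.adjoin k {t}, ∃ a ∈ B, ∃ b ∈ B, b ≠ 0 ∧ x = a / b)
    (hpir : IsPrincipalIdealRing B)
    [FiniteDimensional (IntermediateField.adjoin k {t}) K]
    [Algebra.IsSeparable (IntermediateField.adjoin k {t}) K] :
    IsDedekindDomain (IC B) ∧
    ∃ ω : Module.Basis (Fin (Module.finrank (IntermediateField.adjoin k {t}) K))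
      (IntermediateField.adjoin k {t}) K,
      (∀ i, ω i ∈ IC B) ∧ ∀ x : K, x ∈ IC B ↔ ∀ i, ((ω.repr x i : K)) ∈ B := by
  classical
  let F := IntermediateField.adjoin k {t}
  let algBF : Algebra B F := (({ toFun := fun x => ⟨x, hBF x x.2⟩
                                 map_one' := rfl
                                 map_mul' := fun _ _ => rfl
                                 map_zero' := rfl
                                 map_add' := fun _ _ => rfl } : B →+* F)).toAlgebra
  have halg : ∀ x : B, ((algebraMap B F x : F) : K) = x := fun _ => rfl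
  have tower : IsScalarTower B F K := IsScalarTower.of_algebraMap_eq fun _ => rfl
  have hinjBF : Function.Injective (algebraMap B F) := fun x y h => by
    apply Subtype.ext
    have := congrArg Subtype.val h
    exact this
  have hfrac : IsFractionRing B F := by
    refine ⟨?_, ?_, ?_⟩
    · rintro ⟨y, hy⟩
      have hy0 : y ≠ 0 := nonZeroDivisors.ne_zero hy
      rw [isUnit_iff_ne_zero]
      intro h
      exact hy0 (hinjBF (h.trans (map_zero _).symm))
    · rintro ⟨x, hx⟩
      obtain ⟨a, ha, b, hb, hb0, hab⟩ := hfr x hx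
      refine ⟨(⟨a, ha⟩, ⟨⟨b, hb⟩, ?_⟩), ?_⟩
      · rw [mem_nonZeroDivisors_iff_ne_zero]
        intro h
        exact hb0 (congrArg Subtype.val h)
      · apply Subtype.ext
        show x * b = a
        rw [hab]
        field_simp
    · intro x y h
      exact ⟨1, by rw [hinjBF h]⟩
  have hdom : IsDomain B := inferInstance
  have hded : IsDedekindDomain B := inferInstance
  have hfaith : FaithfulSMul B F := (faithfulSMul_iff_algebraMap_injective B F).mpr hinjBF
  have htf : Module.IsTorsionFree B K := Module.IsTorsionFree.trans_faithfulSMul B F K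
  have hC : IsDedekindDomain (integralClosure B K) := integralClosure.isDedekindDomain B F K
  have hloc : IsLocalization (Algebra.algebraMapSubmonoid (integralClosure B K)
      (nonZeroDivisors B)) K := IsIntegralClosure.isLocalization B F K (integralClosure B K)
  have hfree : Module.Free B (integralClosure B K) :=
    IsIntegralClosure.module_free B F K (integralClosure B K)
  have hfin : Module.Finite B (integralClosure B K) :=
    IsIntegralClosure.finite B F K (integralClosure B K)
  have hrank : Module.finrank B (integralClosure B K) = Module.finrank F K :=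
    IsIntegralClosure.rank B F K (integralClosure B K)
  refine ⟨hC, ?_⟩
  let b : Module.Basis (Fin (Module.finrank F K)) B (integralClosure B K) :=
    Module.finBasisOfFinrankEq B (integralClosure B K) hrank
  let ω := b.localizationLocalization F (nonZeroDivisors B) K
  have hω : ∀ i, ω i = (b i : K) := fun i =>
    b.localizationLocalization_apply F (nonZeroDivisors B) K i
  have hrep : ∀ (x : integralClosure B K) i, ω.repr (x : K) i = algebraMap B F (b.repr x i) :=
    fun x i => b.localizationLocalization_repr_algebraMap F (nonZeroDivisors B) K x i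
  refine ⟨ω, ?_, ?_⟩
  · intro i
    rw [hω]
    exact (b i).2
  · intro x
    constructor
    · intro hx i
      have := hrep ⟨x, hx⟩ i
      have h1 : ω.repr x i = algebraMap B F (b.repr ⟨x, hx⟩ i) := this
      rw [h1, halg]
      exact (b.repr ⟨x, hx⟩ i).2
    · intro hx
      have h1 : x = ∑ i, ((ω.repr x i : F) : K) * ω i := by
        conv_lhs => rw [← ω.sum_repr x]
        refine Finset.sum_congr rfl fun i _ => ?_
        rw [Algebra.smul_def]
        rfl
      rw [h1]
      refine Subalgebra.sum_mem _ fun i _ => Subalgebra.mul_mem _ ?_ ?_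
      · exact (integralClosure B K).algebraMap_mem ⟨_, hx i⟩
      · rw [hω]
        exact (b i).2

theorem crv_aeval_mem {s : K} {B : Subalgebra k K} (hs : s ∈ B) (p : k[X]) : aeval s p ∈ B := by
  have : B.val.comp (aeval ⟨s, hs⟩) = aeval s := by ext; simp
  rw [← DFunLike.congr_fun this p]
  exact (aeval (⟨s, hs⟩ : B) p).2

theorem crv_t_mem_B0 (t : K) (g : k[X]) : t ∈ B0 t g :=
  Algebra.subset_adjoin (Set.mem_insert _ _)

theorem crv_inv_mem_B0 (t : K) (g : k[X]) : (aeval t g)⁻¹ ∈ B0 t g :=
  Algebra.subset_adjoin (Set.mem_insert_of_mem _ rfl)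

/-- Elements of `k[t, 1/g(t)]`. -/
theorem crv_mem_B0 {g : k[X]} (hg : aeval t g ≠ 0) {x : K} (hx : x ∈ B0 t g) :
    ∃ (a : k[X]) (n : ℕ), x = aeval t a / aeval t g ^ n := by
  induction hx using Algebra.adjoin_induction with
  | mem y hy =>
    rcases hy with rfl | hy
    · exact ⟨X, 0, by simp⟩
    · rw [Set.mem_singleton_iff] at hy
      exact ⟨1, 1, by rw [hy]; simp⟩
  | algebraMap c => exact ⟨C c, 0, by simp⟩
  | add y z _ _ hy hz =>
    obtain ⟨a, n, rfl⟩ := hy
    obtain ⟨b, m, rfl⟩ := hz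
    refine ⟨a * g ^ m + b * g ^ n, n + m, ?_⟩
    rw [map_add, map_mul, map_mul, map_pow, map_pow, pow_add]
    field_simp
  | mul y z _ _ hy hz =>
    obtain ⟨a, n, rfl⟩ := hy
    obtain ⟨b, m, rfl⟩ := hz
    exact ⟨a * b, n + m, by rw [map_mul, pow_add, div_mul_div_comm]⟩

theorem crv_ne {t : K} (ht : Transcendental k t) {g : k[X]} (hg : g ≠ 0) : aeval t g ≠ 0 :=
  fun h => hg ((transcendental_iff_injective.mp ht) (h.trans (map_zero _).symm))

theorem crv_ne_C {t : K} (ht : Transcendental k t) (l : k) : t - algebraMap k K l ≠ 0 := by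
  have := crv_ne ht (X_sub_C_ne_zero l)
  simpa using this

theorem crv_B0_le {g : k[X]} (hg : aeval t g ≠ 0) :
    ∀ x ∈ B0 t g, x ∈ IntermediateField.adjoin k {t} := by
  intro x hx
  obtain ⟨a, n, rfl⟩ := crv_mem_B0 hg hx
  rw [IntermediateField.mem_adjoin_simple_iff]
  exact ⟨a, g ^ n, by rw [map_pow]⟩

theorem crv_B0_frac (t : K) (g : k[X]) :
    ∀ x ∈ IntermediateField.adjoin k {t}, ∃ a ∈ B0 t g, ∃ b ∈ B0 t g, b ≠ 0 ∧ x = a / b := by
  intro x hx
  rw [IntermediateField.mem_adjoin_simple_iff] at hx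
  obtain ⟨r, s, rfl⟩ := hx
  by_cases hs : aeval t s = 0
  · exact ⟨0, Subalgebra.zero_mem _, 1, Subalgebra.one_mem _, one_ne_zero, by rw [hs]; simp⟩
  · exact ⟨_, crv_aeval_mem (crv_t_mem_B0 t g) r, _, crv_aeval_mem (crv_t_mem_B0 t g) s, hs, rfl⟩

theorem crv_B0_pir {g : k[X]} (hg : aeval t g ≠ 0) : IsPrincipalIdealRing (B0 t g) := by
  refine crv_pir t (B0 t g) (crv_t_mem_B0 t g) fun x hx => ?_
  obtain ⟨a, n, rfl⟩ := crv_mem_B0 hg hx
  exact ⟨a, g ^ n, by rw [map_pow]; exact pow_ne_zero _ hg, by rw [map_pow]⟩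

/-- Change of coordinate. -/
theorem crv_reflect {l : k} (hl : t - algebraMap k K l ≠ 0) (a : k[X]) (n : ℕ)
    (hn : a.natDegree ≤ n) :
    ∃ a' : k[X], aeval t a = aeval (t - algebraMap k K l)⁻¹ a' * (t - algebraMap k K l) ^ n := by
  let _ := invertibleOfNonzero hl
  refine ⟨reflect n (a.comp (X + C l)), ?_⟩
  have h := eval₂_reflect_mul_pow (algebraMap k K) (t - algebraMap k K l) n (a.comp (X + C l))
    (by rw [natDegree_comp, natDegree_X_add_C, mul_one]; exact hn)
  rw [invOf_eq_inv] at h
  rw [aeval_def (t - algebraMap k K l)⁻¹, h, ← aeval_def, aeval_comp]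
  congr 1
  simp

theorem crv_s_mem_B1 {t : K} (ht : Transcendental k t) {g : k[X]} {l : k} (hl : g.eval l ≠ 0) :
    (t - algebraMap k K l)⁻¹ ∈ B1 t g := by
  refine ⟨1, X - C l, crv_ne ht (X_sub_C_ne_zero l), ?_, ?_, ?_⟩
  · rw [← isCoprime_comm]
    rw [isCoprime_comm, (irreducible_X_sub_C l).coprime_iff_not_dvd, dvd_iff_isRoot]
    exact hl
  · simp
  · simp

theorem crv_mem_B1 {t : K} (ht : Transcendental k t) {g : k[X]} (l : k) {x : K}
    (hx : x ∈ B1 t g) : ∃ a b : k[X], aeval (t - algebraMap k K l)⁻¹ b ≠ 0 ∧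
      x = aeval (t - algebraMap k K l)⁻¹ a / aeval (t - algebraMap k K l)⁻¹ b := by
  obtain ⟨a, b, hb, -, hd, rfl⟩ := hx
  obtain ⟨a', ha'⟩ := crv_reflect (crv_ne_C ht l) a b.natDegree hd
  obtain ⟨b', hb'⟩ := crv_reflect (crv_ne_C ht l) b b.natDegree le_rfl
  have h0 := pow_ne_zero b.natDegree (crv_ne_C ht l)
  refine ⟨a', b', ?_, ?_⟩
  · intro h
    rw [h, zero_mul] at hb'
    exact hb hb'
  · rw [ha', hb', mul_div_mul_right _ _ h0]

theorem crv_exists_l [Infinite k] {g : k[X]} (hg : g ≠ 0) : ∃ l : k, g.eval l ≠ 0 := by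
  by_contra h
  push Not at h
  exact hg (Polynomial.funext fun r => by rw [h r, eval_zero])

theorem crv_B1_le (t : K) (g : k[X]) : ∀ x ∈ B1 t g, x ∈ IntermediateField.adjoin k {t} := by
  rintro x ⟨a, b, -, -, -, rfl⟩
  rw [IntermediateField.mem_adjoin_simple_iff]
  exact ⟨a, b, rfl⟩

theorem crv_B1_frac [Infinite k] {t : K} (ht : Transcendental k t) {g : k[X]} (hg : g ≠ 0) :
    ∀ x ∈ IntermediateField.adjoin k {t}, ∃ a ∈ B1 t g, ∃ b ∈ B1 t g, b ≠ 0 ∧ x = a / b := by
  obtain ⟨l, hl⟩ := crv_exists_l hg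
  intro x hx
  rw [IntermediateField.mem_adjoin_simple_iff] at hx
  obtain ⟨r, s, rfl⟩ := hx
  by_cases hs : aeval t s = 0
  · exact ⟨0, Subalgebra.zero_mem _, 1, Subalgebra.one_mem _, one_ne_zero, by rw [hs]; simp⟩
  · obtain ⟨a', ha'⟩ := crv_reflect (crv_ne_C ht l) r (max r.natDegree s.natDegree)
      (le_max_left _ _)
    obtain ⟨b', hb'⟩ := crv_reflect (crv_ne_C ht l) s (max r.natDegree s.natDegree)
      (le_max_right _ _)
    have h0 := pow_ne_zero (max r.natDegree s.natDegree) (crv_ne_C ht l)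
    refine ⟨_, crv_aeval_mem (crv_s_mem_B1 ht hl) a', _, crv_aeval_mem (crv_s_mem_B1 ht hl) b',
      ?_, ?_⟩
    · intro h
      rw [h, zero_mul] at hb'
      exact hs hb'
    · rw [ha', hb', mul_div_mul_right _ _ h0]

theorem crv_B1_pir [Infinite k] {t : K} (ht : Transcendental k t) {g : k[X]} (hg : g ≠ 0) :
    IsPrincipalIdealRing (B1 t g) := by
  obtain ⟨l, hl⟩ := crv_exists_l hg
  exact crv_pir _ (B1 t g) (crv_s_mem_B1 ht hl) fun x hx => crv_mem_B1 ht l hx

/-- The first chart. -/
theorem crv_basis0 {t : K} (ht : Transcendental k t) {g : k[X]} (hg : g ≠ 0)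
    [FiniteDimensional (IntermediateField.adjoin k {t}) K]
    [Algebra.IsSeparable (IntermediateField.adjoin k {t}) K] :
    IsDedekindDomain (IC (B0 t g)) ∧
    ∃ ω : Module.Basis (Fin (Module.finrank (IntermediateField.adjoin k {t}) K))
      (IntermediateField.adjoin k {t}) K,
      (∀ i, ω i ∈ IC (B0 t g)) ∧ ∀ x : K, x ∈ IC (B0 t g) ↔ ∀ i, ((ω.repr x i : K)) ∈ B0 t g :=
  crv_basis (B0 t g) (crv_B0_le (crv_ne ht hg)) (crv_B0_frac t g) (crv_B0_pir (crv_ne ht hg))

/-- The second chart. -/
theorem crv_basis1 [Infinite k] {t : K} (ht : Transcendental k t) {g : k[X]} (hg : g ≠ 0)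
    [FiniteDimensional (IntermediateField.adjoin k {t}) K]
    [Algebra.IsSeparable (IntermediateField.adjoin k {t}) K] :
    IsDedekindDomain (IC (B1 t g)) ∧
    ∃ ω : Module.Basis (Fin (Module.finrank (IntermediateField.adjoin k {t}) K))
      (IntermediateField.adjoin k {t}) K,
      (∀ i, ω i ∈ IC (B1 t g)) ∧ ∀ x : K, x ∈ IC (B1 t g) ↔ ∀ i, ((ω.repr x i : K)) ∈ B1 t g :=
  crv_basis (B1 t g) (crv_B1_le t g) (crv_B1_frac ht hg) (crv_B1_pir ht hg)

end

end Vale.Agent.P292.Mo
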