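import Mathlib

/-! # Part II.a, tools: subspaces after extension of scalars over a field -/

namespace Vale.Agent.P292.Mo

open TensorProduct

universe u v w

section
variable {k : Type*} [Field k] {K : Type*} [AddCommGroup K] [Module k K]
  (B : Type*) [CommRing B] [Algebra k B]

/-- the functional `l`, extended to `B ⊗ K → B` -/
noncomputable def lamB (l : K →ₗ[k] k) : B ⊗[k] K →ₗ[B] B :=
  (TensorProduct.AlgebraTensorModule.rid k B B).toLinearMap ∘ₗ l.baseChange B

@[simp] theorem lamB_tmul (l : K →ₗ[k] k) (b : B) (x : K) : lamB B l (b ⊗ₜ x) = l x • b := by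
  simp [lamB]

theorem lamB_add (l l' : K →ₗ[k] k) (x : B ⊗[k] K) :
    lamB B (l + l') x = lamB B l x + lamB B l' x := by
  induction x using TensorProduct.induction_on with
  | zero => simp
  | tmul b a => simp [add_smul]
  | add x y hx hy => rw [map_add, map_add, map_add, hx, hy]; abel

theorem lamB_sub (l l' : K →ₗ[k] k) (x : B ⊗[k] K) :
    lamB B (l - l') x = lamB B l x - lamB B l' x := by
  induction x using TensorProduct.induction_on with
  | zero => simp
  | tmul b a => simp [sub_smul]
  | add x y hx hy => rw [map_add, map_add, map_add, hx, hy]; abel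

theorem lamB_comp {K' : Type*} [AddCommGroup K'] [Module k K'] (l : K' →ₗ[k] k) (f : K →ₗ[k] K')
    (x : B ⊗[k] K) : lamB B l (f.baseChange B x) = lamB B (l ∘ₗ f) x := by
  induction x using TensorProduct.induction_on with
  | zero => simp
  | tmul b a => simp
  | add x y hx hy => rw [map_add, map_add, map_add, hx, hy]

/-- the functionals separate the points of `B ⊗ K` -/
theorem eq_zero_of_lamB {x : B ⊗[k] K} (h : ∀ l : K →ₗ[k] k, lamB B l x = 0) : x = 0 := by
  let b := Module.Basis.ofVectorSpace k K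
  let bB := Algebra.TensorProduct.basis B b
  have hc : ∀ (x : B ⊗[k] K) i, bB.repr x i = lamB B (b.coord i) x := by
    intro x i
    induction x using TensorProduct.induction_on with
    | zero => simp
    | tmul c a =>
      rw [lamB_tmul, Algebra.TensorProduct.basis_repr_tmul]
      simp [Algebra.smul_def, mul_comm]
    | add x y hx hy => rw [map_add, map_add, Finsupp.add_apply, hx, hy]
  refine bB.repr.injective ?_
  ext i
  rw [hc, h, map_zero, Finsupp.zero_apply]

/-- elements of `B ⊗ K` with coefficients in the subspace `V` -/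
noncomputable def InB (V : Submodule k K) : Submodule B (B ⊗[k] K) where
  carrier := {x | ∀ l : K →ₗ[k] k, (∀ v ∈ V, l v = 0) → lamB B l x = 0}
  add_mem' := fun ha hb l hl => by rw [map_add, ha l hl, hb l hl, add_zero]
  zero_mem' := fun l _ => map_zero _
  smul_mem' := fun c x hx l hl => by rw [map_smul, hx l hl, smul_zero]

theorem mem_InB {V : Submodule k K} {x : B ⊗[k] K} :
    x ∈ InB B V ↔ ∀ l : K →ₗ[k] k, (∀ v ∈ V, l v = 0) → lamB B l x = 0 := Iff.rfl

theorem tmul_mem_InB {V : Submodule k K} (b : B) {v : K} (hv : v ∈ V) :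
    b ⊗ₜ[k] v ∈ InB B V := fun l hl => by rw [lamB_tmul, hl v hv, zero_smul]

theorem InB_mono {U V : Submodule k K} (h : U ≤ V) : InB B U ≤ InB B V :=
  fun _ hx l hl => hx l fun v hv => hl v (h hv)

theorem mem_InB_inf {U V : Submodule k K} {x : B ⊗[k] K} (hU : x ∈ InB B U) (hV : x ∈ InB B V) :
    x ∈ InB B (U ⊓ V) := by
  intro l hl
  have h1 : l ∈ (U ⊓ V).dualAnnihilator := by
    rw [Submodule.mem_dualAnnihilator]
    exact hl
  rw [Subspace.dualAnnihilator_inf_eq, Submodule.mem_sup] at h1
  obtain ⟨l₁, hl₁, l₂, hl₂, rfl⟩ := h1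
  rw [Submodule.mem_dualAnnihilator] at hl₁ hl₂
  rw [lamB_add, hU l₁ hl₁, hV l₂ hl₂, add_zero]

theorem mem_InB_iff_range {V : Submodule k K} {x : B ⊗[k] K} :
    x ∈ InB B V ↔ x ∈ LinearMap.range (V.subtype.baseChange B) := by
  constructor
  · intro hx
    obtain ⟨p, hp⟩ := V.subtype.exists_leftInverse_of_injective (by simp)
    refine ⟨p.baseChange B x, ?_⟩
    rw [← LinearMap.comp_apply, ← LinearMap.baseChange_comp, ← sub_eq_zero]
    refine eq_zero_of_lamB B fun l => ?_
    rw [map_sub, lamB_comp, ← lamB_sub]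
    have h1 : ∀ v ∈ V, (l - l ∘ₗ (V.subtype ∘ₗ p)) v = 0 := by
      intro v hv
      have h2 : p v = ⟨v, hv⟩ := LinearMap.congr_fun hp ⟨v, hv⟩
      simp [h2]
    have h3 := hx _ h1
    rw [lamB_sub] at h3 ⊢
    rw [← neg_sub, h3, neg_zero]
  · rintro ⟨y, rfl⟩ l hl
    rw [lamB_comp]
    have h1 : l ∘ₗ V.subtype = 0 := by
      ext v
      exact hl v v.2
    rw [h1]
    induction y using TensorProduct.induction_on with
    | zero => simp
    | tmul b a => simp
    | add x y hx hy => rw [map_add, hx, hy, add_zero]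

/-- induction for elements of `InB B V` -/
theorem InB_induction {V : Submodule k K} {p : B ⊗[k] K → Prop}
    (h0 : p 0) (ht : ∀ b, ∀ v ∈ V, p (b ⊗ₜ v)) (ha : ∀ x y, p x → p y → p (x + y))
    {x : B ⊗[k] K} (hx : x ∈ InB B V) : p x := by
  rw [mem_InB_iff_range] at hx
  obtain ⟨y, rfl⟩ := hx
  induction y using TensorProduct.induction_on with
  | zero => rw [map_zero]; exact h0
  | tmul b a => exact ht b a a.2
  | add x y hx hy => rw [map_add]; exact ha _ _ hx hy

/-- coordinates with respect to a basis of `V` -/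
theorem exists_coord {ι : Type*} [Fintype ι] {V : Submodule k K} (b : Module.Basis ι k V)
    {x : B ⊗[k] K} (hx : x ∈ InB B V) : ∃ t : ι → B, x = ∑ i, t i ⊗ₜ (b i : K) := by
  refine InB_induction B (p := fun x => ∃ t : ι → B, x = ∑ i, t i ⊗ₜ (b i : K))
    ⟨0, by simp⟩ ?_ ?_ hx
  · intro c v hv
    refine ⟨fun i => b.repr ⟨v, hv⟩ i • c, ?_⟩
    have h1 : v = ∑ i, b.repr ⟨v, hv⟩ i • (b i : K) := by
      have h2 := congrArg V.subtype (b.sum_repr ⟨v, hv⟩)
      rw [map_sum] at h2
      simpa using h2.symm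
    conv_lhs => rw [h1]
    rw [TensorProduct.tmul_sum]
    refine Finset.sum_congr rfl fun i _ => ?_
    rw [TensorProduct.tmul_smul, TensorProduct.smul_tmul']
  · rintro x y ⟨t, rfl⟩ ⟨t', rfl⟩
    refine ⟨t + t', ?_⟩
    rw [← Finset.sum_add_distrib]
    refine Finset.sum_congr rfl fun i _ => ?_
    rw [Pi.add_apply, TensorProduct.add_tmul]

end

section functorial
variable {k : Type*} [Field k] {K : Type*} [CommRing K] [Algebra k K]
  {B B' : Type*} [CommRing B] [Algebra k B] [CommRing B'] [Algebra k B']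

/-- change of scalars `B ⊗ K → B' ⊗ K` -/
noncomputable def chg (K : Type*) [CommRing K] [Algebra k K] (f : B →ₐ[k] B') :
    B ⊗[k] K →ₐ[k] B' ⊗[k] K := Algebra.TensorProduct.map f (AlgHom.id k K)

@[simp] theorem chg_tmul (f : B →ₐ[k] B') (b : B) (x : K) : chg K f (b ⊗ₜ x) = f b ⊗ₜ x := by
  simp [chg]

theorem lamB_chg (f : B →ₐ[k] B') (l : K →ₗ[k] k) (x : B ⊗[k] K) :
    lamB B' l (chg K f x) = f (lamB B l x) := by
  induction x using TensorProduct.induction_on with
  | zero => simp
  | tmul b a => simp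
  | add x y hx hy => rw [map_add, map_add, map_add, map_add, hx, hy]

theorem chg_mem_InB (f : B →ₐ[k] B') {V : Submodule k K} {x : B ⊗[k] K} (hx : x ∈ InB B V) :
    chg K f x ∈ InB B' V := fun l hl => by rw [lamB_chg, hx l hl, map_zero]

theorem chg_comp {B'' : Type*} [CommRing B''] [Algebra k B''] (g : B' →ₐ[k] B'') (f : B →ₐ[k] B')
    (x : B ⊗[k] K) : chg K g (chg K f x) = chg K (g.comp f) x := by
  induction x using TensorProduct.induction_on with
  | zero => simp
  | tmul b a => simp
  | add x y hx hy => rw [map_add, map_add, map_add, hx, hy]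

theorem mul_mem_InB {U V W : Submodule k K} (h : ∀ a ∈ U, ∀ b ∈ V, a * b ∈ W) {x y : B ⊗[k] K}
    (hx : x ∈ InB B U) (hy : y ∈ InB B V) : x * y ∈ InB B W := by
  refine InB_induction B (p := fun x => x * y ∈ InB B W) ?_ ?_ ?_ hx
  · rw [zero_mul]; exact zero_mem _
  · intro b v hv
    refine InB_induction B (p := fun y => (b ⊗ₜ v) * y ∈ InB B W) ?_ ?_ ?_ hy
    · rw [mul_zero]; exact zero_mem _
    · intro b' v' hv'
      rw [Algebra.TensorProduct.tmul_mul_tmul]
      exact tmul_mem_InB B _ (h v hv v' hv')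
    · intro x y hx hy
      rw [mul_add]; exact add_mem hx hy
  · intro x y hx hy
    rw [add_mul]; exact add_mem hx hy

/-- the subalgebra of elements of `B ⊗ K` with coefficients in the subalgebra `S` -/
noncomputable def subB (B : Type*) [CommRing B] [Algebra k B] (S : Subalgebra k K) :
    Subalgebra k (B ⊗[k] K) where
  carrier := {x | x ∈ InB B (Subalgebra.toSubmodule S)}
  mul_mem' := fun ha hb => mul_mem_InB (fun a ha b hb => S.mul_mem ha hb) ha hb
  add_mem' := fun ha hb => (InB B (Subalgebra.toSubmodule S)).add_mem ha hb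
  algebraMap_mem' := fun r => by
    change algebraMap k (B ⊗[k] K) r ∈ InB B (Subalgebra.toSubmodule S)
    rw [Algebra.TensorProduct.algebraMap_apply]
    exact tmul_mem_InB B _ S.one_mem

theorem mem_subB {S : Subalgebra k K} {x : B ⊗[k] K} :
    x ∈ subB B S ↔ x ∈ InB B (Subalgebra.toSubmodule S) := by
  rw [subB]
  exact Iff.rfl

/-- the map `B ⊗ S → B ⊗ K` -/
noncomputable def incB (B : Type*) [CommRing B] [Algebra k B] (S : Subalgebra k K) :
    B ⊗[k] S →ₐ[k] B ⊗[k] K := Algebra.TensorProduct.map (AlgHom.id k B) S.val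

@[simp] theorem incB_tmul (S : Subalgebra k K) (b : B) (x : S) :
    incB B S (b ⊗ₜ x) = b ⊗ₜ (x : K) := by
  simp [incB]

theorem incB_injective (S : Subalgebra k K) : Function.Injective (incB B S) := by
  have h := Module.Flat.lTensor_preserves_injective_linearMap (M := B) S.val.toLinearMap
    Subtype.val_injective
  exact h

theorem mem_subB_iff {S : Subalgebra k K} {x : B ⊗[k] K} :
    x ∈ subB B S ↔ ∃ y, incB B S y = x := by
  rw [mem_subB, mem_InB_iff_range]
  constructor
  · rintro ⟨y, rfl⟩
    refine ⟨y, ?_⟩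
    induction y using TensorProduct.induction_on with
    | zero => simp
    | tmul b a => simp [incB]
    | add x y hx hy => rw [map_add, map_add, hx, hy]
  · rintro ⟨y, rfl⟩
    refine ⟨y, ?_⟩
    induction y using TensorProduct.induction_on with
    | zero => simp
    | tmul b a => simp [incB]
    | add x y hx hy => rw [map_add, map_add, hx, hy]

/-- a homomorphism with values in `subB B S` factors over `B ⊗ S` -/
theorem exists_factor {R : Type*} [CommRing R] [Algebra k R] {S : Subalgebra k K}
    (f : R →ₐ[k] B ⊗[k] K) (hf : ∀ r, f r ∈ subB B S) :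
    ∃ g : R →ₐ[k] B ⊗[k] S, ∀ r, incB B S (g r) = f r := by
  have hr : ∀ r, f r ∈ (incB B S).range := fun r => by
    obtain ⟨y, hy⟩ := mem_subB_iff.1 (hf r)
    exact ⟨y, hy⟩
  let e := AlgEquiv.ofInjective (incB B S) (incB_injective S)
  refine ⟨e.symm.toAlgHom.comp (f.codRestrict _ hr), fun r => ?_⟩
  have h1 := e.apply_symm_apply ((f.codRestrict (incB B S).range hr) r)
  exact congrArg Subtype.val h1

end functorial

end Vale.Agent.P292.Mo
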