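import Vale.Agent.P292.Mo.DefA

/-! # Part II.a, tools: twists, lifting, the universal family -/

namespace Vale.Agent.P292.Mo

open TensorProduct

universe u v w

section twist
variable {k : Type*} [Field k] {R : Type*} [CommRing R] [Algebra k R]
  (𝒜 : ℕ → Submodule k R) [GradedAlgebra 𝒜]

theorem linearMap_eq_of_homog {M : Type*} [AddCommGroup M] [Module k M] (f g : R →ₗ[k] M)
    (h : ∀ n, ∀ r ∈ 𝒜 n, f r = g r) (r : R) : f r = g r := by
  classical
  rw [← DirectSum.sum_support_decompose 𝒜 r, map_sum, map_sum]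
  exact Finset.sum_congr rfl (fun i _ => h i _ (SetLike.coe_mem _))

variable {C : Type*} [CommRing C] [Algebra k C]

/-- `r ↦ c ^ n * ψ r` for `r` of degree `n` -/
noncomputable def tw (c : C) (ψ : R →ₐ[k] C) : R →ₐ[k] C :=
  (DirectSum.toAlgebra k (fun n => 𝒜 n)
    (fun n => (LinearMap.mulLeft k (c ^ n)) ∘ₗ ψ.toLinearMap ∘ₗ (𝒜 n).subtype)
    (by
      change c ^ 0 * ψ ((1 : 𝒜 0) : R) = 1
      rw [pow_zero, one_mul]
      exact map_one ψ)
    (fun {i j} ai aj => by
      change c ^ (i + j) * ψ ((ai : R) * (aj : R)) = (c ^ i * ψ ai) * (c ^ j * ψ aj)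
      rw [map_mul, pow_add]
      ring)).comp (DirectSum.decomposeAlgEquiv 𝒜).toAlgHom

theorem tw_apply (c : C) (ψ : R →ₐ[k] C) {n : ℕ} {r : R} (hr : r ∈ 𝒜 n) :
    tw 𝒜 c ψ r = c ^ n * ψ r := by
  classical
  change DirectSum.toModule k ℕ C
    (fun n => (LinearMap.mulLeft k (c ^ n)) ∘ₗ ψ.toLinearMap ∘ₗ (𝒜 n).subtype)
    (DirectSum.decompose 𝒜 r) = _
  rw [DirectSum.decompose_of_mem 𝒜 hr]
  change DirectSum.toModule k ℕ C _ (DirectSum.lof k ℕ (fun n => 𝒜 n) n ⟨r, hr⟩) = _
  rw [DirectSum.toModule_lof]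
  rfl

end twist

section lift
variable {k : Type*} [Field k] {R : Type*} [CommRing R] [Algebra k R]

/-- lifting along nilpotent extensions over the smooth locus -/
theorem exists_lift_of_smooth {s : R} (hs : Algebra.FormallySmooth k (Localization.Away s))
    {C' C : Type*} [CommRing C'] [CommRing C] [Algebra k C'] [Algebra k C] (π : C' →ₐ[k] C)
    (hπ : Function.Surjective π) (hn' : IsNilpotent (RingHom.ker π))
    (ψ : R →ₐ[k] C) (hu : IsUnit (ψ s)) : ∃ ψ' : R →ₐ[k] C', ∀ r, π (ψ' r) = ψ r := by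
  have hn : IsNilpotent (RingHom.ker (π : C' →+* C)) := hn'
  have hu' : ∀ y : Submonoid.powers s, IsUnit ((ψ : R →+* C) y) := by
    rintro ⟨y, n, rfl⟩
    change IsUnit (ψ (s ^ n))
    rw [map_pow]
    exact hu.pow n
  let ψ₁ : Localization.Away s →ₐ[k] C :=
    IsLocalization.liftAlgHom (M := Submonoid.powers s) (f := ψ) hu'
  let ψ₂ := Algebra.FormallySmooth.liftOfSurjective ψ₁ π hπ hn
  refine ⟨ψ₂.comp (Algebra.algHom k R (Localization.Away s)), fun r => ?_⟩
  have h1 := Algebra.FormallySmooth.liftOfSurjective_apply ψ₁ π hπ hn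
    (algebraMap R (Localization.Away s) r)
  refine h1.trans ?_
  exact IsLocalization.lift_eq _ r

end lift

section taylor
variable {k : Type*} [Field k] {σ : Type*} {O : Type*} [CommRing O] [Algebra k O]

theorem taylor_aux (τ₀ : MvPolynomial σ k →ₐ[k] O) (ε : O)
    (hε : ∀ s, ε * τ₀ (MvPolynomial.X s) = 0) (f : MvPolynomial σ k) :
    ε * τ₀ f = MvPolynomial.constantCoeff f • ε := by
  induction f using MvPolynomial.induction_on with
  | C a =>
    rw [MvPolynomial.constantCoeff_C, ← MvPolynomial.algebraMap_eq, AlgHom.commutes,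
      Algebra.smul_def, mul_comm]
  | add p q hp hq => rw [map_add, map_add, mul_add, hp, hq, add_smul]
  | mul_X p s hp => rw [map_mul, map_mul, mul_left_comm, hε, mul_zero,
      MvPolynomial.constantCoeff_X, mul_zero, zero_smul]

/-- first order Taylor expansion -/
theorem taylor [Fintype σ] (τ τ₀ : MvPolynomial σ k →ₐ[k] O) (ε : O) (c : σ → k)
    (hε : ∀ s, ε * τ₀ (MvPolynomial.X s) = 0) (hεε : ε * ε = 0)
    (h : ∀ s, τ (MvPolynomial.X s) = τ₀ (MvPolynomial.X s) + c s • ε) (f : MvPolynomial σ k) :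
    τ f = τ₀ f + (∑ s, c s * MvPolynomial.coeff (Finsupp.single s 1) f) • ε := by
  classical
  induction f using MvPolynomial.induction_on with
  | C a =>
    have h1 : ∀ s : σ, MvPolynomial.coeff (Finsupp.single s 1) (MvPolynomial.C a : MvPolynomial σ k)
        = 0 := by
      intro s
      rw [MvPolynomial.coeff_C, if_neg]
      intro h0
      have := DFunLike.congr_fun h0 s
      simp at this
    simp only [h1, mul_zero, Finset.sum_const_zero, zero_smul, add_zero]
    rw [← MvPolynomial.algebraMap_eq, AlgHom.commutes, AlgHom.commutes]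
  | add p q hp hq =>
    simp only [map_add, MvPolynomial.coeff_add, mul_add, Finset.sum_add_distrib, add_smul]
    rw [hp, hq]
    ring
  | mul_X p s hp =>
    have h1 : ∀ s', MvPolynomial.coeff (Finsupp.single s' 1) (p * MvPolynomial.X s) =
        if s' = s then MvPolynomial.constantCoeff p else 0 := by
      intro s'
      rw [MvPolynomial.coeff_mul_X']
      by_cases hss : s' = s
      · subst hss
        simp [MvPolynomial.constantCoeff_eq]
      · rw [if_neg hss, if_neg]
        rw [Finsupp.mem_support_iff, Finsupp.single_apply, if_neg hss]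
        simp
    simp only [h1, mul_ite, mul_zero]
    rw [Finset.sum_ite_eq' Finset.univ s, if_pos (Finset.mem_univ s), map_mul, map_mul, hp, h s]
    have h2 := taylor_aux τ₀ ε hε p
    have h3 : ∀ (a b : k), (a • ε) * (b • ε) = 0 := by
      intro a b
      rw [smul_mul_smul_comm, hεε, smul_zero]
    rw [add_mul, mul_add, mul_add, h3, add_zero, mul_smul_comm, mul_comm (τ₀ p) ε, h2, smul_mul_assoc,
      hε, smul_zero, add_zero, smul_smul]

end taylor

section family
variable {k : Type*} [Field k] {R : Type*} [CommRing R] [Algebra k R]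
  {K : Type*} [CommRing K] [Algebra k K] {M : ℕ} (x : Fin M → R)
  (hgen : Function.Surjective (MvPolynomial.aeval (R := k) x))
  (V : Fin M → Submodule k K) [∀ i, Module.Finite k (V i)] (φ : R →ₐ[k] K)

/-- the coordinates of the family -/
abbrev Idx (V : Fin M → Submodule k K) : Type := Σ i : Fin M, Fin (Module.finrank k (V i))

/-- the universal values of the generators -/
noncomputable def pre : MvPolynomial (Fin M) k →ₐ[k] MvPolynomial (Idx V) k ⊗[k] K :=
  MvPolynomial.aeval fun i => (1 : MvPolynomial (Idx V) k) ⊗ₜ[k] φ (x i) +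
    ∑ j, (MvPolynomial.X ⟨i, j⟩ : MvPolynomial (Idx V) k) ⊗ₜ[k] (Module.finBasis k (V i) j : K)

/-- the equations of the family -/
noncomputable def eqs : Ideal (MvPolynomial (Idx V) k) :=
  Ideal.span {a | ∃ f : MvPolynomial (Fin M) k, MvPolynomial.aeval x f = 0 ∧
    ∃ l : K →ₗ[k] k, lamB _ l (pre x V φ f) = a}

variable {B : Type*} [CommRing B] [Algebra k B]

theorem eqs_le_iff (τ : MvPolynomial (Idx V) k →ₐ[k] B) : eqs x V φ ≤ RingHom.ker τ ↔
    ∀ f : MvPolynomial (Fin M) k, MvPolynomial.aeval x f = 0 → chg K τ (pre x V φ f) = 0 := by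
  constructor
  · intro h f hf
    refine eq_zero_of_lamB B fun l => ?_
    rw [lamB_chg]
    exact h (Ideal.subset_span ⟨f, hf, l, rfl⟩)
  · intro h
    rw [eqs, Ideal.span_le]
    rintro _ ⟨f, hf, l, rfl⟩
    change τ _ = 0
    rw [← lamB_chg, h f hf, map_zero]

theorem chg_pre_X (τ : MvPolynomial (Idx V) k →ₐ[k] B) (i : Fin M) :
    chg K τ (pre x V φ (MvPolynomial.X i)) = 1 ⊗ₜ[k] φ (x i) +
      ∑ j, τ (MvPolynomial.X ⟨i, j⟩) ⊗ₜ[k] (Module.finBasis k (V i) j : K) := by
  rw [pre, MvPolynomial.aeval_X, map_add, map_sum, chg_tmul, map_one]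
  simp only [chg_tmul]

include hgen in
/-- a point of the parameter space gives a homomorphism -/
theorem exists_hom_of_point (τ : MvPolynomial (Idx V) k →ₐ[k] B) (h : eqs x V φ ≤ RingHom.ker τ) :
    ∃ ψ : R →ₐ[k] B ⊗[k] K, ∀ f : MvPolynomial (Fin M) k,
      ψ (MvPolynomial.aeval x f) = chg K τ (pre x V φ f) := by
  rw [eqs_le_iff] at h
  let π : MvPolynomial (Fin M) k →ₐ[k] R := MvPolynomial.aeval x
  let e := Ideal.quotientKerAlgEquivOfSurjective (f := π) hgen
  let g : (MvPolynomial (Fin M) k ⧸ RingHom.ker π) →ₐ[k] B ⊗[k] K :=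
    Ideal.Quotient.liftₐ (RingHom.ker π) ((chg K τ).comp (pre x V φ)) (fun f hf => h f hf)
  refine ⟨g.comp e.symm.toAlgHom, fun f => ?_⟩
  have h1 : e.symm (π f) = Ideal.Quotient.mk _ f := by
    rw [AlgEquiv.symm_apply_eq]
    rfl
  change g (e.symm (π f)) = _
  rw [h1]
  rfl

/-- a homomorphism gives a point of the parameter space -/
theorem exists_point_of_hom (ψ : R →ₐ[k] B ⊗[k] K)
    (h : ∀ i, ψ (x i) - 1 ⊗ₜ φ (x i) ∈ InB B (V i)) :
    ∃ τ : MvPolynomial (Idx V) k →ₐ[k] B, eqs x V φ ≤ RingHom.ker τ ∧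
      ∀ i, ψ (x i) = 1 ⊗ₜ[k] φ (x i) +
        ∑ j, τ (MvPolynomial.X ⟨i, j⟩) ⊗ₜ[k] (Module.finBasis k (V i) j : K) := by
  choose t ht using fun i => exists_coord B (Module.finBasis k (V i)) (h i)
  let τ : MvPolynomial (Idx V) k →ₐ[k] B := MvPolynomial.aeval fun s => t s.1 s.2
  have hτ : ∀ i, ψ (x i) = 1 ⊗ₜ[k] φ (x i) +
      ∑ j, τ (MvPolynomial.X ⟨i, j⟩) ⊗ₜ[k] (Module.finBasis k (V i) j : K) := by
    intro i
    rw [← sub_eq_iff_eq_add', ht i]
    refine Finset.sum_congr rfl fun j _ => ?_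
    simp [τ]
  refine ⟨τ, ?_, hτ⟩
  rw [eqs_le_iff]
  have h1 : (chg K τ).comp (pre x V φ) = ψ.comp (MvPolynomial.aeval x) := by
    refine MvPolynomial.algHom_ext fun i => ?_
    rw [AlgHom.comp_apply, AlgHom.comp_apply, chg_pre_X, MvPolynomial.aeval_X, hτ i]
  intro f hf
  have h2 := DFunLike.congr_fun h1 f
  rw [AlgHom.comp_apply, AlgHom.comp_apply, hf, map_zero] at h2
  exact h2

omit [∀ i, Module.Finite k (V i)] in
/-- coordinates are unique -/
theorem coord_unique {ι : Type*} [Fintype ι] {W : Submodule k K} (b : Module.Basis ι k W)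
    {t t' : ι → B} (h : ∑ j, t j ⊗ₜ[k] (b j : K) = ∑ j, t' j ⊗ₜ[k] (b j : K)) : t = t' := by
  classical
  obtain ⟨p, hp⟩ := W.subtype.exists_leftInverse_of_injective (by simp)
  funext i
  have h1 := congrArg (lamB B (b.coord i ∘ₗ p)) h
  rw [map_sum, map_sum] at h1
  have h2 : ∀ j, (b.coord i ∘ₗ p) (b j : K) = if j = i then 1 else 0 := by
    intro j
    have h3 : p (b j : K) = b j := LinearMap.congr_fun hp (b j)
    rw [LinearMap.comp_apply, h3, Module.Basis.coord_apply, Module.Basis.repr_self,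
      Finsupp.single_apply]
  simpa [h2] using h1

end family

end Vale.Agent.P292.Mo
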