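import Vale.Agent.P292.Mo.DefB
import Vale.Agent.P292.Mo.DefT
import Vale.Agent.P292.Mo.Krull

/-! # Part II.a: small extensions -/

namespace Vale.Agent.P292.Mo

open TensorProduct

universe u v w

section expand
variable {k : Type*} [Field k] {K : Type*} [AddCommGroup K] [Module k K]
  {B : Type*} [CommRing B] [Algebra k B]

/-- induction on the coefficients in `B` -/
theorem coeff_induction {U : Set B} {p : B ⊗[k] K → Prop} {y : B ⊗[k] K}
    (hy : ∀ l : K →ₗ[k] k, lamB B l y ∈ U) (h0 : p 0) (ht : ∀ c ∈ U, ∀ b, p (c ⊗ₜ b))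
    (ha : ∀ x y, p x → p y → p (x + y)) : p y := by
  classical
  let b := Module.Basis.ofVectorSpace k K
  let bB := Algebra.TensorProduct.basis B b
  have hc : ∀ (x : B ⊗[k] K) i, bB.repr x i = lamB B (b.coord i) x := by
    intro x i
    induction x using TensorProduct.induction_on with
    | zero => simp
    | tmul c a =>
      rw [lamB_tmul, Algebra.TensorProduct.basis_repr_tmul]
      simp [Algebra.smul_def, mul_comm]
    | add x y hx hy => rw [map_add, map_add, Finsupp.add_apply, hx, hy]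
  have h1 := bB.linearCombination_repr y
  rw [← h1, Finsupp.linearCombination_apply, Finsupp.sum]
  refine Finset.sum_induction _ p ha h0 fun i _ => ?_
  rw [hc, Algebra.TensorProduct.basis_apply, TensorProduct.smul_tmul', smul_eq_mul, mul_one]
  exact ht _ (hy _) _

end expand

section small
variable {k : Type*} [Field k] {K : Type*} [CommRing K] [Algebra k K]
  {O₁ O : Type*} [CommRing O₁] [CommRing O] [Algebra k O₁] [Algebra k O]

/-- contraction of the first factor with a functional -/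
noncomputable def mu (K : Type*) [CommRing K] [Algebra k K] (l : O₁ →ₗ[k] k) : O₁ ⊗[k] K →ₗ[k] K :=
  (TensorProduct.lid k K).toLinearMap ∘ₗ l.rTensor K

@[simp] theorem mu_tmul (l : O₁ →ₗ[k] k) (a : O₁) (b : K) : mu K l (a ⊗ₜ b) = l a • b := by
  simp [mu]

theorem mu_mul (l : O₁ →ₗ[k] k) (a : K) (y : O₁ ⊗[k] K) :
    mu K l ((1 ⊗ₜ a) * y) = a * mu K l y := by
  induction y using TensorProduct.induction_on with
  | zero => simp
  | tmul b c => simp
  | add x y hx hy => rw [mul_add, map_add, map_add, hx, hy, mul_add]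

/-- evaluation at a point -/
noncomputable def ez (K : Type*) [CommRing K] [Algebra k K] (e : O₁ →ₐ[k] k) : O₁ ⊗[k] K →ₐ[k] K :=
  (Algebra.TensorProduct.lid k K).toAlgHom.comp (chg K e)

@[simp] theorem ez_tmul (e : O₁ →ₐ[k] k) (a : O₁) (b : K) : ez K e (a ⊗ₜ b) = e a • b := by
  simp [ez]

/-- a small extension of `k`-algebras -/
structure IsSmall (π : O₁ →ₐ[k] O) (e₁ : O₁ →ₐ[k] k) : Prop where
  surj : Function.Surjective π
  small : ∀ w, π w = 0 → ∀ a, a * w = e₁ a • w
  le : ∀ w, π w = 0 → e₁ w = 0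
  nil : IsNilpotent (RingHom.ker e₁)

variable {π : O₁ →ₐ[k] O} {e₁ : O₁ →ₐ[k] k}

theorem ker_induction (π : O₁ →ₐ[k] O) {p : O₁ ⊗[k] K → Prop} {y : O₁ ⊗[k] K}
    (hy : chg K π y = 0)
    (h0 : p 0) (ht : ∀ c, π c = 0 → ∀ b, p (c ⊗ₜ b)) (ha : ∀ x y, p x → p y → p (x + y)) :
    p y := by
  refine coeff_induction (U := {c | π c = 0}) (fun l => ?_) h0 ht ha
  change π (lamB O₁ l y) = 0
  rw [← lamB_chg, hy, map_zero]

/-- elements of the kernel are multiplied through the residue field -/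
theorem IsSmall.mul_ker (h : IsSmall π e₁) {y : O₁ ⊗[k] K} (hy : chg K π y = 0)
    (z : O₁ ⊗[k] K) : z * y = (1 ⊗ₜ ez K e₁ z) * y := by
  refine ker_induction π (p := fun y => z * y = (1 ⊗ₜ ez K e₁ z) * y) hy ?_ ?_ ?_
  · rw [mul_zero, mul_zero]
  · intro c hc b
    induction z using TensorProduct.induction_on with
    | zero => simp
    | tmul a b' =>
      rw [ez_tmul, Algebra.TensorProduct.tmul_mul_tmul, Algebra.TensorProduct.tmul_mul_tmul,
        h.small c hc a, one_mul, TensorProduct.smul_tmul, smul_mul_assoc]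
    | add x y hx hy => rw [add_mul, hx, hy, map_add, TensorProduct.tmul_add, add_mul]
  · intro x y hx hy
    rw [mul_add, mul_add, hx, hy]

theorem chg_surjective (h : IsSmall π e₁) : Function.Surjective (chg K π) := by
  have := LinearMap.rTensor_surjective K (g := π.toLinearMap) h.surj
  exact this

/-- the kernel of `O₁ ⊗ K → O ⊗ K` has square zero -/
theorem IsSmall.ker_sq (h : IsSmall π e₁) :
    RingHom.ker (chg K π) ^ 2 = ⊥ := by
  rw [pow_two, eq_bot_iff, Ideal.mul_le]
  intro y hy z hz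
  have hy' : chg K π y = 0 := hy
  have hz' : chg K π z = 0 := hz
  rw [Ideal.mem_bot, h.mul_ker hz']
  have h1 : ez K e₁ y = 0 := by
    refine ker_induction π (p := fun y => ez K e₁ y = 0) hy' (map_zero _) ?_ ?_
    · intro c hc b
      rw [ez_tmul, h.le c hc, zero_smul]
    · intro x y hx hy
      rw [map_add, hx, hy, add_zero]
  rw [h1, TensorProduct.tmul_zero, zero_mul]

/-- elements which are units at the closed point are units -/
theorem isUnit_of_ez (hnil : IsNilpotent (RingHom.ker e₁)) {y : O₁ ⊗[k] K}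
    (hy : IsUnit (ez K e₁ y)) : IsUnit y := by
  obtain ⟨N, hN⟩ := hnil
  obtain ⟨z, hz⟩ := hy.exists_right_inv
  have h1 : ez K e₁ (y * (1 ⊗ₜ z) - 1) = 0 := by
    rw [map_sub, map_mul, ez_tmul, map_one, one_smul, hz, map_one, sub_self]
  -- the kernel of `ez` is nilpotent
  have key : ∀ x : O₁ ⊗[k] K, ez K e₁ x = 0 → ∀ j, x ^ j ∈
      (RingHom.ker e₁ ^ j).map (Algebra.TensorProduct.includeLeft :
        O₁ →ₐ[k] O₁ ⊗[k] K) := by
    intro x hx j
    rw [Ideal.map_pow]
    refine Ideal.pow_mem_pow ?_ j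
    have h2 : chg K e₁ x = 0 := by
      apply (Algebra.TensorProduct.lid k K).injective
      rw [map_zero]
      exact hx
    refine ker_induction e₁ (p := fun x => x ∈ (RingHom.ker e₁).map
      (Algebra.TensorProduct.includeLeft : O₁ →ₐ[k] O₁ ⊗[k] K)) h2 (zero_mem _) ?_
      (fun x y hx hy => add_mem hx hy)
    intro c hc b
    have h3 : (c ⊗ₜ[k] b : O₁ ⊗[k] K) = (c ⊗ₜ 1) * (1 ⊗ₜ b) := by simp
    rw [h3]
    exact Ideal.mul_mem_right _ _ (Ideal.mem_map_of_mem _ hc)
  have h4 : IsNilpotent (y * (1 ⊗ₜ z) - 1) := by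
    refine ⟨N, ?_⟩
    have h5 := key _ h1 N
    rw [hN] at h5
    simpa using h5
  have h6 : IsUnit (y * (1 ⊗ₜ z)) := by
    have h7 := h4.isUnit_one_add
    rwa [add_sub_cancel] at h7
  exact isUnit_of_mul_isUnit_left h6

end small

end Vale.Agent.P292.Mo
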