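import Vale.Agent.P292.Mo.DefC

/-! # Part II.a: lifts of the universal family over a small extension -/

namespace Vale.Agent.P292.Mo

open TensorProduct

universe u v w

section aux
variable {k : Type*} [Field k] {K : Type*} [Field K] [Algebra k K]
  {B : Type*} [CommRing B] [Algebra k B]

/-- membership in the second chart condition -/
theorem mem_InB_comap {A₁ : Subalgebra k K} {c : K} (hc : c ≠ 0) {x : B ⊗[k] K} :
    x ∈ InB B ((Subalgebra.toSubmodule A₁).comap (LinearMap.mulLeft k c)) ↔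
      (1 ⊗ₜ c) * x ∈ subB B A₁ := by
  have h1 : ∀ (a : K) (l : K →ₗ[k] k) (x : B ⊗[k] K),
      lamB B l ((1 ⊗ₜ a) * x) = lamB B (l ∘ₗ LinearMap.mulLeft k a) x := by
    intro a l x
    induction x using TensorProduct.induction_on with
    | zero => simp
    | tmul b c => simp
    | add x y hx hy => rw [mul_add, map_add, map_add, hx, hy]
  rw [mem_subB]
  constructor
  · intro h l hl
    rw [h1]
    exact h _ fun v hv => hl _ hv
  · intro h l hl
    have h2 := h (l ∘ₗ LinearMap.mulLeft k c⁻¹) (fun v hv => by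
      refine hl _ ?_
      rw [Submodule.mem_comap, LinearMap.mulLeft_apply, LinearMap.mulLeft_apply,
        mul_inv_cancel_left₀ hc]
      exact hv)
    rw [h1] at h2
    have h3 : (l ∘ₗ LinearMap.mulLeft k c⁻¹) ∘ₗ LinearMap.mulLeft k c = l := by
      ext x
      simp only [LinearMap.comp_apply, LinearMap.mulLeft_apply]
      rw [inv_mul_cancel_left₀ hc]
    rwa [h3] at h2

variable {R : Type*} [CommRing R] [Algebra k R] {M : ℕ} {x : Fin M → R}

/-- homomorphisms from `R` into a quotient -/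
theorem exists_desc (hgen : Function.Surjective (MvPolynomial.aeval (R := k) x))
    {C : Type*} [CommRing C] [Algebra k C] (g : MvPolynomial (Fin M) k →ₐ[k] C) (L : Ideal C)
    (h : ∀ f, MvPolynomial.aeval x f = 0 → g f ∈ L) :
    ∃ ψ : R →ₐ[k] C ⧸ L, ∀ f, ψ (MvPolynomial.aeval x f) = Ideal.Quotient.mk L (g f) := by
  let π : MvPolynomial (Fin M) k →ₐ[k] R := MvPolynomial.aeval x
  let e := Ideal.quotientKerAlgEquivOfSurjective (f := π) hgen
  let g' : (MvPolynomial (Fin M) k ⧸ RingHom.ker π) →ₐ[k] C ⧸ L :=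
    Ideal.Quotient.liftₐ (RingHom.ker π) ((Ideal.Quotient.mkₐ k L).comp g)
      (fun f hf => Ideal.Quotient.eq_zero_iff_mem.2 (h f hf))
  refine ⟨g'.comp e.symm.toAlgHom, fun f => ?_⟩
  have h1 : e.symm (π f) = Ideal.Quotient.mk _ f := by
    rw [AlgEquiv.symm_apply_eq]
    rfl
  change g' (e.symm (π f)) = _
  rw [h1]
  rfl

/-- lifting homomorphisms given on polynomials modulo a nilpotent ideal -/
theorem exists_lift_mod (hgen : Function.Surjective (MvPolynomial.aeval (R := k) x))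
    {s : R} (hsm : Algebra.FormallySmooth k (Localization.Away s))
    {C : Type*} [CommRing C] [Algebra k C] (g : MvPolynomial (Fin M) k →ₐ[k] C) (L : Ideal C)
    (hL : IsNilpotent L) (h : ∀ f, MvPolynomial.aeval x f = 0 → g f ∈ L)
    (hu : ∀ f, MvPolynomial.aeval x f = s → IsUnit (g f)) :
    ∃ Ψ : R →ₐ[k] C, ∀ f, Ψ (MvPolynomial.aeval x f) - g f ∈ L := by
  obtain ⟨ψ, hψ⟩ := exists_desc hgen g L h
  have hnil : IsNilpotent (RingHom.ker (Ideal.Quotient.mkₐ k L)) := by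
    have h1 : RingHom.ker (Ideal.Quotient.mkₐ k L) = L := Ideal.mk_ker
    rwa [h1]
  have hunit : IsUnit (ψ s) := by
    obtain ⟨f, hf⟩ := hgen s
    have hf' : MvPolynomial.aeval x f = s := hf
    rw [← hf', hψ]
    exact IsUnit.map _ (hu f hf')
  obtain ⟨Ψ', hΨ'⟩ := exists_lift_of_smooth hsm (Ideal.Quotient.mkₐ k L)
    (Ideal.Quotient.mkₐ_surjective k _) hnil ψ hunit
  exact ⟨Ψ', fun f => (Ideal.Quotient.mk_eq_mk_iff_sub_mem _ _).1
    ((hΨ' (MvPolynomial.aeval x f)).trans (hψ f))⟩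

/-- polynomials in the generators: a subalgebra containing the values at the variables contains
all values -/
theorem mem_of_X {C : Type*} [CommRing C] [Algebra k C] (g : MvPolynomial (Fin M) k →ₐ[k] C)
    (S : Subalgebra k C) (h : ∀ i, g (MvPolynomial.X i) ∈ S) (f : MvPolynomial (Fin M) k) :
    g f ∈ S := by
  induction f using MvPolynomial.induction_on with
  | C a =>
    rw [← MvPolynomial.algebraMap_eq, AlgHom.commutes]
    exact S.algebraMap_mem a
  | add p q hp hq => rw [map_add]; exact add_mem hp hq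
  | mul_X p i hp => rw [map_mul]; exact mul_mem hp (h i)

/-- congruence modulo the marks -/
theorem sub_mem_of_X {A₀ : Subalgebra k K} {I : Submodule k K} (hI : ∀ a ∈ I, a ∈ A₀)
    (hIm : ∀ a ∈ A₀, ∀ b ∈ I, a * b ∈ I) (φ : R →ₐ[k] K) (hφ : ∀ r, φ r ∈ A₀)
    (g : MvPolynomial (Fin M) k →ₐ[k] B ⊗[k] K)
    (h : ∀ i, g (MvPolynomial.X i) - 1 ⊗ₜ φ (x i) ∈ InB B I) (f : MvPolynomial (Fin M) k) :
    g f - 1 ⊗ₜ φ (MvPolynomial.aeval x f) ∈ InB B I := by
  have hg : ∀ f, g f ∈ subB B A₀ := by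
    refine mem_of_X g (subB B A₀) fun i => ?_
    have h1 : g (MvPolynomial.X i) = (g (MvPolynomial.X i) - 1 ⊗ₜ φ (x i)) + 1 ⊗ₜ φ (x i) := by
      rw [sub_add_cancel]
    rw [h1, mem_subB]
    exact add_mem (InB_mono B (fun a ha => hI a ha) (h i)) (tmul_mem_InB B _ (hφ _))
  induction f using MvPolynomial.induction_on with
  | C a =>
    rw [← MvPolynomial.algebraMap_eq, AlgHom.commutes, AlgHom.commutes, AlgHom.commutes,
      Algebra.TensorProduct.algebraMap_apply, Algebra.algebraMap_eq_smul_one,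
      Algebra.algebraMap_eq_smul_one, TensorProduct.smul_tmul, sub_self]
    exact zero_mem _
  | add p q hp hq =>
    rw [map_add, map_add, map_add, TensorProduct.tmul_add, add_sub_add_comm]
    exact add_mem hp hq
  | mul_X p i hp =>
    have h1 : g (p * MvPolynomial.X i) - 1 ⊗ₜ φ (MvPolynomial.aeval x (p * MvPolynomial.X i)) =
        g p * (g (MvPolynomial.X i) - 1 ⊗ₜ φ (x i)) +
          (1 ⊗ₜ φ (x i)) * (g p - 1 ⊗ₜ φ (MvPolynomial.aeval x p)) := by
      rw [map_mul, map_mul, map_mul, MvPolynomial.aeval_X]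
      have h2 : (1 : B) ⊗ₜ[k] (φ (MvPolynomial.aeval x p) * φ (x i)) =
        (1 ⊗ₜ φ (x i)) * (1 ⊗ₜ φ (MvPolynomial.aeval x p)) := by
          rw [Algebra.TensorProduct.tmul_mul_tmul, mul_one, mul_comm]
      rw [h2]
      ring
    rw [h1]
    have hIm' : ∀ a ∈ Subalgebra.toSubmodule A₀, ∀ b ∈ I, a * b ∈ I := hIm
    exact add_mem (mul_mem_InB hIm' (mem_subB.1 (hg p)) (h i))
      (mul_mem_InB hIm' (tmul_mem_InB B _ (hφ _)) hp)

end aux

section lifts
variable {k : Type*} [Field k] {R : Type*} [CommRing R] [Algebra k R] {𝒜 : ℕ → Submodule k R}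
  [GradedAlgebra 𝒜] {K : Type*} [Field K] [Algebra k K] {M : ℕ} {x : Fin M → R}
  {A₀ A₁ : Subalgebra k K} {u : K} {I : Submodule k K} {φ : R →ₐ[k] K}
  {O₁ O : Type*} [CommRing O₁] [CommRing O] [Algebra k O₁] [Algebra k O]
  {π : O₁ →ₐ[k] O} {e₁ : O₁ →ₐ[k] k}

theorem incB_chg (A₀ : Subalgebra k K) (π : O₁ →ₐ[k] O) (y : O₁ ⊗[k] A₀) :
    incB O A₀ (chg A₀ π y) = chg K π (incB O₁ A₀ y) := by
  induction y using TensorProduct.induction_on with
  | zero => simp
  | tmul a b => simp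
  | add x y hx hy => rw [map_add, map_add, map_add, map_add, hx, hy]

theorem coe_ez (A₀ : Subalgebra k K) (e₁ : O₁ →ₐ[k] k) (y : O₁ ⊗[k] A₀) :
    ((ez A₀ e₁ y : A₀) : K) = ez K e₁ (incB O₁ A₀ y) := by
  induction y using TensorProduct.induction_on with
  | zero => simp
  | tmul a b => simp
  | add x y hx hy => rw [map_add, map_add, map_add, ← hx, ← hy]; rfl

/-- the ideal of the elements of `O₁ ⊗ A₀` which vanish over `O` and at the marks -/
theorem exists_markIdeal (hs : IsSmall π e₁) (A₀ : Subalgebra k K) (I : Submodule k K)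
    (hIm : ∀ a ∈ A₀, ∀ b ∈ I, a * b ∈ I) :
    ∃ L : Ideal (O₁ ⊗[k] A₀), IsNilpotent L ∧
      ∀ y, y ∈ L ↔ chg K π (incB O₁ A₀ y) = 0 ∧ incB O₁ A₀ y ∈ InB O₁ I := by
  have hIm' : ∀ a ∈ Subalgebra.toSubmodule A₀, ∀ b ∈ I, a * b ∈ I := hIm
  refine ⟨RingHom.ker (chg A₀ π) ⊓
    { carrier := {y | incB O₁ A₀ y ∈ InB O₁ I}
      add_mem' := fun {a b} ha hb => by
        change incB O₁ A₀ (a + b) ∈ InB O₁ I
        rw [map_add]; exact add_mem ha hb
      zero_mem' := by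
        change incB O₁ A₀ 0 ∈ InB O₁ I
        rw [map_zero]; exact zero_mem _
      smul_mem' := fun c y hy => by
        change incB O₁ A₀ (c * y) ∈ InB O₁ I
        rw [map_mul]
        exact mul_mem_InB hIm' (mem_subB.1 (mem_subB_iff.2 ⟨c, rfl⟩)) hy }, ?_, ?_⟩
  · refine ⟨2, ?_⟩
    rw [Ideal.zero_eq_bot, ← le_bot_iff]
    exact (Ideal.pow_right_mono inf_le_left 2).trans (hs.ker_sq (K := A₀)).le
  · intro y
    rw [Ideal.mem_inf]
    refine and_congr ?_ Iff.rfl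
    rw [RingHom.mem_ker, ← incB_chg]
    exact (map_eq_zero_iff _ (incB_injective A₀)).symm

/-- the lift on the first chart, with the right values at the marks -/
theorem exists_lift0 (hs : IsSmall π e₁)
    (hgen : Function.Surjective (MvPolynomial.aeval (R := k) x))
    (hI : ∀ a ∈ I, a ∈ A₀) (hIm : ∀ a ∈ A₀, ∀ b ∈ I, a * b ∈ I) (hφ : ∀ r, φ r ∈ A₀)
    {s : R} (hsm : Algebra.FormallySmooth k (Localization.Away s)) (hs0 : φ s ≠ 0)
    (hs1 : (φ s)⁻¹ ∈ A₀) (Ψ : R →ₐ[k] O ⊗[k] K)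
    (g : MvPolynomial (Fin M) k →ₐ[k] O₁ ⊗[k] K)
    (hg : ∀ i, g (MvPolynomial.X i) - 1 ⊗ₜ φ (x i) ∈ InB O₁ I)
    (hge : ∀ i, ez K e₁ (g (MvPolynomial.X i)) = φ (x i))
    (hgΨ : ∀ f, chg K π (g f) = Ψ (MvPolynomial.aeval x f)) :
    ∃ Ψ₀ : R →ₐ[k] O₁ ⊗[k] K, (∀ r, Ψ₀ r ∈ subB O₁ A₀) ∧ (∀ r, chg K π (Ψ₀ r) = Ψ r) ∧
      (∀ r, Ψ₀ r - 1 ⊗ₜ φ r ∈ InB O₁ I) := by
  have hgI := sub_mem_of_X (x := x) hI hIm φ hφ g hg
  have hgA : ∀ f, g f ∈ subB O₁ A₀ := by
    refine mem_of_X g (subB O₁ A₀) fun i => ?_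
    have h1 : g (MvPolynomial.X i) = (g (MvPolynomial.X i) - 1 ⊗ₜ φ (x i)) + 1 ⊗ₜ φ (x i) := by
      rw [sub_add_cancel]
    rw [h1, mem_subB]
    exact add_mem (InB_mono O₁ (fun a ha => hI a ha) (hg i)) (tmul_mem_InB O₁ _ (hφ _))
  obtain ⟨g', hg'⟩ := exists_factor (S := A₀) g hgA
  obtain ⟨L, hLn, hL⟩ := exists_markIdeal hs A₀ I hIm
  have hdesc : ∀ f, MvPolynomial.aeval x f = 0 → g' f ∈ L := by
    intro f hf
    rw [hL, hg', hgΨ, hf, map_zero]
    refine ⟨rfl, ?_⟩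
    have h1 := hgI f
    rwa [hf, map_zero, TensorProduct.tmul_zero, sub_zero] at h1
  obtain ⟨Ψ', hdiff⟩ := exists_lift_mod hgen hsm g' L hLn hdesc (fun f hf' => by
    refine isUnit_of_ez hs.nil ?_
    have h1 : ((ez A₀ e₁ (g' f) : A₀) : K) = φ s := by
      rw [coe_ez, hg']
      have h3 : (ez K e₁).comp g = φ.comp (MvPolynomial.aeval x) := by
        refine MvPolynomial.algHom_ext fun i => ?_
        rw [AlgHom.comp_apply, AlgHom.comp_apply, hge, MvPolynomial.aeval_X]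
      have h4 := DFunLike.congr_fun h3 f
      rw [AlgHom.comp_apply, AlgHom.comp_apply] at h4
      rw [h4, hf']
    refine isUnit_iff_exists_inv.2 ⟨⟨(φ s)⁻¹, hs1⟩, ?_⟩
    apply Subtype.ext
    change ((ez A₀ e₁ (g' f) : A₀) : K) * (φ s)⁻¹ = 1
    rw [h1, mul_inv_cancel₀ hs0])
  refine ⟨(incB O₁ A₀).comp Ψ', fun r => mem_subB_iff.2 ⟨Ψ' r, rfl⟩, fun r => ?_, fun r => ?_⟩
  · obtain ⟨f, rfl⟩ := hgen r
    have h4 := ((hL _).1 (hdiff f)).1
    rw [map_sub, map_sub, hg', hgΨ, sub_eq_zero] at h4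
    exact h4
  · obtain ⟨f, rfl⟩ := hgen r
    have h3 := ((hL _).1 (hdiff f)).2
    rw [map_sub, hg'] at h3
    have h4 := add_mem h3 (hgI f)
    rw [sub_add_sub_cancel] at h4
    exact h4

end lifts

end Vale.Agent.P292.Mo
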