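import Vale.Agent.P292.Mo.DefS0

/-! # Part II.a: the obstruction map -/

namespace Vale.Agent.P292.Mo

open TensorProduct MvPolynomial

section key
variable {k : Type*} [Field k] {R : Type*} [CommRing R] [Algebra k R] {𝒜 : ℕ → Submodule k R}
  {K : Type*} [Field K] [Algebra k K] {M : ℕ} {x : Fin M → R} {d : Fin M → ℕ}
  {A₀ A₁ : Subalgebra k K} {u : K} {I : Submodule k K} {φ : R →ₐ[k] K}
  {O₁ O : Type*} [CommRing O₁] [CommRing O] [Algebra k O₁] [Algebra k O]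
  {π : O₁ →ₐ[k] O} {e₁ : O₁ →ₐ[k] k}

/-- the difference of two lifts -/
noncomputable def dd (Ψ₀ Ψ₁ : R →ₐ[k] O₁ ⊗[k] K) : R →ₗ[k] O₁ ⊗[k] K :=
  Ψ₁.toLinearMap - Ψ₀.toLinearMap

theorem dd_apply (Ψ₀ Ψ₁ : R →ₐ[k] O₁ ⊗[k] K) (r : R) : dd Ψ₀ Ψ₁ r = Ψ₁ r - Ψ₀ r := rfl

theorem chg_dd {Ψ : R →ₐ[k] O ⊗[k] K} {Ψ₀ Ψ₁ : R →ₐ[k] O₁ ⊗[k] K}
    (h0 : ∀ r, chg K π (Ψ₀ r) = Ψ r) (h1 : ∀ r, chg K π (Ψ₁ r) = Ψ r) (r : R) :
    chg K π (dd Ψ₀ Ψ₁ r) = 0 := by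
  rw [dd_apply, map_sub, h0, h1, sub_self]

theorem dd_mul (hs : IsSmall π e₁) {Ψ : R →ₐ[k] O ⊗[k] K} {Ψ₀ Ψ₁ : R →ₐ[k] O₁ ⊗[k] K}
    (h0 : ∀ r, chg K π (Ψ₀ r) = Ψ r) (h1 : ∀ r, chg K π (Ψ₁ r) = Ψ r)
    (he0 : ∀ r, ez K e₁ (Ψ₀ r) = φ r) (he1 : ∀ r, ez K e₁ (Ψ₁ r) = φ r) (r s : R) :
    dd Ψ₀ Ψ₁ (r * s) = (1 ⊗ₜ φ r) * dd Ψ₀ Ψ₁ s + (1 ⊗ₜ φ s) * dd Ψ₀ Ψ₁ r := by
  rw [← he1 r, ← he0 s, ← hs.mul_ker (chg_dd h0 h1 s), ← hs.mul_ker (chg_dd h0 h1 r), dd_apply,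
    dd_apply, dd_apply, map_mul, map_mul]
  ring

/-- the obstruction map, before passing to the quotient -/
noncomputable def obs (Ψ₀ Ψ₁ : R →ₐ[k] O₁ ⊗[k] K) : Module.Dual k O₁ →ₗ[k] (R →ₗ[k] K) where
  toFun l := mu K l ∘ₗ dd Ψ₀ Ψ₁
  map_add' l l' := by
    ext r
    simp only [LinearMap.comp_apply, LinearMap.add_apply]
    rw [mu, mu, mu, LinearMap.rTensor_add, LinearMap.comp_add, LinearMap.add_apply]
  map_smul' c l := by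
    ext r
    simp only [LinearMap.comp_apply, LinearMap.smul_apply, RingHom.id_apply]
    rw [mu, mu, LinearMap.rTensor_smul, LinearMap.comp_smul]
    rfl

theorem obs_apply (Ψ₀ Ψ₁ : R →ₐ[k] O₁ ⊗[k] K) (l : Module.Dual k O₁) (r : R) :
    obs Ψ₀ Ψ₁ l r = mu K l (Ψ₁ r - Ψ₀ r) := rfl

theorem obs_mem (hs : IsSmall π e₁) {Ψ : R →ₐ[k] O ⊗[k] K} {Ψ₀ Ψ₁ : R →ₐ[k] O₁ ⊗[k] K}
    (h0 : ∀ r, chg K π (Ψ₀ r) = Ψ r) (h1 : ∀ r, chg K π (Ψ₁ r) = Ψ r)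
    (he0 : ∀ r, ez K e₁ (Ψ₀ r) = φ r) (he1 : ∀ r, ez K e₁ (Ψ₁ r) = φ r) (l : Module.Dual k O₁) :
    obs Ψ₀ Ψ₁ l ∈ DerS φ := by
  rw [mem_DerS]
  intro r s
  change mu K l (dd Ψ₀ Ψ₁ (r * s)) = φ r * mu K l (dd Ψ₀ Ψ₁ s) + φ s * mu K l (dd Ψ₀ Ψ₁ r)
  rw [dd_mul hs h0 h1 he0 he1, map_add, mu_mul, mu_mul]

/-- extraction of coordinates -/
theorem coord_eps {B : Type*} [CommRing B] [Algebra k B] {ι : Type*} [Fintype ι]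
    {W : Submodule k K} (b : Module.Basis ι k W) {a : ι → B} {ε : B} {γ : K}
    (h : ∑ j, a j ⊗ₜ[k] (b j : K) = ε ⊗ₜ[k] γ) : ∃ c : ι → k, ∀ j, a j = c j • ε := by
  classical
  obtain ⟨p, hp⟩ := W.subtype.exists_leftInverse_of_injective (by simp)
  refine ⟨fun i => (b.coord i ∘ₗ p) γ, fun i => ?_⟩
  have h1 := congrArg (lamB B (b.coord i ∘ₗ p)) h
  rw [map_sum, lamB_tmul] at h1
  have h2 : ∀ j, (b.coord i ∘ₗ p) (b j : K) = if j = i then 1 else 0 := by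
    intro j
    have h3 : p (b j : K) = b j := LinearMap.congr_fun hp (b j)
    rw [LinearMap.comp_apply, h3, Module.Basis.coord_apply, Module.Basis.repr_self,
      Finsupp.single_apply]
  rw [← h1]
  simp [h2]

/-- the kernel of a functional on the kernel of a small extension -/
theorem exists_quot (hs : IsSmall π e₁) (l : Module.Dual k O₁) {w0 : O₁} (hw0 : π w0 = 0)
    (hl : l w0 = 1) : ∃ (L : Ideal O₁), (∀ w, π w = 0 →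
      Ideal.Quotient.mk L w = l w • Ideal.Quotient.mk L w0) ∧
      (Ideal.Quotient.mk L w0 ≠ 0) := by
  let L : Ideal O₁ :=
    { carrier := {w | π w = 0 ∧ l w = 0}
      add_mem' := fun {a b} ha hb => ⟨by rw [map_add, ha.1, hb.1, add_zero],
        by rw [map_add, ha.2, hb.2, add_zero]⟩
      zero_mem' := ⟨map_zero _, map_zero _⟩
      smul_mem' := fun c w hw => ⟨by rw [smul_eq_mul, map_mul, hw.1, mul_zero], by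
        rw [smul_eq_mul, hs.small w hw.1, map_smul, hw.2, smul_zero]⟩ }
  refine ⟨L, ?_, ?_⟩
  · intro w hw
    have h1 : l w • Ideal.Quotient.mk L w0 = Ideal.Quotient.mk L (l w • w0) := rfl
    rw [h1, Ideal.Quotient.mk_eq_mk_iff_sub_mem]
    refine ⟨?_, ?_⟩
    · rw [map_sub, map_smul, hw, hw0, smul_zero, sub_zero]
    · rw [map_sub, map_smul, hl, smul_eq_mul, mul_one, sub_self]
  · intro h
    rw [Ideal.Quotient.eq_zero_iff_mem] at h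
    have h2 : l w0 = 0 := h.2
    rw [hl] at h2
    exact one_ne_zero h2

theorem mk_eps_mul (hs : IsSmall π e₁) {w0 : O₁} (hw0 : π w0 = 0) (L : Ideal O₁) (b : K)
    (z : O₁ ⊗[k] K) :
    chg K (Ideal.Quotient.mkₐ k L) z * (Ideal.Quotient.mk L w0 ⊗ₜ b) =
      (Ideal.Quotient.mk L w0) ⊗ₜ (ez K e₁ z * b) := by
  have h1 : (Ideal.Quotient.mk L w0 ⊗ₜ b : (O₁ ⧸ L) ⊗[k] K) =
      chg K (Ideal.Quotient.mkₐ k L) (w0 ⊗ₜ b) := by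
    rw [chg_tmul]
    rfl
  rw [h1, ← map_mul, hs.mul_ker (by rw [chg_tmul, hw0, TensorProduct.zero_tmul]),
    Algebra.TensorProduct.tmul_mul_tmul, one_mul, chg_tmul]
  rfl

theorem chg_mk_ker {l : Module.Dual k O₁} {w0 : O₁}
    {L : Ideal O₁} (hL : ∀ w, π w = 0 → Ideal.Quotient.mk L w = l w • Ideal.Quotient.mk L w0)
    {y : O₁ ⊗[k] K} (hy : chg K π y = 0) :
    chg K (Ideal.Quotient.mkₐ k L) y = Ideal.Quotient.mk L w0 ⊗ₜ mu K l y := by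
  refine ker_induction π (p := fun y => chg K (Ideal.Quotient.mkₐ k L) y =
    Ideal.Quotient.mk L w0 ⊗ₜ mu K l y) hy ?_ ?_ ?_
  · rw [map_zero, map_zero, TensorProduct.tmul_zero]
  · intro c hc b
    rw [chg_tmul, mu_tmul, TensorProduct.tmul_smul, TensorProduct.smul_tmul', ← hL c hc]
    rfl
  · intro x y hx hy
    rw [map_add, map_add, TensorProduct.tmul_add, hx, hy]

theorem key_claim [∀ i, Module.Finite k ↥(I ⊓ Sec A₀ A₁ u (d i))]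
    (hs : IsSmall π e₁) (hx : ∀ i, x i ∈ 𝒜 (d i)) (hu : u ≠ 0) (hI : ∀ a ∈ I, a ∈ A₀)
    (hφ : ∀ n, ∀ r ∈ 𝒜 n, φ r ∈ Sec A₀ A₁ u n)
    (q1 : MvPolynomial (Idx fun i => I ⊓ Sec A₀ A₁ u (d i)) k →ₐ[k] O₁)
    (hq1 : ∀ s, e₁ (q1 (X s)) = 0)
    (hqJ : ∀ f ∈ eqs x (fun i => I ⊓ Sec A₀ A₁ u (d i)) φ, π (q1 f) = 0)
    {Ψ : R →ₐ[k] O ⊗[k] K}
    (hΨ : ∀ i, Ψ (x i) = chg K π (chg K q1 (pre x (fun i => I ⊓ Sec A₀ A₁ u (d i)) φ (X i))))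
    {Ψ₀ Ψ₁ : R →ₐ[k] O₁ ⊗[k] K}
    (h0 : ∀ r, chg K π (Ψ₀ r) = Ψ r) (h1 : ∀ r, chg K π (Ψ₁ r) = Ψ r)
    (he0 : ∀ r, ez K e₁ (Ψ₀ r) = φ r)
    (h0I : ∀ r, Ψ₀ r - 1 ⊗ₜ φ r ∈ InB O₁ I)
    (h1A : ∀ n, ∀ r ∈ 𝒜 n, (1 ⊗ₜ (u ^ n)) * Ψ₁ r ∈ subB O₁ A₁)
    (l : Module.Dual k O₁) (hl : obs Ψ₀ Ψ₁ l ∈ Der0 φ I ⊔ Der1 𝒜 φ A₁ u) :
    ∃ c : (Idx fun i => I ⊓ Sec A₀ A₁ u (d i)) → k,
      ∀ f ∈ eqs x (fun i => I ⊓ Sec A₀ A₁ u (d i)) φ,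
        l (q1 f) = - ∑ s, c s * coeff (Finsupp.single s 1) f := by
  by_cases hW : ∃ w, π w = 0 ∧ l w ≠ 0
  swap
  · push Not at hW
    exact ⟨0, fun f hf => by rw [hW _ (hqJ f hf)]; simp⟩
  obtain ⟨w, hw, hlw⟩ := hW
  set w0 := (l w)⁻¹ • w with hw0d
  have hw0 : π w0 = 0 := by rw [hw0d, map_smul, hw, smul_zero]
  have hlw0 : l w0 = 1 := by rw [hw0d, map_smul, smul_eq_mul, inv_mul_cancel₀ hlw]
  obtain ⟨L, hL, hε0⟩ := exists_quot hs l hw0 hlw0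
  obtain ⟨δ0, hδ0, δ1, hδ1, hδ⟩ := Submodule.mem_sup.1 hl
  rw [mem_Der0, mem_DerS] at hδ0
  rw [mem_Der1, mem_DerS] at hδ1
  set ε : O₁ ⧸ L := Ideal.Quotient.mk L w0 with hεd
  set ql := Ideal.Quotient.mkₐ k L with hql
  have hεε : ε * ε = 0 := by
    have h3 : w0 * w0 = 0 := by rw [hs.small w0 hw0, hs.le w0 hw0, zero_smul]
    rw [hεd, ← map_mul, h3, map_zero]
  have hεa : ∀ a, ε * ql a = e₁ a • ε := by
    intro a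
    have h3 : w0 * a = e₁ a • w0 := by rw [mul_comm, hs.small w0 hw0]
    change Ideal.Quotient.mk L w0 * Ideal.Quotient.mk L a = e₁ a • Ideal.Quotient.mk L w0
    rw [← map_mul, h3]
    rfl
  -- the homomorphism
  have hmul : ∀ r s, chg K ql (Ψ₀ (r * s)) + ε ⊗ₜ[k] δ0 (r * s) =
      (chg K ql (Ψ₀ r) + ε ⊗ₜ[k] δ0 r) * (chg K ql (Ψ₀ s) + ε ⊗ₜ[k] δ0 s) := by
    intro r s
    have h3 := mk_eps_mul hs hw0 L (δ0 s) (Ψ₀ r)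
    have h4 := mk_eps_mul hs hw0 L (δ0 r) (Ψ₀ s)
    have h5 : (ε ⊗ₜ[k] δ0 r) * (ε ⊗ₜ[k] δ0 s) = 0 := by
      rw [Algebra.TensorProduct.tmul_mul_tmul, hεε, TensorProduct.zero_tmul]
    rw [he0] at h3 h4
    rw [add_mul, mul_add, mul_add, h5, add_zero, h3, mul_comm (ε ⊗ₜ[k] δ0 r), h4, hδ0.1,
      map_mul, map_mul, TensorProduct.tmul_add]
    ring
  have hδ0one : δ0 1 = 0 := by
    have h3 := hδ0.1 1 1
    rw [mul_one, map_one φ, one_mul] at h3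
    exact left_eq_add.1 h3
  let Φ : R →ₐ[k] (O₁ ⧸ L) ⊗[k] K := AlgHom.ofLinearMap
    ((chg K ql).toLinearMap ∘ₗ Ψ₀.toLinearMap + (TensorProduct.mk k (O₁ ⧸ L) K ε) ∘ₗ δ0)
    (by
      change chg K ql (Ψ₀ 1) + ε ⊗ₜ[k] δ0 1 = 1
      rw [hδ0one, TensorProduct.tmul_zero, map_one, map_one, add_zero])
    (fun r s => hmul r s)
  have hΦ : ∀ r, Φ r = chg K ql (Ψ₀ r) + ε ⊗ₜ[k] δ0 r := fun r => rfl
  have hΦ1 : ∀ r, Φ r = chg K ql (Ψ₁ r) - ε ⊗ₜ[k] δ1 r := by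
    intro r
    have h3 := chg_mk_ker (K := K) hL (chg_dd h0 h1 r)
    have h4 : mu K l (dd Ψ₀ Ψ₁ r) = δ0 r + δ1 r := by
      have h5 := LinearMap.congr_fun hδ r
      rw [LinearMap.add_apply] at h5
      rw [h5]
      rfl
    rw [h4, dd_apply, map_sub, TensorProduct.tmul_add] at h3
    rw [hΦ, eq_sub_iff_add_eq, add_assoc]
    change _ + (ε ⊗ₜ[k] δ0 r + ε ⊗ₜ[k] δ1 r) = _
    rw [← h3]
    exact add_sub_cancel _ _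
  -- admissible
  have hadm : ∀ i, Φ (x i) - 1 ⊗ₜ φ (x i) ∈ InB (O₁ ⧸ L) (I ⊓ Sec A₀ A₁ u (d i)) := by
    intro i
    have hA : Φ (x i) - 1 ⊗ₜ φ (x i) ∈ InB (O₁ ⧸ L) I := by
      have h3 := chg_mem_InB ql (h0I (x i))
      rw [map_sub, chg_tmul, map_one] at h3
      rw [hΦ, add_sub_right_comm]
      exact add_mem h3 (tmul_mem_InB _ _ (hδ0.2 _))
    have hB : Φ (x i) - 1 ⊗ₜ φ (x i) ∈ InB (O₁ ⧸ L)
        ((Subalgebra.toSubmodule A₁).comap (LinearMap.mulLeft k (u ^ d i))) := by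
      rw [mem_InB_comap (pow_ne_zero _ hu), mul_sub, Algebra.TensorProduct.tmul_mul_tmul, hΦ1,
        mul_sub, Algebra.TensorProduct.tmul_mul_tmul, one_mul, one_mul]
      have h3 : (1 ⊗ₜ (u ^ d i)) * chg K ql (Ψ₁ (x i)) = chg K ql ((1 ⊗ₜ (u ^ d i)) * Ψ₁ (x i)) := by
        rw [map_mul, chg_tmul, map_one]
      rw [h3]
      refine sub_mem (sub_mem ?_ ?_) ?_
      · exact mem_subB.2 (chg_mem_InB ql (mem_subB.1 (h1A _ _ (hx i))))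
      · exact mem_subB.2 (tmul_mem_InB _ _ (hδ1.2 _ _ (hx i)))
      · exact mem_subB.2 (tmul_mem_InB _ _ (mem_Sec.1 (hφ _ _ (hx i))).2)
    refine mem_InB_inf _ hA (mem_InB_inf _ ?_ hB)
    exact InB_mono _ (fun a ha => hI a ha) hA
  obtain ⟨τ, hτJ, hτ⟩ := exists_point_of_hom x (fun i => I ⊓ Sec A₀ A₁ u (d i)) φ Φ hadm
  -- comparison
  have hcomp : ∀ i, ∃ γ : K, ∑ j, (τ (X ⟨i, j⟩) - ql (q1 (X ⟨i, j⟩))) ⊗ₜ[k]
      (Module.finBasis k ↥(I ⊓ Sec A₀ A₁ u (d i)) j : K) = ε ⊗ₜ[k] γ := by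
    intro i
    have h3 : chg K π (Ψ₀ (x i) -
        chg K q1 (pre x (fun i => I ⊓ Sec A₀ A₁ u (d i)) φ (X i))) = 0 := by
      rw [map_sub, h0, hΨ, sub_self]
    have h4 := chg_mk_ker (K := K) hL h3
    refine ⟨mu K l (Ψ₀ (x i) -
        chg K q1 (pre x (fun i => I ⊓ Sec A₀ A₁ u (d i)) φ (X i))) + δ0 (x i), ?_⟩
    rw [TensorProduct.tmul_add]
    change _ = Ideal.Quotient.mk L w0 ⊗ₜ[k] _ + ε ⊗ₜ[k] δ0 (x i)
    rw [← h4, map_sub, sub_add_eq_add_sub]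
    change _ = (chg K ql (Ψ₀ (x i)) + ε ⊗ₜ[k] δ0 (x i)) - _
    rw [← hΦ, hτ, chg_comp, chg_pre_X, add_sub_add_left_eq_sub, ← Finset.sum_sub_distrib]
    refine Finset.sum_congr rfl fun j _ => ?_
    rw [TensorProduct.sub_tmul]
    rfl
  choose γ hγ using hcomp
  choose c hc using fun i => coord_eps (Module.finBasis k ↥(I ⊓ Sec A₀ A₁ u (d i))) (hγ i)
  refine ⟨fun s => c s.1 s.2, fun f hf => ?_⟩
  have h5 := taylor τ (ql.comp q1) ε (fun s => c s.1 s.2) (fun s => by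
    rw [AlgHom.comp_apply, hεa, hq1, zero_smul]) hεε (fun s => by
      have h6 := hc s.1 s.2
      rw [sub_eq_iff_eq_add'] at h6
      exact h6) f
  have h6 : τ f = 0 := hτJ hf
  have h7 : (ql.comp q1) f = l (q1 f) • ε := hL _ (hqJ f hf)
  rw [h6, h7, ← add_smul] at h5
  have h8 := (smul_eq_zero.1 h5.symm).resolve_right hε0
  exact eq_neg_of_add_eq_zero_left h8

end key

end Vale.Agent.P292.Mo
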