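import Vale.Agent.P292.Mo.DefD

/-! # Part II.a: the tangent space of an ideal of polynomials at the origin -/

namespace Vale.Agent.P292.Mo

open TensorProduct MvPolynomial

section comm
variable {k : Type*} [Field k] {σ : Type*}

/-- polynomials without constant term -/
noncomputable abbrev m0 (k : Type*) [Field k] (σ : Type*) : Ideal (MvPolynomial σ k) :=
  RingHom.ker (MvPolynomial.constantCoeff (R := k) (σ := σ))

/-- the Zariski tangent space at the origin -/
noncomputable def tanJ [Fintype σ] (J : Ideal (MvPolynomial σ k)) : Submodule k (σ → k) where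
  carrier := {c | ∀ f ∈ J, ∑ s, c s * coeff (Finsupp.single s 1) f = 0}
  add_mem' := fun {a b} ha hb f hf => by
    simp only [Pi.add_apply, add_mul, Finset.sum_add_distrib]
    rw [ha f hf, hb f hf, add_zero]
  zero_mem' := fun f _ => by simp
  smul_mem' := fun a c hc f hf => by
    simp only [Pi.smul_apply, smul_eq_mul, mul_assoc]
    rw [← Finset.mul_sum, hc f hf, mul_zero]

theorem mem_tanJ [Fintype σ] {J : Ideal (MvPolynomial σ k)} {c : σ → k} :
    c ∈ tanJ J ↔ ∀ f ∈ J, ∑ s, c s * coeff (Finsupp.single s 1) f = 0 := Iff.rfl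

end comm

end Vale.Agent.P292.Mo
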