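import Mathlib

/-! # Rational curves of degree at most two on contact Fano manifolds: definitions. -/

namespace Vale.Agent.P292.Mo

open MvPolynomial

universe u v w

/-- `y` is not a vertex point: some homogeneous element of positive degree does not vanish. -/
def NV {k : Type u} [Field k] {R : Type v} [CommRing R] [Algebra k R] (𝒜 : ℕ → Submodule k R)
    {E : Type w} [CommRing E] [Algebra k E] (y : R →ₐ[k] E) : Prop :=
  ∃ n : ℕ, 0 < n ∧ ∃ r ∈ 𝒜 n, y r ≠ 0

/-- The matrix of brackets of a family. -/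
def brM {k : Type u} [Field k] {R : Type v} [CommRing R] [Algebra k R] (P : R →ₗ[k] R →ₗ[k] R)
    {N : ℕ} (x : Fin N → R) : Matrix (Fin N) (Fin N) R :=
  Matrix.of fun i j => P (x i) (x j)

/-- `x` is a homogeneous frame with denominator `g`. -/
structure IsFr {k : Type u} [Field k] {R : Type v} [CommRing R] [Algebra k R]
    (𝒜 : ℕ → Submodule k R) {N : ℕ} (x : Fin N → R) (d : Fin N → ℕ) (g : R) : Prop where
  hom : ∀ i, x i ∈ 𝒜 (d i)
  ghom : ∃ l, g ∈ 𝒜 l
  gen : ∀ r, ∃ c : Fin N → R, g • KaehlerDifferential.D k R r =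
    ∑ i, c i • KaehlerDifferential.D k R (x i)

/-- The graded Poisson algebras (of arbitrary characteristic) to which the construction of
rational curves applies. -/
structure IsPM {k : Type u} [Field k] {R : Type v} [CommRing R] [Algebra k R]
    (𝒜 : ℕ → Submodule k R) [GradedAlgebra 𝒜] (P : R →ₗ[k] R →ₗ[k] R) : Prop where
  finiteType : Algebra.FiniteType k R
  connected : ∀ r ∈ 𝒜 0, ∃ c : k, r = algebraMap k R c
  alternating : ∀ a, P a a = 0
  leibniz : ∀ a b c, P a (b * c) = P a b * c + b * P a c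
  degree : ∀ i j n, i + j = n + 1 → ∀ a ∈ 𝒜 i, ∀ b ∈ 𝒜 j, P a b ∈ 𝒜 n
  frame : ∀ y : R →ₐ[k] k, NV 𝒜 y → ∃ (N : ℕ) (x : Fin N → R) (d : Fin N → ℕ) (g : R),
    IsFr 𝒜 x d g ∧ y (g * (brM P x).det) ≠ 0
  smooth : ∀ n : ℕ, 0 < n → ∀ s ∈ 𝒜 n, Algebra.FormallySmooth k (Localization.Away s)
  lineBundle : ∀ y : R →ₐ[k] k, NV 𝒜 y → ∀ d : ℕ, (∀ n, ∀ r ∈ 𝒜 n, y r ≠ 0 → d ∣ n) → d = 1

/-- Graded Noether normalisation: `y` are algebraically independent, homogeneous of the same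
positive degree `e`, at least two of them, and `R` is generated by less than `p` elements as a
module over `k[y]`. -/
structure IsNoe {k : Type u} [Field k] {R : Type v} [CommRing R] [Algebra k R]
    (𝒜 : ℕ → Submodule k R) (p e : ℕ) {n : ℕ} (y : Fin n → R) : Prop where
  e_pos : 0 < e
  two_le : 2 ≤ n
  hom : ∀ i, y i ∈ 𝒜 e
  indep : AlgebraicIndependent k y
  gens : ∃ S : Finset R, S.card < p ∧
    Submodule.span (Algebra.adjoin k (Set.range y)) (S : Set R) = ⊤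

/-- A curve of degree one or two passes through `w`. -/
def Hit {k : Type u} [Field k] {R : Type v} [CommRing R] [Algebra k R]
    (𝒜 : ℕ → Submodule k R) (w : R →ₐ[k] k) : Prop :=
  ∃ e : ℕ, (e = 1 ∨ e = 2) ∧ ∃ ψ : R →ₐ[k] MvPolynomial (Fin 2) k,
    (∀ j, ∀ r ∈ 𝒜 j, (ψ r).IsHomogeneous (e * j)) ∧
    (∀ a : Fin 2 → k, a ≠ 0 → ∃ j > 0, ∃ r ∈ 𝒜 j, MvPolynomial.eval a (ψ r) ≠ 0) ∧
    ∀ r, MvPolynomial.eval ![1, 0] (ψ r) = w r

/-- Conclusion: a nonconstant graded homomorphism of degree two with value `w` at `(1, 0)`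
(base points are allowed). -/
def Concl {k : Type u} [Field k] {R : Type v} [CommRing R] [Algebra k R]
    (𝒜 : ℕ → Submodule k R) (w : R →ₐ[k] k) : Prop :=
  ∃ Θ : R →ₐ[k] MvPolynomial (Fin 2) k,
    (∀ n, ∀ r ∈ 𝒜 n, (Θ r).IsHomogeneous (2 * n)) ∧ (∀ r, eval ![1, 0] (Θ r) = w r) ∧
    ∃ i j, ∃ r ∈ 𝒜 i, ∃ s ∈ 𝒜 j, Θ r ^ j * C (w s ^ i) ≠ Θ s ^ i * C (w r ^ j)

/-! ## Curves, given by two subalgebras of their function field -/

section curve

variable {k : Type u} [Field k]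

/-- Two subspaces are commensurable. -/
def Comm {V : Type w} [AddCommGroup V] [Module k V] (U U' : Submodule k V) : Prop :=
  FiniteDimensional k (↥U ⧸ U'.comap U.subtype) ∧ FiniteDimensional k (↥U' ⧸ U.comap U'.subtype)

/-- The relative index `[U : U']` of commensurable subspaces. -/
noncomputable def relIdx {V : Type w} [AddCommGroup V] [Module k V] (U U' : Submodule k V) : ℤ :=
  (Module.finrank k (↥U ⧸ U'.comap U.subtype) : ℤ) - Module.finrank k (↥U' ⧸ U.comap U'.subtype)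

variable {K : Type w} [Field K] [Algebra k K]

/-- Sections of degree `n` of the line bundle with cocycle `u`, trivialised on the first chart. -/
def Sec (A₀ A₁ : Subalgebra k K) (u : K) (n : ℕ) : Submodule k K :=
  Subalgebra.toSubmodule A₀ ⊓ (Subalgebra.toSubmodule A₁).comap (LinearMap.mulLeft k (u ^ n))

theorem mem_Sec {A₀ A₁ : Subalgebra k K} {u : K} {n : ℕ} {a : K} :
    a ∈ Sec A₀ A₁ u n ↔ a ∈ A₀ ∧ u ^ n * a ∈ A₁ := Iff.rfl

/-- The index `[A₁ : x A₁]`, that is, the order of `x` along the points outside the first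
chart. -/
noncomputable def idx (A₁ : Subalgebra k K) (x : K) : ℤ :=
  relIdx (Subalgebra.toSubmodule A₁) ((Subalgebra.toSubmodule A₁).map (LinearMap.mulLeft k x))

/-- The Euler characteristic of the structure sheaf. -/
noncomputable def chi0 (A₀ A₁ : Subalgebra k K) : ℤ :=
  (Module.finrank k ↥(Subalgebra.toSubmodule A₀ ⊓ Subalgebra.toSubmodule A₁) : ℤ) -
    Module.finrank k (K ⧸ (Subalgebra.toSubmodule A₀ ⊔ Subalgebra.toSubmodule A₁))

/-- The two subalgebras are the functions on an affine open subset and the semilocal ring of its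
complement, for a projective curve with function field `K`. -/
structure IsCD (A₀ A₁ : Subalgebra k K) : Prop where
  fin0 : FiniteDimensional k ↥(Subalgebra.toSubmodule A₀ ⊓ Subalgebra.toSubmodule A₁)
  fin1 : FiniteDimensional k (K ⧸ (Subalgebra.toSubmodule A₀ ⊔ Subalgebra.toSubmodule A₁))
  finQ : ∀ a ∈ A₁, a ≠ 0 → FiniteDimensional k (↥(Subalgebra.toSubmodule A₁) ⧸
    ((Subalgebra.toSubmodule A₁).map (LinearMap.mulLeft k a)).comap
      (Subalgebra.toSubmodule A₁).subtype)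
  frac : ∀ x : K, ∃ a ∈ A₁, ∃ b ∈ A₁, b ≠ 0 ∧ x = a / b

/-- `φ` is a morphism from the curve to the projective variety of the graded algebra, and `u` is
the cocycle of the pull back of the line bundle, trivialised on both charts. -/
structure IsMp {R : Type v} [CommRing R] [Algebra k R] (𝒜 : ℕ → Submodule k R)
    (A₀ A₁ : Subalgebra k K) (u : K) (φ : R →ₐ[k] K) : Prop where
  u_ne : u ≠ 0
  sec : ∀ n, ∀ r ∈ 𝒜 n, φ r ∈ Sec A₀ A₁ u n
  unit0 : ∃ n : ℕ, 0 < n ∧ ∃ r ∈ 𝒜 n, φ r ≠ 0 ∧ (φ r)⁻¹ ∈ A₀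
  unit1 : ∃ n : ℕ, 0 < n ∧ ∃ r ∈ 𝒜 n, φ r ≠ 0 ∧ (u ^ n * φ r)⁻¹ ∈ A₁

/-- A homogeneous frame which is nondegenerate on the first chart. -/
structure IsFr0 {R : Type v} [CommRing R] [Algebra k R] (𝒜 : ℕ → Submodule k R)
    (P : R →ₗ[k] R →ₗ[k] R) (A₀ : Subalgebra k K) (φ : R →ₐ[k] K) {N : ℕ} (x : Fin N → R)
    (d : Fin N → ℕ) (g : R) : Prop where
  fr : IsFr 𝒜 x d g
  g_ne : φ g ≠ 0
  det_ne : φ (brM P x).det ≠ 0
  unit : (φ (brM P x).det)⁻¹ ∈ A₀

/-- A homogeneous frame which is nondegenerate on the second chart. -/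
structure IsFr1 {R : Type v} [CommRing R] [Algebra k R] (𝒜 : ℕ → Submodule k R)
    (P : R →ₗ[k] R →ₗ[k] R) (A₁ : Subalgebra k K) (u : K) (φ : R →ₐ[k] K) {N : ℕ} (x : Fin N → R)
    (d : Fin N → ℕ) (g : R) : Prop where
  fr : IsFr 𝒜 x d g
  g_ne : φ g ≠ 0
  det_ne : φ (brM P x).det ≠ 0
  unit : (u ^ ((2 : ℤ) * (∑ i, (d i : ℤ)) - N) * φ (brM P x).det)⁻¹ ∈ A₁

/-- Everything that is used about the curve `φ` in characteristic `p`. -/
structure IsGC {R : Type v} [CommRing R] [Algebra k R] (𝒜 : ℕ → Submodule k R)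
    (P : R →ₗ[k] R →ₗ[k] R) (A₀ A₁ : Subalgebra k K) (u : K) (φ : R →ₐ[k] K) (f : R) : Prop where
  cd : IsCD A₀ A₁
  mp : IsMp 𝒜 A₀ A₁ u φ
  idx_pos : 0 < idx A₁ u
  P1 : ∀ V : ValuationSubring K, (∀ c : k, algebraMap k K c ∈ V) →
    (∀ a ∈ A₀, a ∈ V) ∨ (∀ a ∈ A₁, a ∈ V)
  P2 : ∀ 𝔭 : Ideal A₀, 𝔭.IsPrime → 𝔭 ≠ ⊥ → Function.Surjective (algebraMap k (A₀ ⧸ 𝔭))
  frames : ∃ N : ℕ, 0 < N ∧ ∃ (x : Fin N → R) (d : Fin N → ℕ) (g : R) (x' : Fin N → R)
    (d' : Fin N → ℕ) (g' : R), IsFr0 𝒜 P A₀ φ x d g ∧ IsFr1 𝒜 P A₁ u φ x' d' g'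
  exp : ∀ c : A₀ →ₐ[k] k, ∃ ex : A₀ →ₐ[k] PowerSeries k, Function.Injective ex ∧
    (∀ a, PowerSeries.constantCoeff (ex a) = c a) ∧
    ∀ (n : ℕ) (s : PowerSeries k), ∃ a, PowerSeries.X ^ n ∣ ex a - s
  inf : {c : A₀ →ₐ[k] k | ∀ h : φ f ∈ A₀, c ⟨φ f, h⟩ ≠ 0}.Infinite
  frac0 : ∀ x : K, ∃ a ∈ A₀, ∃ b ∈ A₀, b ≠ 0 ∧ x = a / b

/-! ### The concrete curve over the line with coordinate `t` -/

/-- `k[t, 1/g(t)]`. -/
noncomputable def B0 (t : K) (g : Polynomial k) : Subalgebra k K :=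
  Algebra.adjoin k {t, (Polynomial.aeval t g)⁻¹}

/-- Rational functions of `t`, regular at infinity and at the roots of `g`. -/
noncomputable def B1 (t : K) (g : Polynomial k) : Subalgebra k K where
  carrier := {x | ∃ a b : Polynomial k, Polynomial.aeval t b ≠ 0 ∧ IsCoprime b g ∧
    a.natDegree ≤ b.natDegree ∧ x = Polynomial.aeval t a / Polynomial.aeval t b}
  mul_mem' := by
    rintro _ _ ⟨a, b, hb, hc, hd, rfl⟩ ⟨a', b', hb', hc', hd', rfl⟩
    have h0 : b ≠ 0 := fun h => hb (by rw [h, map_zero])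
    have h0' : b' ≠ 0 := fun h => hb' (by rw [h, map_zero])
    refine ⟨a * a', b * b', by rw [map_mul]; exact mul_ne_zero hb hb', hc.mul_left hc', ?_, ?_⟩
    · rw [Polynomial.natDegree_mul h0 h0']
      exact (Polynomial.natDegree_mul_le).trans (add_le_add hd hd')
    · rw [map_mul, map_mul, div_mul_div_comm]
  add_mem' := by
    rintro _ _ ⟨a, b, hb, hc, hd, rfl⟩ ⟨a', b', hb', hc', hd', rfl⟩
    have h0 : b ≠ 0 := fun h => hb (by rw [h, map_zero])
    have h0' : b' ≠ 0 := fun h => hb' (by rw [h, map_zero])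
    refine ⟨a * b' + b * a', b * b', by rw [map_mul]; exact mul_ne_zero hb hb',
      hc.mul_left hc', ?_, ?_⟩
    · rw [Polynomial.natDegree_mul h0 h0']
      refine (Polynomial.natDegree_add_le _ _).trans (max_le ?_ ?_)
      · exact (Polynomial.natDegree_mul_le).trans (add_le_add hd le_rfl)
      · exact (Polynomial.natDegree_mul_le).trans (add_le_add le_rfl hd')
    · rw [map_mul, map_add, map_mul, map_mul, div_add_div _ _ hb hb']
  algebraMap_mem' := fun c => ⟨Polynomial.C c, 1, by rw [map_one]; exact one_ne_zero,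
    isCoprime_one_left, by rw [Polynomial.natDegree_C]; exact Nat.zero_le _, by
      rw [Polynomial.aeval_C, map_one, div_one]⟩

/-- Integral closure in `K`, as a `k`-subalgebra. -/
noncomputable def IC (B : Subalgebra k K) : Subalgebra k K :=
  (integralClosure B K).restrictScalars k

/-- The choice of a curve: its function field is finite over `k(t)`. -/
structure IsFF {R : Type v} [CommRing R] [Algebra k R] {n : ℕ} (e : ℕ) (y : Fin n → R)
    (t : K) (φ : R →ₐ[k] K) (a b : Fin n → k) : Prop where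
  transc : Transcendental k t
  fin : FiniteDimensional (IntermediateField.adjoin k {t}) K
  val : ∀ i, φ (y i) = algebraMap k K (a i) + algebraMap k K (b i) * t ^ e
  li : LinearIndependent k ![a, b]

/-- The point `y` has a frame with `N` elements. -/
def HasRk {R : Type v} [CommRing R] [Algebra k R] (𝒜 : ℕ → Submodule k R)
    (P : R →ₗ[k] R →ₗ[k] R) (y : R →ₐ[k] k) (N : ℕ) : Prop :=
  ∃ (x : Fin N → R) (d : Fin N → ℕ) (g : R), IsFr 𝒜 x d g ∧ y (g * (brM P x).det) ≠ 0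

end curve

end Vale.Agent.P292.Mo
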