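import Vale.Agent.P292.Mo.Defs

/-! # The determinant of a homogeneous frame is homogeneous -/

namespace Vale.Agent.P292.Mo

universe u v w

/-! ### the determinant of a frame is homogeneous -/

section det
variable {k : Type u} [Field k] {R : Type v} [CommRing R] [Algebra k R] {𝒜 : ℕ → Submodule k R}
  [GradedAlgebra 𝒜] {P : R →ₗ[k] R →ₗ[k] R}

theorem ec_one (hP : IsPM 𝒜 P) (a : R) : P a 1 = 0 := by
  have h := hP.leibniz a 1 1
  rw [mul_one, mul_one, one_mul] at h
  exact left_eq_add.1 h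

theorem ec_skew (hP : IsPM 𝒜 P) (a b : R) : P a b = -P b a := by
  have h := hP.alternating (a + b)
  simp only [map_add, LinearMap.add_apply] at h
  rw [hP.alternating, hP.alternating, zero_add, add_zero] at h
  exact eq_neg_of_add_eq_zero_right h

theorem ec_const (hP : IsPM 𝒜 P) (c : k) (b : R) : P (algebraMap k R c) b = 0 := by
  rw [Algebra.algebraMap_eq_smul_one, map_smul, LinearMap.smul_apply, ec_skew hP, ec_one hP,
    neg_zero, smul_zero]

theorem ec_prod (hP : IsPM 𝒜 P) {N : ℕ} {x : Fin N → R} {d : Fin N → ℕ}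
    (hx : ∀ i, x i ∈ 𝒜 (d i)) (σ : Equiv.Perm (Fin N)) :
    ∏ i, brM P x (σ i) i ∈ 𝒜 (2 * ∑ i, d i - N) ∧
      (∏ i, brM P x (σ i) i ≠ 0 → N ≤ 2 * ∑ i, d i) := by
  by_cases h : ∃ i, d (σ i) + d i = 0
  · obtain ⟨i, hi⟩ := h
    have h1 : brM P x (σ i) i = 0 := by
      have h2 : x (σ i) ∈ 𝒜 0 := by
        have := hx (σ i)
        rwa [(by omega : d (σ i) = 0)] at this
      obtain ⟨c, hc⟩ := hP.connected _ h2
      show P (x (σ i)) (x i) = 0
      rw [hc]
      exact ec_const hP c _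
    have h3 : ∏ i, brM P x (σ i) i = 0 := Finset.prod_eq_zero (Finset.mem_univ i) h1
    rw [h3]
    exact ⟨Submodule.zero_mem _, fun h => absurd rfl h⟩
  · push Not at h
    have h1 : ∀ i, brM P x (σ i) i ∈ 𝒜 (d (σ i) + d i - 1) := fun i =>
      hP.degree (d (σ i)) (d i) _ (by have := h i; omega) _ (hx _) _ (hx _)
    have h2 : (∑ i, (d (σ i) + d i - 1)) + N = 2 * ∑ i, d i := by
      have e1 : ∑ i : Fin N, (1 : ℕ) = N := by simp
      have e2 : ∑ i, d (σ i) = ∑ i, d i := Equiv.sum_comp σ d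
      calc (∑ i, (d (σ i) + d i - 1)) + N = (∑ i, (d (σ i) + d i - 1)) + ∑ i : Fin N, 1 := by
            rw [e1]
        _ = ∑ i, ((d (σ i) + d i - 1) + 1) := by rw [Finset.sum_add_distrib]
        _ = ∑ i, (d (σ i) + d i) := Finset.sum_congr rfl fun i _ => by have := h i; omega
        _ = 2 * ∑ i, d i := by rw [Finset.sum_add_distrib, e2, two_mul]
    have h3 : ∑ i, (d (σ i) + d i - 1) = 2 * ∑ i, d i - N := by omega
    refine ⟨?_, fun _ => by omega⟩
    rw [← h3]
    exact SetLike.prod_mem_graded 𝒜 (fun i => d (σ i) + d i - 1) _ fun i _ => h1 i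

theorem ec_det (hP : IsPM 𝒜 P) {N : ℕ} {x : Fin N → R} {d : Fin N → ℕ}
    (hx : ∀ i, x i ∈ 𝒜 (d i)) :
    (brM P x).det ∈ 𝒜 (2 * ∑ i, d i - N) ∧ ((brM P x).det ≠ 0 → N ≤ 2 * ∑ i, d i) := by
  rw [Matrix.det_apply]
  constructor
  · refine Submodule.sum_mem _ fun σ _ => ?_
    have h := (ec_prod hP hx σ).1
    rcases Int.units_eq_one_or (Equiv.Perm.sign σ) with h1 | h1
    · rw [h1, one_smul]
      exact h
    · rw [h1, Units.neg_smul, one_smul]
      exact Submodule.neg_mem _ h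
  · intro h
    obtain ⟨σ, -, hσ⟩ := Finset.exists_ne_zero_of_sum_ne_zero h
    refine (ec_prod hP hx σ).2 fun h1 => hσ ?_
    rw [h1, smul_zero]

end det

end Vale.Agent.P292.Mo
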