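import Mathlib
import Vale.Agent.P292.Mo.Defs

/-! # Homogeneous integral equations over a graded Noether normalisation. -/

namespace Vale.Agent.P292.Mo

open MvPolynomial

universe u v w

variable {k : Type u} [Field k] {K : Type w} [Field K] [Algebra k K]

/-- the homogeneous components of polynomial expressions in elements of the same degree -/
theorem exists_comp {R : Type v} [CommRing R] [Algebra k R] {𝒜 : ℕ → Submodule k R}
    [GradedAlgebra 𝒜] {e n : ℕ} {y : Fin n → R} (hy : ∀ i, y i ∈ 𝒜 e)
    (P : MvPolynomial (Fin n) k) (N : ℕ) :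
    ∃ P' : MvPolynomial (Fin n) k, ((∀ s ∈ P'.support, e * (∑ i ∈ s.support, s i) ≤ N)) ∧
      (DirectSum.decompose 𝒜 (aeval y P) N : R) = aeval y P' := by
  classical
  induction P using MvPolynomial.induction_on' with
  | monomial s c =>
    have hmem : aeval y (monomial s c) ∈ 𝒜 (e * (∑ i ∈ s.support, s i)) := by
      rw [aeval_monomial, ← Algebra.smul_def]
      refine Submodule.smul_mem _ _ ?_
      have h1 : (s.prod fun i k => y i ^ k) ∈ 𝒜 (∑ i ∈ s.support, s i • e) :=
        SetLike.prod_mem_graded _ _ _ fun i _ => SetLike.pow_mem_graded _ (hy i)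
      have h2 : ∑ i ∈ s.support, s i • e = e * (∑ i ∈ s.support, s i) := by
        rw [Finset.mul_sum]
        exact Finset.sum_congr rfl fun i _ => by rw [smul_eq_mul, mul_comm]
      rwa [h2] at h1
    by_cases hN : e * (∑ i ∈ s.support, s i) = N
    · refine ⟨monomial s c, ?_, ?_⟩
      · intro t ht
        have h3 := MvPolynomial.support_monomial_subset ht
        rw [Finset.mem_singleton] at h3
        rw [h3, hN]
      · rw [← hN]
        exact DirectSum.decompose_of_mem_same 𝒜 hmem
    · refine ⟨0, by simp, ?_⟩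
      rw [map_zero]
      exact DirectSum.decompose_of_mem_ne 𝒜 hmem hN
  | add P Q hP hQ =>
    obtain ⟨P', h1, h2⟩ := hP
    obtain ⟨Q', h3, h4⟩ := hQ
    refine ⟨P' + Q', ?_, ?_⟩
    · intro s hs
      rcases Finset.mem_union.1 (MvPolynomial.support_add hs) with h | h
      · exact h1 s h
      · exact h3 s h
    · have h5 := map_add (GradedAlgebra.proj 𝒜 N) (aeval y P) (aeval y Q)
      simp only [GradedAlgebra.proj_apply] at h5
      rw [map_add, map_add (aeval y) P' Q', h5, h2, h4]

/-- degree of the restriction to a curve. -/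
theorem natDegree_comp {n e N : ℕ} (P : MvPolynomial (Fin n) k)
    (hP : ∀ s ∈ P.support, e * (∑ i ∈ s.support, s i) ≤ N) (f : Fin n → Polynomial k)
    (hf : ∀ i, (f i).natDegree ≤ e) : (aeval f P).natDegree ≤ N := by
  classical
  rw [aeval_def, eval₂_eq]
  refine Polynomial.natDegree_sum_le_of_forall_le _ _ fun s hs => ?_
  refine (Polynomial.natDegree_mul_le).trans ?_
  have h1 : (algebraMap k (Polynomial k) (coeff s P)).natDegree = 0 :=
    Polynomial.natDegree_C _
  rw [h1, zero_add]
  refine (Polynomial.natDegree_prod_le _ _).trans ((Finset.sum_le_sum (g := fun i => s i * e)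
    fun i _ => Polynomial.natDegree_pow_le.trans (Nat.mul_le_mul_left _ (hf i))).trans ?_)
  refine le_trans (le_of_eq ?_) (hP s hs)
  rw [Finset.mul_sum]
  exact Finset.sum_congr rfl fun i _ => by rw [mul_comm]

/-- F2: integral equations with control of the degrees in `t`. -/
theorem exists_equation {R : Type v} [CommRing R] [Algebra k R] {𝒜 : ℕ → Submodule k R}
    [GradedAlgebra 𝒜] {p e n : ℕ} {y : Fin n → R} (hN : IsNoe 𝒜 p e y) {t : K}
    {φ : R →ₐ[k] K} {a b : Fin n → k} (h : IsFF e y t φ a b) {j : ℕ} {r : R} (hr : r ∈ 𝒜 j) :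
    ∃ (m : ℕ) (c : ℕ → Polynomial k), (∀ i, (c i).natDegree ≤ j * i) ∧
      φ r ^ m + ∑ i ∈ Finset.range m, Polynomial.aeval t (c (i + 1)) * φ r ^ (m - (i + 1)) = 0 := by
  classical
  -- the integral equation
  obtain ⟨S, -, hS⟩ := hN.gens
  have hfin : Module.Finite (Algebra.adjoin k (Set.range y)) R := ⟨⟨S, hS⟩⟩
  obtain ⟨q, hq, hqr⟩ : IsIntegral (Algebra.adjoin k (Set.range y)) r :=
    Algebra.IsIntegral.isIntegral r
  have hlift : ∀ i, ∃ P : MvPolynomial (Fin n) k, aeval y P = (q.coeff i : R) := by
    intro i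
    have h1 : ∀ x : R, x ∈ Algebra.adjoin k (Set.range y) → ∃ P : MvPolynomial (Fin n) k,
        aeval y P = x := by
      intro x hx
      rw [Algebra.adjoin_range_eq_range_aeval] at hx
      exact hx
    exact h1 _ (q.coeff i).2
  choose P hP using hlift
  set m := q.natDegree with hm
  have heq : r ^ m + ∑ i ∈ Finset.range m, aeval y (P (m - (i + 1))) * r ^ (m - (i + 1)) = 0 := by
    have h1 : Polynomial.eval₂ (algebraMap (Algebra.adjoin k (Set.range y)) R) r q = 0 := hqr
    rw [Polynomial.eval₂_eq_sum_range, Finset.sum_range_succ, ← hm] at h1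
    have h2 : q.coeff m = 1 := hq.coeff_natDegree
    rw [h2, map_one, one_mul, add_comm, ← Finset.sum_range_reflect] at h1
    rw [← h1]
    congr 1
    refine Finset.sum_congr rfl fun i hi => ?_
    have hi' := Finset.mem_range.1 hi
    rw [hP, show m - 1 - i = m - (i + 1) by omega]
    rfl
  -- the homogeneous component of degree `j m`
  choose P' hP' hPc using fun i => exists_comp hN.hom (P (m - i)) (j * i)
  have hr' : ∀ l, r ^ l ∈ 𝒜 (j * l) := by
    intro l
    have := SetLike.pow_mem_graded l hr
    rwa [smul_eq_mul, mul_comm] at this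
  have hhom : r ^ m + ∑ i ∈ Finset.range m, aeval y (P' (i + 1)) * r ^ (m - (i + 1)) = 0 := by
    have h1 := congrArg (GradedAlgebra.proj 𝒜 (j * m)) heq
    rw [map_add, map_sum, map_zero] at h1
    simp only [GradedAlgebra.proj_apply] at h1
    rw [DirectSum.decompose_of_mem_same 𝒜 (hr' m)] at h1
    rw [← h1]
    congr 1
    refine Finset.sum_congr rfl fun i hi => ?_
    have hi' := Finset.mem_range.1 hi
    have h2 : j * m = j * (i + 1) + j * (m - (i + 1)) := by
      rw [← Nat.mul_add]; congr 1; omega
    rw [h2, DirectSum.coe_decompose_mul_add_of_right_mem 𝒜 (hr' _), hPc]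
  -- the curve
  set f : Fin n → Polynomial k := fun i => Polynomial.C (a i) + Polynomial.C (b i) *
    Polynomial.X ^ e with hf
  have hfd : ∀ i, (f i).natDegree ≤ e := by
    intro i
    refine (Polynomial.natDegree_add_le _ _).trans (max_le ?_ ?_)
    · rw [Polynomial.natDegree_C]; exact Nat.zero_le _
    · exact Polynomial.natDegree_C_mul_X_pow_le _ _
  have hφ : ∀ Q : MvPolynomial (Fin n) k, φ (aeval y Q) = Polynomial.aeval t (aeval f Q) := by
    intro Q
    have h1 : φ.comp (aeval y) = (Polynomial.aeval t).comp (aeval f) := by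
      refine MvPolynomial.algHom_ext fun i => ?_
      rw [AlgHom.comp_apply, AlgHom.comp_apply, aeval_X, aeval_X, h.val, hf]
      simp
    exact DFunLike.congr_fun h1 Q
  refine ⟨m, fun i => aeval f (P' i), fun i => natDegree_comp _ (hP' i) f hfd, ?_⟩
  have h1 := congrArg φ hhom
  rw [map_add, map_sum, map_zero, map_pow] at h1
  rw [← h1]
  congr 1
  refine Finset.sum_congr rfl fun i _ => ?_
  rw [map_mul, map_pow, hφ]

end Vale.Agent.P292.Mo
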