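import Vale.Agent.P292.Mo.Defs

/-! # F1: choice of the function field of the curve. -/

namespace Vale.Agent.P292.Mo

open MvPolynomial

universe u v w

section F
variable {k : Type u} [Field k]

/-- Linearly independent `a`, `b` with `G(a) ≠ 0`. -/
theorem exists_ff_line [Infinite k] {n : ℕ} (hn : 2 ≤ n) {G : MvPolynomial (Fin n) k}
    (hG : G ≠ 0) :
    ∃ a b : Fin n → k, LinearIndependent k ![a, b] ∧ MvPolynomial.eval a G ≠ 0 := by
  have h0 : G * X (⟨0, by omega⟩ : Fin n) ≠ 0 := mul_ne_zero hG (X_ne_zero _)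
  obtain ⟨a, ha⟩ : ∃ a, MvPolynomial.eval a (G * X (⟨0, by omega⟩ : Fin n)) ≠ 0 := by
    by_contra h
    push Not at h
    exact h0 (MvPolynomial.funext fun a => (h a).trans (map_zero _).symm)
  rw [map_mul, eval_X] at ha
  refine ⟨a, Pi.single ⟨1, by omega⟩ 1, ?_, left_ne_zero_of_mul ha⟩
  rw [LinearIndependent.pair_iff]
  intro s t hst
  have h1 := congrFun hst ⟨0, by omega⟩
  have h2 := congrFun hst ⟨1, by omega⟩
  simp only [Pi.add_apply, Pi.smul_apply, smul_eq_mul, Pi.zero_apply] at h1 h2
  rw [Pi.single_eq_of_ne (by simp), mul_zero, add_zero] at h1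
  have hs : s = 0 := (mul_eq_zero.1 h1).resolve_right (right_ne_zero_of_mul ha)
  rw [hs, zero_mul, zero_add, Pi.single_eq_same, mul_one] at h2
  exact ⟨hs, h2⟩

attribute [local instance] Polynomial.algebra in
/-- Extension of a homomorphism to the polynomial ring. -/
theorem exists_ff_ext {R : Type v} [CommRing R] [Algebra k R] (B : Subalgebra k R)
    [Algebra.IsIntegral B R] (σ : B →ₐ[k] Polynomial k) :
    ∃ (D : Type v) (_ : CommRing D) (_ : IsDomain D) (_ : Algebra k D) (t : D)
      (φ : R →ₐ[k] D), Transcendental k t ∧ (∀ b : B, φ b = Polynomial.aeval t (σ b)) ∧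
      ∀ d : D, ∃ g : Polynomial R, d = g.sum fun i r => φ r * t ^ i := by
  let Ψ : Polynomial B →+* Polynomial k :=
    Polynomial.eval₂RingHom (σ : B →+* Polynomial k) Polynomial.X
  have hprime : (RingHom.ker Ψ).IsPrime := RingHom.ker_isPrime Ψ
  have hinj : Function.Injective (algebraMap (Polynomial B) (Polynomial R)) :=
    Polynomial.map_injective _ Subtype.val_injective
  obtain ⟨P, -, hP, hPc⟩ := Ideal.exists_ideal_over_prime_of_isIntegral
    (RingHom.ker Ψ) (⊥ : Ideal (Polynomial R)) (by
      intro x hx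
      have hx' : algebraMap (Polynomial B) (Polynomial R) x = 0 := hx
      have : x = 0 := hinj (by rw [hx', map_zero])
      rw [this]
      exact Ideal.zero_mem _)
  have hmem : ∀ x : Polynomial B, Ψ x = 0 → x.map (algebraMap B R) ∈ P := by
    intro x hx
    have h1 : x ∈ P.comap (algebraMap (Polynomial B) (Polynomial R)) := by
      rw [hPc]; exact hx
    exact h1
  have hmem' : ∀ x : Polynomial B, x.map (algebraMap B R) ∈ P → Ψ x = 0 := by
    intro x hx
    have h1 : x ∈ P.comap (algebraMap (Polynomial B) (Polynomial R)) := hx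
    rw [hPc] at h1
    exact h1
  have hΨ : ∀ g : Polynomial k, Ψ (g.map (algebraMap k B)) = g := by
    intro g
    show Polynomial.eval₂ (σ : B →+* Polynomial k) Polynomial.X (g.map (algebraMap k B)) = g
    rw [Polynomial.eval₂_map]
    have h1 : (σ : B →+* Polynomial k).comp (algebraMap k B) = Polynomial.C := by
      ext c
      simp
    rw [h1, Polynomial.eval₂_C_X]
  have hmap : ∀ g : Polynomial k, (g.map (algebraMap k B)).map (algebraMap B R) =
      g.map (algebraMap k R) := by
    intro g
    rw [Polynomial.map_map]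
    rfl
  let mk : Polynomial R →ₐ[k] (Polynomial R ⧸ P) := Ideal.Quotient.mkₐ k P
  have haev : ∀ g : Polynomial k, Polynomial.aeval (mk Polynomial.X) g =
      mk (g.map (algebraMap k R)) := by
    intro g
    rw [Polynomial.aeval_algHom_apply, ← Polynomial.aeval_map_algebraMap R,
      Polynomial.aeval_X_left_apply]
  have hz : ∀ x : Polynomial R, mk x = 0 ↔ x ∈ P := fun x => Ideal.Quotient.eq_zero_iff_mem
  refine ⟨Polynomial R ⧸ P, inferInstance, Ideal.Quotient.isDomain P, inferInstance,
    mk Polynomial.X, mk.comp Polynomial.CAlgHom, ?_, ?_, ?_⟩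
  · rw [transcendental_iff]
    intro g hg
    rw [haev, hz, ← hmap] at hg
    have h1 := hmem' _ hg
    rwa [hΨ] at h1
  · intro b
    rw [haev]
    have h1 : Ψ (Polynomial.C b - (σ b).map (algebraMap k B)) = 0 := by
      rw [map_sub, hΨ]
      show Polynomial.eval₂ (σ : B →+* Polynomial k) Polynomial.X (Polynomial.C b) - σ b = 0
      rw [Polynomial.eval₂_C]
      exact sub_self _
    have h2 := hmem _ h1
    rw [Polynomial.map_sub, Polynomial.map_C, hmap] at h2
    have h3 := (hz _).2 h2
    rw [map_sub, sub_eq_zero] at h3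
    exact h3
  · intro d
    obtain ⟨g, hg⟩ := Ideal.Quotient.mk_surjective d
    refine ⟨g, ?_⟩
    have h1 : mk g = d := hg
    rw [← h1]
    conv_lhs => rw [← Polynomial.sum_C_mul_X_pow_eq g]
    rw [Polynomial.sum_def, Polynomial.sum_def, map_sum]
    refine Finset.sum_congr rfl fun i _ => ?_
    rw [map_mul, map_pow]
    rfl

/-- F1: choice of the function field. -/
theorem exists_ff {R : Type v} [CommRing R] [Algebra k R] {𝒜 : ℕ → Submodule k R}
    [GradedAlgebra 𝒜] [IsAlgClosed k] {p e n : ℕ} {y : Fin n → R} (hN : IsNoe 𝒜 p e y) (f : R)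
    (hf : ∃ h : R, ∃ G : MvPolynomial (Fin n) k, G ≠ 0 ∧ f * h = aeval y G) :
    ∃ (K : Type v) (_ : Field K) (_ : Algebra k K) (t : K) (φ : R →ₐ[k] K) (a b : Fin n → k),
      IsFF e y t φ a b ∧ Module.finrank (IntermediateField.adjoin k {t}) K < p ∧ φ f ≠ 0 := by
  classical
  obtain ⟨h, G, hG, hfh⟩ := hf
  have : Infinite k := IsAlgClosed.instInfinite
  obtain ⟨a, b, hab, hGa⟩ := exists_ff_line hN.two_le hG
  obtain ⟨S, hSp, hS⟩ := hN.gens
  -- the subalgebra generated by `y`
  let B : Subalgebra k R := Algebra.adjoin k (Set.range y)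
  have hBfin : Module.Finite B R := ⟨⟨S, hS⟩⟩
  -- the homomorphism to the polynomial ring
  let E : MvPolynomial (Fin n) k ≃ₐ[k] B := hN.indep.aevalEquiv
  have hE : ∀ G, (E G : R) = aeval y G := fun G => hN.indep.algebraMap_aevalEquiv G
  let τ : MvPolynomial (Fin n) k →ₐ[k] Polynomial k :=
    aeval fun i => Polynomial.C (a i) + Polynomial.C (b i) * Polynomial.X ^ e
  let σ : B →ₐ[k] Polynomial k := τ.comp E.symm.toAlgHom
  have hσ : ∀ G, σ (E G) = τ G := fun G => by
    show τ (E.symm (E G)) = τ G
    rw [AlgEquiv.symm_apply_apply]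
  obtain ⟨D, _, _, _, t, φ, ht, hφB, hgen⟩ := exists_ff_ext B σ
  let K := FractionRing D
  let ι : D →ₐ[k] K := Algebra.algHom k D K
  have hι : Function.Injective ι := IsFractionRing.injective D K
  let φ' : R →ₐ[k] K := ι.comp φ
  have ht' : Transcendental k (ι t) := by
    rw [transcendental_iff] at ht ⊢
    intro g hg
    apply ht
    rw [Polynomial.aeval_algHom_apply] at hg
    exact hι (by rw [hg, map_zero])
  have hφB' : ∀ b : B, φ' b = Polynomial.aeval (ι t) (σ b) := by
    intro b
    show ι (φ b) = _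
    rw [hφB, Polynomial.aeval_algHom_apply]
  have hval : ∀ G, φ' (aeval y G) = Polynomial.aeval (ι t) (τ G) := by
    intro G
    rw [← hE, hφB', hσ]
  let F := IntermediateField.adjoin k {ι t}
  have htF : ι t ∈ F := IntermediateField.mem_adjoin_simple_self k _
  have hpF : ∀ g : Polynomial k, Polynomial.aeval (ι t) g ∈ F := by
    intro g
    have h1 : Algebra.adjoin k {ι t} ≤ F.toSubalgebra :=
      Algebra.adjoin_le (Set.singleton_subset_iff.2 htF)
    exact h1 (Polynomial.aeval_mem_adjoin_singleton k (ι t))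
  -- the span of the images of the generators
  let W : Submodule F K := Submodule.span F ((S.image φ' : Finset K) : Set K)
  have hW : ∀ r, φ' r ∈ W := by
    intro r
    have hr : r ∈ Submodule.span B (S : Set R) := by
      rw [show Submodule.span B (S : Set R) = ⊤ from hS]
      trivial
    induction hr using Submodule.span_induction with
    | mem x hx => exact Submodule.subset_span (by
        rw [Finset.coe_image]; exact Set.mem_image_of_mem _ hx)
    | zero => rw [map_zero]; exact W.zero_mem
    | add x y _ _ hx hy => rw [map_add]; exact W.add_mem hx hy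
    | smul c x _ hx =>
      have h1 : φ' (c • x) = (⟨Polynomial.aeval (ι t) (σ c), hpF _⟩ : F) • φ' x := by
        rw [Algebra.smul_def, map_mul]
        show φ' (c : R) * φ' x = _
        rw [hφB']
        rfl
      rw [h1]
      exact W.smul_mem _ hx
  let A : Subalgebra F K := Algebra.adjoin F (Set.range φ')
  have hAW : Subalgebra.toSubmodule A ≤ W := by
    show Subalgebra.toSubmodule (Algebra.adjoin F (Set.range φ')) ≤ W
    rw [Algebra.adjoin_eq_span]
    rw [Submodule.span_le]
    intro x hx
    have h1 : Submonoid.closure (Set.range φ') ≤ MonoidHom.mrange (φ' : R →* K) := by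
      rw [Submonoid.closure_le]
      rintro _ ⟨r, rfl⟩
      exact ⟨r, rfl⟩
    obtain ⟨r, rfl⟩ := h1 hx
    exact hW r
  have hWfin : FiniteDimensional F W := FiniteDimensional.span_finset F _
  have hAfin : FiniteDimensional F (Subalgebra.toSubmodule A) :=
    Submodule.finiteDimensional_of_le hAW
  have hAfin' : FiniteDimensional F A := hAfin
  have hDA : ∀ d : D, ι d ∈ A := by
    intro d
    obtain ⟨g, rfl⟩ := hgen d
    rw [Polynomial.sum_def, map_sum]
    refine A.sum_mem fun i _ => ?_
    rw [map_mul, map_pow]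
    refine A.mul_mem (Algebra.subset_adjoin ⟨_, rfl⟩) (A.pow_mem ?_ _)
    exact A.algebraMap_mem ⟨ι t, htF⟩
  have hinv : ∀ x ∈ A, x⁻¹ ∈ A := by
    intro x hx
    have h1 : IsAlgebraic F (⟨x, hx⟩ : A) := Algebra.IsAlgebraic.isAlgebraic _
    exact A.inv_mem_of_algebraic (x := ⟨x, hx⟩) (h1.algHom A.val)
  have htop : W = ⊤ := by
    rw [eq_top_iff]
    intro x _
    refine hAW ?_
    obtain ⟨d₁, d₂, -, rfl⟩ := IsFractionRing.div_surjective (A := D) x
    show algebraMap D K d₁ / algebraMap D K d₂ ∈ A
    rw [div_eq_mul_inv]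
    exact A.mul_mem (hDA d₁) (hinv _ (hDA d₂))
  refine ⟨K, inferInstance, inferInstance, ι t, φ', a, b, ⟨ht', ?_, ?_, hab⟩, ?_, ?_⟩
  · exact Module.finite_def.2 (by
      rw [← htop]
      exact ⟨S.image φ', rfl⟩)
  · intro i
    have h1 := hval (X i)
    rw [aeval_X] at h1
    rw [h1]
    show Polynomial.aeval (ι t) (aeval _ (X i)) = _
    rw [aeval_X, map_add, map_mul, map_pow, Polynomial.aeval_C, Polynomial.aeval_C,
      Polynomial.aeval_X]
  · calc Module.finrank F K = Module.finrank F (⊤ : Submodule F K) :=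
          (_root_.finrank_top F K).symm
      _ = Module.finrank F W := by rw [htop]
      _ ≤ (S.image φ').card := finrank_span_finset_le_card _
      _ ≤ S.card := Finset.card_image_le
      _ < p := hSp
  · intro h0
    have h1 : φ' (f * h) = 0 := by rw [map_mul, h0, zero_mul]
    rw [hfh, hval] at h1
    rw [transcendental_iff] at ht'
    have h2 := ht' _ h1
    apply hGa
    have h3 : Polynomial.aeval (0 : k) (τ G) = MvPolynomial.eval a G := by
      show Polynomial.aeval (0 : k) (aeval _ G) = _
      rw [← AlgHom.comp_apply, MvPolynomial.comp_aeval]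
      have h4 : (fun i => Polynomial.aeval (0 : k)
          (Polynomial.C (a i) + Polynomial.C (b i) * Polynomial.X ^ e)) = a := by
        funext i
        rw [map_add, map_mul, map_pow, Polynomial.aeval_C, Polynomial.aeval_C,
          Polynomial.aeval_X, zero_pow hN.e_pos.ne', mul_zero, add_zero]
        rfl
      rw [h4, MvPolynomial.aeval_eq_eval]
    rw [← h3, h2, map_zero]

end F

end Vale.Agent.P292.Mo
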