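import Mathlib
import Vale.Agent.P292.Mo.Defs

/-! # One homogeneous frame for finitely many points -/

namespace Vale.Agent.P292.Mo

universe u v w

variable {k : Type u} [Field k]

/-! ### Linear algebra over an infinite field -/

private theorem eff_avoid [Infinite k] {V : Type v} [AddCommGroup V] [Module k V] {ι : Type w}
    [Finite ι] (p : ι → Submodule k V) (h : ∀ i, p i ≠ ⊤) : ∃ v : V, ∀ i, v ∉ p i := by
  by_contra hcon
  push Not at hcon
  obtain ⟨i, hi⟩ := Subspace.exists_eq_top_of_iUnion_eq_univ (p := p) (by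
    refine Set.eq_univ_of_forall fun v => ?_
    obtain ⟨i, hi⟩ := hcon v
    exact Set.mem_iUnion.mpr ⟨i, hi⟩)
  exact h i hi

private theorem eff_exists_li [Infinite k] {V : Type v} [AddCommGroup V] [Module k V] {ι : Type w}
    [Finite ι] {N : ℕ} (L : ι → V →ₗ[k] (Fin N → k)) (h : ∀ i, Function.Surjective (L i)) :
    ∀ m ≤ N, ∃ z : Fin m → V, ∀ i, LinearIndependent k (fun j => L i (z j)) := by
  intro m
  induction m with
  | zero => intro _; exact ⟨Fin.elim0, fun i => linearIndependent_empty_type⟩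
  | succ m ih =>
    intro hm
    obtain ⟨z, hz⟩ := ih (by omega)
    obtain ⟨v, hv⟩ := eff_avoid (fun i => (Submodule.span k (Set.range fun j => L i (z j))).comap
      (L i)) (by
        intro i htop
        have h1 : Submodule.span k (Set.range fun j => L i (z j)) = ⊤ := by
          rw [eq_top_iff]
          intro x _
          obtain ⟨a, rfl⟩ := h i x
          have : a ∈ (Submodule.span k (Set.range fun j => L i (z j))).comap (L i) := by
            rw [htop]; trivial
          exact this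
        have h2 : Module.finrank k (Submodule.span k (Set.range fun j => L i (z j))) = m := by
          have := finrank_span_eq_card (hz i)
          simpa using this
        rw [h1, finrank_top, Module.finrank_fin_fun] at h2
        omega)
    refine ⟨Fin.cons v z, fun i => ?_⟩
    have h3 : (fun j => L i ((Fin.cons v z : Fin (m + 1) → V) j)) =
        (Fin.cons (L i v) (fun j => L i (z j)) : Fin (m + 1) → (Fin N → k)) := by
      funext j
      refine Fin.cases ?_ (fun j => ?_) j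
      · simp
      · simp
    rw [h3, linearIndependent_finCons]
    exact ⟨hz i, hv i⟩

/-! ### Elements of large degree -/

section graded

variable {R : Type v} [CommRing R] [Algebra k R] {𝒜 : ℕ → Submodule k R} [GradedAlgebra 𝒜]

private theorem eff_S (y : R →ₐ[k] k)
    (hlb : ∀ d : ℕ, (∀ n, ∀ r ∈ 𝒜 n, y r ≠ 0 → d ∣ n) → d = 1) :
    ∃ n : ℕ, 0 < n ∧ ∃ a ∈ 𝒜 n, ∃ b ∈ 𝒜 (n + 1), y a = 1 ∧ y b = 1 := by
  let S : AddSubmonoid ℕ :=
    { carrier := {n | ∃ r ∈ 𝒜 n, y r ≠ 0}
      zero_mem' := ⟨1, SetLike.GradedOne.one_mem, by rw [map_one]; exact one_ne_zero⟩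
      add_mem' := by
        rintro a b ⟨r, hr, hr'⟩ ⟨s, hs, hs'⟩
        exact ⟨r * s, SetLike.mul_mem_graded hr hs, by rw [map_mul]; exact mul_ne_zero hr' hs'⟩ }
  have hS : Nat.setGcd (S : Set ℕ) = 1 := by
    refine hlb _ fun n r hr hr' => ?_
    exact Nat.setGcd_dvd_of_mem (show n ∈ (S : Set ℕ) from ⟨r, hr, hr'⟩)
  obtain ⟨n, hn⟩ := Nat.exists_mem_closure_of_ge (S : Set ℕ)
  have hn' : ∀ m ≥ n, m ∈ S := by
    intro m hm
    have := hn m hm (by rw [hS]; exact one_dvd _)
    rwa [AddSubmonoid.closure_eq] at this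
  have key : ∀ m ≥ n, ∃ r ∈ 𝒜 m, y r = 1 := by
    intro m hm
    obtain ⟨r, hr, hr'⟩ := hn' m hm
    refine ⟨(y r)⁻¹ • r, (𝒜 m).smul_mem _ hr, ?_⟩
    rw [map_smul, smul_eq_mul, inv_mul_cancel₀ hr']
  obtain ⟨a, ha, ha'⟩ := key (n + 1) (by omega)
  obtain ⟨b, hb, hb'⟩ := key (n + 1 + 1) (by omega)
  exact ⟨n + 1, by omega, a, ha, b, hb, ha', hb'⟩

private theorem eff_mon {n : ℕ} {a b : R} (ha : a ∈ 𝒜 n) (hb : b ∈ 𝒜 (n + 1)) (α β : ℕ) :
    a ^ α * b ^ β ∈ 𝒜 (α * n + β * (n + 1)) := by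
  have h1 := SetLike.pow_mem_graded α ha
  have h2 := SetLike.pow_mem_graded β hb
  have h3 := SetLike.mul_mem_graded h1 h2
  simpa [smul_eq_mul] using h3

private theorem eff_rep {n m : ℕ} (hn : 0 < n) (hm : n * n ≤ m) :
    ∃ α β, m = α * n + β * (n + 1) := by
  refine ⟨m / n - m % n, m % n, ?_⟩
  have h1 : m % n < n := Nat.mod_lt _ hn
  have h2 : n ≤ m / n := (Nat.le_div_iff_mul_le hn).mpr hm
  have h3 : n * (m / n) + m % n = m := Nat.div_add_mod m n
  have h4 : (m / n - m % n) * n + (m % n) * n = (m / n) * n := by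
    rw [← add_mul, Nat.sub_add_cancel (by omega)]
  have h5 : (m % n) * (n + 1) = (m % n) * n + m % n := by ring
  rw [h5, ← add_assoc, h4, mul_comm]
  exact h3.symm

private theorem eff_rep' {n m : ℕ} (hn : 0 < n) (hm : n * n + (n + 1) * n ≤ m) :
    ∃ α β, m = (α + (n + 1)) * n + β * (n + 1) := by
  obtain ⟨α, β, h⟩ := eff_rep (n := n) (m := m - (n + 1) * n) hn (by omega)
  refine ⟨α, β, ?_⟩
  have h1 : (n + 1) * n ≤ m := by omega
  have h2 : (α + (n + 1)) * n = α * n + (n + 1) * n := by ring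
  omega

/-! ### Point derivations -/

private theorem eff_pd_one {y : R →ₐ[k] k} {δ : R →ₗ[k] k}
    (hδ : ∀ a b, δ (a * b) = y a * δ b + y b * δ a) : δ 1 = 0 := by
  have := hδ 1 1
  rw [mul_one, map_one y, one_mul] at this
  simpa using this

private theorem eff_pd_pow {y : R →ₐ[k] k} {δ : R →ₗ[k] k}
    (hδ : ∀ a b, δ (a * b) = y a * δ b + y b * δ a) {a : R} (ha : y a = 1) (m : ℕ) :
    δ (a ^ m) = m * δ a := by
  induction m with
  | zero => rw [pow_zero, eff_pd_one hδ]; simp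
  | succ m ih =>
    rw [pow_succ, hδ, ih, map_pow, ha, one_pow]
    push_cast
    ring

private theorem eff_pd_mon {y : R →ₐ[k] k} {δ : R →ₗ[k] k}
    (hδ : ∀ a b, δ (a * b) = y a * δ b + y b * δ a) {a b : R} (ha : y a = 1) (hb : y b = 1)
    (α β : ℕ) : δ (a ^ α * b ^ β) = α * δ a + β * δ b := by
  rw [hδ, eff_pd_pow hδ ha, eff_pd_pow hδ hb, map_pow, map_pow, ha, hb, one_pow, one_pow]
  ring

/-- A point derivation which vanishes in small degrees is zero. -/
private theorem eff_J (hft : Algebra.FiniteType k R) : ∃ J : ℕ, ∀ (y : R →ₐ[k] k) (δ : R →ₗ[k] k),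
    (∀ a b, δ (a * b) = y a * δ b + y b * δ a) → (∀ j ≤ J, ∀ r ∈ 𝒜 j, δ r = 0) → δ = 0 := by
  classical
  obtain ⟨s, hs⟩ := hft.out
  refine ⟨s.sup fun r => (DFinsupp.support (DirectSum.decompose 𝒜 r)).sup id, ?_⟩
  intro y δ hδ h0
  have h1 : ∀ r ∈ s, δ r = 0 := by
    intro r hr
    rw [← DirectSum.sum_support_decompose 𝒜 r, map_sum]
    refine Finset.sum_eq_zero fun j hj => ?_
    refine h0 j ?_ _ (SetLike.coe_mem _)
    have h2 : j ≤ (DFinsupp.support (DirectSum.decompose 𝒜 r)).sup id :=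
      Finset.le_sup (f := id) hj
    exact h2.trans (Finset.le_sup (f := fun r => (DFinsupp.support (DirectSum.decompose 𝒜 r)).sup id) hr)
  ext r
  have hr : r ∈ Algebra.adjoin k (s : Set R) := by rw [hs]; trivial
  rw [LinearMap.zero_apply]
  induction hr using Algebra.adjoin_induction with
  | mem x hx => exact h1 x hx
  | algebraMap c =>
    rw [Algebra.algebraMap_eq_smul_one, map_smul, eff_pd_one hδ, smul_zero]
  | add a b _ _ ha hb => rw [map_add, ha, hb, add_zero]
  | mul a b _ _ ha hb => rw [hδ, ha, hb, mul_zero, mul_zero, add_zero]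

private theorem eff_D (hft : Algebra.FiniteType k R) (y : R →ₐ[k] k)
    (hlb : ∀ d : ℕ, (∀ n, ∀ r ∈ 𝒜 n, y r ≠ 0 → d ∣ n) → d = 1) :
    ∃ D₀ : ℕ, (∀ D ≥ D₀, ∃ r ∈ 𝒜 D, y r = 1) ∧ ∀ D ≥ D₀, (D : k) ≠ 0 → ∀ δ : R →ₗ[k] k,
      (∀ a b, δ (a * b) = y a * δ b + y b * δ a) → (∀ r ∈ 𝒜 D, δ r = 0) → δ = 0 := by
  obtain ⟨J, hJ⟩ := eff_J (𝒜 := 𝒜) hft
  obtain ⟨n, hn, a, ha, b, hb, ha', hb'⟩ := eff_S y hlb
  have hmon1 : ∀ α β : ℕ, y (a ^ α * b ^ β) = 1 := by
    intro α β
    rw [map_mul, map_pow, map_pow, ha', hb', one_pow, one_pow, one_mul]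
  refine ⟨n * n + (n + 1) * n + J, ?_, ?_⟩
  · intro D hD
    obtain ⟨α, β, h⟩ := eff_rep (n := n) (m := D) hn (by
      have : 0 ≤ (n + 1) * n := Nat.zero_le _
      omega)
    exact ⟨a ^ α * b ^ β, h ▸ eff_mon ha hb α β, hmon1 α β⟩
  · intro D hD hDk δ hδ h0
    obtain ⟨α, β, h⟩ := eff_rep' (n := n) (m := D) hn (by omega)
    have e1 : δ (a ^ (α + (n + 1)) * b ^ β) = 0 := h0 _ (h ▸ eff_mon ha hb (α + (n + 1)) β)
    have e2 : δ (a ^ α * b ^ (β + n)) = 0 := by
      refine h0 _ ?_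
      have h' : D = α * n + (β + n) * (n + 1) := by rw [h]; ring
      exact h' ▸ eff_mon ha hb α (β + n)
    rw [eff_pd_mon hδ ha' hb'] at e1 e2
    push_cast at e1 e2
    have hDk' : (D : k) = (α + (n + 1)) * n + β * (n + 1) := by
      rw [h]; push_cast; ring
    have e3 : ((n : k) + 1) * δ a = n * δ b := by linear_combination e1 - e2
    have e4 : (D : k) * δ a = 0 := by
      rw [hDk']
      linear_combination (n : k) * e1 + (β : k) * e3
    have e5 : (D : k) * δ b = 0 := by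
      rw [hDk']
      linear_combination ((n : k) + 1) * e1 - ((α : k) + (n + 1)) * e3
    have e6 : δ a = 0 := (mul_eq_zero.mp e4).resolve_left hDk
    have e7 : δ b = 0 := (mul_eq_zero.mp e5).resolve_left hDk
    refine hJ y δ hδ fun j hj r hr => ?_
    obtain ⟨α', β', h'⟩ := eff_rep (n := n) (m := D - j) hn (by omega)
    have e8 : r * (a ^ α' * b ^ β') ∈ 𝒜 D := by
      have h8 := SetLike.mul_mem_graded hr (eff_mon ha hb α' β')
      have h9 : j + (α' * n + β' * (n + 1)) = D := by rw [← h']; omega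
      rwa [h9] at h8
    have e9 := h0 _ e8
    rw [hδ, hmon1, eff_pd_mon hδ ha' hb', e6, e7] at e9
    simpa using e9

end graded

/-! ### Brackets and differentials -/

section bracket

variable {R : Type v} [CommRing R] [Algebra k R]

private theorem eff_bracket {P : R →ₗ[k] R →ₗ[k] R}
    (hl : ∀ a b c, P a (b * c) = P a b * c + b * P a c)
    {N : ℕ} {x : Fin N → R} {g r : R} {c : Fin N → R}
    (h : g • KaehlerDifferential.D k R r = ∑ i, c i • KaehlerDifferential.D k R (x i)) (a : R) :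
    g * P a r = ∑ i, c i * P a (x i) := by
  let D : Derivation k R R := Derivation.mk' (P a) (fun b c => by
    rw [hl, smul_eq_mul, smul_eq_mul]; ring)
  have := congrArg D.liftKaehlerDifferential h
  rw [map_smul, map_sum, Derivation.liftKaehlerDifferential_comp_D] at this
  rw [← smul_eq_mul, show P a r = D r from rfl, this]
  refine Finset.sum_congr rfl fun i _ => ?_
  rw [map_smul, Derivation.liftKaehlerDifferential_comp_D, smul_eq_mul]
  rfl

private theorem eff_det_mem {𝒜 : ℕ → Submodule k R} [GradedAlgebra 𝒜] {N : ℕ}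
    (M : Matrix (Fin N) (Fin N) R) (a b : Fin N → ℕ) (h : ∀ i j, M i j ∈ 𝒜 (a i + b j)) :
    M.det ∈ 𝒜 (∑ i, a i + ∑ i, b i) := by
  rw [Matrix.det_apply]
  refine Submodule.sum_mem _ fun σ _ => ?_
  have h1 := SetLike.prod_mem_graded 𝒜 (fun i => a (σ i) + b i) (fun i => M (σ i) i)
    (F := Finset.univ) fun i _ => h (σ i) i
  rw [Finset.sum_add_distrib, Equiv.sum_comp σ a] at h1
  rcases Int.units_eq_one_or (Equiv.Perm.sign σ) with hs | hs
  · rw [hs, one_smul]; exact h1
  · rw [hs, Units.neg_smul, one_smul]; exact Submodule.neg_mem _ h1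

private theorem eff_skew {P : R →ₗ[k] R →ₗ[k] R} (ha : ∀ a, P a a = 0) (a b : R) :
    P a b = - P b a := by
  have h := ha (a + b)
  rw [map_add, map_add, LinearMap.add_apply, LinearMap.add_apply, ha, ha, zero_add,
    add_zero] at h
  exact eq_neg_of_add_eq_zero_right h

private theorem eff_point {𝒜 : ℕ → Submodule k R} [GradedAlgebra 𝒜] {P : R →ₗ[k] R →ₗ[k] R}
    (hP : IsPM 𝒜 P) {N : ℕ} {x : Fin N → R} {d : Fin N → ℕ} {g : R} (hfr : IsFr 𝒜 x d g)
    (y : R →ₐ[k] k) (hg : y g ≠ 0) {D : ℕ} (hD : 0 < D) {z : Fin N → R} (hz : ∀ i, z i ∈ 𝒜 D)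
    (hdet : y (Matrix.of fun j i => P (x j) (z i)).det ≠ 0) :
    y (brM P z).det ≠ 0 ∧ ∃ l, ∃ h ∈ 𝒜 l, y h ≠ 0 ∧ ∀ r, h • KaehlerDifferential.D k R r ∈
      Submodule.span R (Set.range fun i => KaehlerDifferential.D k R (z i)) := by
  set B : Matrix (Fin N) (Fin N) R := Matrix.of fun j i => P (x j) (z i) with hB
  choose C hC using fun i => hfr.gen (z i)
  let Cm : Matrix (Fin N) (Fin N) R := Matrix.of C
  have h1 : g • B = brM P x * Cm.transpose := by
    ext j i
    rw [Matrix.smul_apply, Matrix.mul_apply, smul_eq_mul]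
    rw [show B j i = P (x j) (z i) from rfl, eff_bracket hP.leibniz (hC i) (x j)]
    exact Finset.sum_congr rfl fun l _ => mul_comm _ _
  have h2 : g ^ N * B.det = (brM P x).det * Cm.det := by
    have := congrArg Matrix.det h1
    rwa [Matrix.det_smul, Matrix.det_mul, Matrix.det_transpose, Fintype.card_fin] at this
  have h3 : g • (brM P z).transpose = -(Cm * B) := by
    ext i l
    rw [Matrix.smul_apply, Matrix.neg_apply, Matrix.mul_apply, smul_eq_mul]
    rw [show (brM P z).transpose i l = P (z l) (z i) from rfl,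
      eff_bracket hP.leibniz (hC i) (z l), ← Finset.sum_neg_distrib]
    refine Finset.sum_congr rfl fun m _ => ?_
    rw [eff_skew hP.alternating (z l) (x m), mul_neg]
    rfl
  have h4 : g ^ N * (brM P z).det = (-1) ^ N * (Cm.det * B.det) := by
    have := congrArg Matrix.det h3
    rwa [Matrix.det_smul, Matrix.det_neg, Matrix.det_mul, Matrix.det_transpose,
      Fintype.card_fin] at this
  have h5 : y Cm.det ≠ 0 := by
    intro h0
    have := congrArg y h2
    rw [map_mul, map_mul, h0, mul_zero, map_pow] at this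
    exact mul_ne_zero (pow_ne_zero _ hg) hdet this
  refine ⟨?_, ?_⟩
  · intro h0
    have := congrArg y h4
    rw [map_mul, h0, mul_zero, map_mul, map_mul, map_pow, map_neg, map_one] at this
    exact mul_ne_zero (pow_ne_zero _ (neg_ne_zero.mpr one_ne_zero)) (mul_ne_zero h5 hdet) this.symm
  · obtain ⟨l, hl⟩ := hfr.ghom
    refine ⟨(N + 1) * l + (∑ i, d i + ∑ _i : Fin N, (D - 1)), g ^ (N + 1) * B.det, ?_, ?_, ?_⟩
    · have hg' := SetLike.pow_mem_graded (N + 1) hl
      refine SetLike.mul_mem_graded (by simpa [smul_eq_mul] using hg') ?_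
      refine eff_det_mem B d (fun _ => D - 1) fun j i => ?_
      exact hP.degree (d j) D _ (by omega) _ (hfr.hom j) _ (hz i)
    · rw [map_mul, map_pow]
      exact mul_ne_zero (pow_ne_zero _ hg) hdet
    · intro r
      have h6 : g ^ (N + 1) * B.det = (brM P x).det * (Cm.det * g) := by
        rw [pow_succ, mul_right_comm, h2]; ring
      rw [h6, mul_smul, mul_smul]
      refine Submodule.smul_mem _ _ ?_
      obtain ⟨c, hc⟩ := hfr.gen r
      rw [hc, Finset.smul_sum]
      refine Submodule.sum_mem _ fun l _ => ?_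
      rw [smul_comm]
      refine Submodule.smul_mem _ _ ?_
      have h7 : Cm.det • KaehlerDifferential.D k R (x l) =
          ∑ i, Cm.adjugate l i • (g • KaehlerDifferential.D k R (z i)) := by
        have h8 : ∀ i, Cm.adjugate l i • (g • KaehlerDifferential.D k R (z i)) =
            ∑ m, (Cm.adjugate l i * Cm i m) • KaehlerDifferential.D k R (x m) := by
          intro i
          rw [hC i, Finset.smul_sum]
          exact Finset.sum_congr rfl fun m _ => by rw [smul_smul]; rfl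
        rw [Finset.sum_congr rfl fun i _ => h8 i, Finset.sum_comm]
        have h9 : ∀ m, ∑ i, (Cm.adjugate l i * Cm i m) • KaehlerDifferential.D k R (x m) =
            ((Cm.det • (1 : Matrix (Fin N) (Fin N) R)) l m) • KaehlerDifferential.D k R (x m) := by
          intro m
          rw [← Finset.sum_smul, ← Matrix.adjugate_mul, Matrix.mul_apply]
        rw [Finset.sum_congr rfl fun m _ => h9 m, Finset.sum_eq_single l]
        · rw [Matrix.smul_apply, Matrix.one_apply_eq, smul_eq_mul, mul_one]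
        · intro m _ hm
          rw [Matrix.smul_apply, Matrix.one_apply_ne (Ne.symm hm), smul_zero, zero_smul]
        · intro h; exact absurd (Finset.mem_univ _) h
      rw [h7]
      refine Submodule.sum_mem _ fun i _ => Submodule.smul_mem _ _ (Submodule.smul_mem _ _ ?_)
      exact Submodule.subset_span ⟨i, rfl⟩

private theorem eff_surj {𝒜 : ℕ → Submodule k R} [GradedAlgebra 𝒜] {P : R →ₗ[k] R →ₗ[k] R}
    (hP : IsPM 𝒜 P) {N : ℕ} {x : Fin N → R} (y : R →ₐ[k] k) (hdet : y (brM P x).det ≠ 0) {D : ℕ}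
    (hD : ∀ δ : R →ₗ[k] k, (∀ a b, δ (a * b) = y a * δ b + y b * δ a) →
      (∀ r ∈ 𝒜 D, δ r = 0) → δ = 0) :
    Function.Surjective (LinearMap.pi (fun j => y.toLinearMap ∘ₗ P (x j) ∘ₗ (𝒜 D).subtype) :
      𝒜 D →ₗ[k] (Fin N → k)) := by
  rw [← LinearMap.range_eq_top]
  by_contra hne
  obtain ⟨f, hf, hle⟩ := Submodule.exists_le_ker_of_lt_top _ (lt_top_iff_ne_top.mpr hne)
  apply hf
  let Q : R →ₗ[k] (Fin N → k) := LinearMap.pi (fun j => y.toLinearMap ∘ₗ P (x j))
  have hQ : ∀ r j, Q r j = y (P (x j) r) := fun r j => rfl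
  have hδ : f ∘ₗ Q = 0 := by
    refine hD _ ?_ ?_
    · intro a b
      have h1 : Q (a * b) = y a • Q b + y b • Q a := by
        funext j
        rw [Pi.add_apply, Pi.smul_apply, Pi.smul_apply, hQ, hQ, hQ, smul_eq_mul, smul_eq_mul,
          hP.leibniz, map_add, map_mul, map_mul]
        ring
      rw [LinearMap.comp_apply, LinearMap.comp_apply, LinearMap.comp_apply, h1, map_add,
        map_smul, map_smul, smul_eq_mul, smul_eq_mul]
    · intro r hr
      exact hle ⟨⟨r, hr⟩, rfl⟩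
  have hc : (fun j => f (fun i => if j = i then 1 else 0)) = 0 := by
    refine Matrix.eq_zero_of_vecMul_eq_zero (M := y.mapMatrix (brM P x)) ?_ ?_
    · rwa [← AlgHom.map_det]
    · funext l
      have h1 : f (Q (x l)) = 0 := by
        rw [← LinearMap.comp_apply, hδ, LinearMap.zero_apply]
      rw [LinearMap.pi_apply_eq_sum_univ f] at h1
      have h2 : (Matrix.vecMul (fun j => f (fun i => if j = i then 1 else 0))
          (y.mapMatrix (brM P x))) l =
          ∑ j, Q (x l) j • f (fun i => if j = i then 1 else 0) := by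
        rw [Matrix.vecMul, dotProduct]
        refine Finset.sum_congr rfl fun j _ => ?_
        rw [smul_eq_mul, mul_comm]
        rfl
      rw [h2, h1, Pi.zero_apply]
  refine LinearMap.ext fun v => ?_
  rw [LinearMap.pi_apply_eq_sum_univ f, LinearMap.zero_apply]
  refine Finset.sum_eq_zero fun j _ => ?_
  have := congrFun hc j
  simp only [Pi.zero_apply] at this
  rw [this, smul_zero]

private def eff_I (k : Type u) [Field k] {R : Type v} [CommRing R] [Algebra k R] {N : ℕ}
    (z : Fin N → R) : Submodule k R where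
  carrier := {h | ∀ r, h • KaehlerDifferential.D k R r ∈
    Submodule.span R (Set.range fun i => KaehlerDifferential.D k R (z i))}
  add_mem' := fun ha hb r => by rw [add_smul]; exact add_mem (ha r) (hb r)
  zero_mem' := fun r => by rw [zero_smul]; exact zero_mem _
  smul_mem' := fun c a ha r => by
    rw [Algebra.smul_def, mul_smul]
    exact Submodule.smul_mem _ _ (ha r)

end bracket

theorem exists_frame_finset {R : Type v} [CommRing R] [Algebra k R] {𝒜 : ℕ → Submodule k R}
    [GradedAlgebra 𝒜] {P : R →ₗ[k] R →ₗ[k] R} [IsAlgClosed k] (p : ℕ) [Fact p.Prime] [CharP k p]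
    (hP : IsPM 𝒜 P) {N : ℕ} (Y : Set (R →ₐ[k] k)) (hY : Y.Finite) (hNV : ∀ y ∈ Y, NV 𝒜 y)
    (hrk : ∀ y ∈ Y, HasRk 𝒜 P y N) :
    ∃ (x : Fin N → R) (d : Fin N → ℕ) (g : R), IsFr 𝒜 x d g ∧
      ∀ y ∈ Y, y (g * (brM P x).det) ≠ 0 := by
  classical
  have : Finite Y := hY
  choose D₀ hD₀ hD₀' using fun y : Y => eff_D (𝒜 := 𝒜) hP.finiteType y.1
    (hP.lineBundle y.1 (hNV y.1 y.2))
  obtain ⟨b, hb⟩ : ∃ b, ∀ y : Y, D₀ y ≤ b := by
    obtain ⟨b, hb⟩ := (Set.finite_range D₀).bddAbove
    exact ⟨b, fun y => hb ⟨y, rfl⟩⟩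
  obtain ⟨D, hDb, hDpos, hDk⟩ : ∃ D, b ≤ D ∧ 0 < D ∧ (D : k) ≠ 0 := by
    by_cases h1 : ((b + 1 : ℕ) : k) = 0
    · refine ⟨b + 2, by omega, by omega, ?_⟩
      intro h2
      push_cast at h1 h2
      have h3 : (1 : k) = 0 := by linear_combination h2 - h1
      exact one_ne_zero h3
    · exact ⟨b + 1, by omega, by omega, h1⟩
  choose x d g hfr hne using fun y : Y => hrk y.1 y.2
  have hg : ∀ y : Y, y.1 (g y) ≠ 0 := fun y h => hne y (by rw [map_mul, h, zero_mul])
  have hM : ∀ y : Y, y.1 (brM P (x y)).det ≠ 0 := fun y h => hne y (by rw [map_mul, h, mul_zero])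
  obtain ⟨z, hz⟩ := eff_exists_li (fun y : Y => (LinearMap.pi (fun j => y.1.toLinearMap ∘ₗ
    P (x y j) ∘ₗ (𝒜 D).subtype) : 𝒜 D →ₗ[k] (Fin N → k)))
    (fun y => eff_surj hP y.1 (hM y) (hD₀' y D ((hb y).trans hDb) hDk)) N le_rfl
  have hdet : ∀ y : Y, y.1 (Matrix.of fun j i => P (x y j) (z i : R)).det ≠ 0 := by
    intro y
    have h1 : IsUnit (Matrix.of fun i j => y.1 (P (x y j) (z i : R)) : Matrix (Fin N) (Fin N) k) :=
      Matrix.linearIndependent_rows_iff_isUnit.mp (hz y)
    rw [Matrix.isUnit_iff_isUnit_det, isUnit_iff_ne_zero] at h1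
    rw [AlgHom.map_det, ← Matrix.det_transpose]
    exact h1
  have hpt := fun y : Y => eff_point hP (hfr y) y.1 (hg y) hDpos (z := fun i => (z i : R))
    (fun i => (z i).2) (hdet y)
  choose l h hmem hyne hspan using fun y : Y => (hpt y).2
  obtain ⟨c, hc⟩ : ∃ c, ∀ y : Y, l y + D₀ y ≤ c := by
    obtain ⟨c, hc⟩ := (Set.finite_range fun y => l y + D₀ y).bddAbove
    exact ⟨c, fun y => hc ⟨y, rfl⟩⟩
  let W : Submodule k R := 𝒜 c ⊓ eff_I k (fun i => (z i : R))
  obtain ⟨w, hw⟩ := eff_avoid (fun y : Y => LinearMap.ker (y.1.toLinearMap ∘ₗ W.subtype)) (by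
    intro y htop
    obtain ⟨r, hr, hr1⟩ := hD₀ y (c - l y) (by have := hc y; omega)
    have h1 : h y * r ∈ W := by
      refine ⟨?_, ?_⟩
      · have h2 := SetLike.mul_mem_graded (hmem y) hr
        have h3 : l y + (c - l y) = c := by have := hc y; omega
        rwa [h3] at h2
      · intro s
        rw [mul_comm, mul_smul]
        exact Submodule.smul_mem _ _ (hspan y s)
    have h4 : (⟨h y * r, h1⟩ : W) ∈ LinearMap.ker (y.1.toLinearMap ∘ₗ W.subtype) := by
      rw [htop]; trivial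
    rw [LinearMap.mem_ker] at h4
    have h5 : y.1 (h y * r) = 0 := h4
    rw [map_mul, hr1, mul_one] at h5
    exact hyne y h5)
  refine ⟨fun i => (z i : R), fun _ => D, w, ⟨fun i => (z i).2, ⟨c, w.2.1⟩, fun r => ?_⟩, ?_⟩
  · have h1 := w.2.2 r
    rw [Submodule.mem_span_range_iff_exists_fun] at h1
    obtain ⟨c', hc'⟩ := h1
    exact ⟨c', hc'.symm⟩
  · intro y hy
    rw [map_mul]
    refine mul_ne_zero ?_ (hpt ⟨y, hy⟩).1
    intro h0
    exact hw ⟨y, hy⟩ (LinearMap.mem_ker.mpr h0)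

end Vale.Agent.P292.Mo
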