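import Mathlib

/-!
# Power series expansion at a regular closed point of an affine curve (P292, note 9318)
-/

namespace Vale.Agent.P292.Mo

universe u v

section

variable {k : Type u} [Field k] {O : Type v} [CommRing O] [IsDomain O] [Algebra k O]

/-- Power series expansion along a prime element whose residue ring is the base field; the
prime element goes to the variable. -/
theorem exists_expansion_X (ϖ : O) (h0 : ϖ ≠ 0) (hu : ¬ IsUnit ϖ)
    (hs : ∀ x : O, ∃ c : k, ϖ ∣ x - algebraMap k O c) :
    ∃ E : O →ₐ[k] PowerSeries k, E ϖ = PowerSeries.X := by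
  classical
  have hs' : ∀ x : O, ∃ c : k, ∃ y : O, x = algebraMap k O c + ϖ * y := by
    intro x
    obtain ⟨c, y, hy⟩ := hs x
    exact ⟨c, y, by rw [← hy]; ring⟩
  choose c y hcy using hs'
  have huniq : ∀ (a b : k) (u v : O), algebraMap k O a + ϖ * u = algebraMap k O b + ϖ * v →
      a = b ∧ u = v := by
    intro a b u v h
    have hab : a = b := by
      by_contra hne
      apply hu
      have hd : ϖ ∣ algebraMap k O (a - b) := ⟨v - u, by rw [map_sub]; linear_combination h⟩
      exact isUnit_of_dvd_unit hd ((IsUnit.mk0 _ (sub_ne_zero.mpr hne)).map (algebraMap k O))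
    subst hab
    exact ⟨rfl, mul_left_cancel₀ h0 (add_left_cancel h)⟩
  have hadd : ∀ x x', c (x + x') = c x + c x' ∧ y (x + x') = y x + y x' := by
    intro x x'
    apply huniq
    rw [← hcy (x + x'), map_add]
    conv_lhs => rw [hcy x, hcy x']
    ring
  have hsmul : ∀ (a : k) x, c (algebraMap k O a * x) = a * c x ∧
      y (algebraMap k O a * x) = algebraMap k O a * y x := by
    intro a x
    apply huniq
    rw [← hcy (algebraMap k O a * x), map_mul]
    conv_lhs => rw [hcy x]
    ring
  have hmul : ∀ x x', c (x * x') = c x * c x' ∧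
      y (x * x') = algebraMap k O (c x) * y x' + y x * x' := by
    intro x x'
    apply huniq
    rw [← hcy (x * x'), map_mul]
    have h1 := hcy x
    have h2 := hcy x'
    calc x * x' = (algebraMap k O (c x) + ϖ * y x) * x' := by rw [← h1]
      _ = algebraMap k O (c x) * x' + ϖ * (y x * x') := by ring
      _ = algebraMap k O (c x) * (algebraMap k O (c x') + ϖ * y x') + ϖ * (y x * x') := by
          rw [← h2]
      _ = _ := by ring
  let E : O → PowerSeries k := fun x => PowerSeries.mk (fun n => c (y^[n] x))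
  have hE0 : ∀ x, PowerSeries.coeff 0 (E x) = c x := by intro x; simp [E]
  have hEs : ∀ n x, PowerSeries.coeff (n + 1) (E x) = PowerSeries.coeff n (E (y x)) := by
    intro n x; simp [E]
  have hErec : ∀ x, E x = PowerSeries.C (c x) + PowerSeries.X * E (y x) := by
    intro x
    ext n
    cases n with
    | zero => simp [E]
    | succ n =>
      rw [hEs, map_add, PowerSeries.coeff_succ_X_mul, PowerSeries.coeff_C]
      simp
  have hEadd : ∀ x x', E (x + x') = E x + E x' := by
    have : ∀ n, ∀ x x', PowerSeries.coeff n (E (x + x')) =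
        PowerSeries.coeff n (E x) + PowerSeries.coeff n (E x') := by
      intro n
      induction n with
      | zero => intro x x'; rw [hE0, hE0, hE0, (hadd x x').1]
      | succ n ih => intro x x'; rw [hEs, hEs, hEs, (hadd x x').2, ih]
    intro x x'; ext n; rw [this, map_add]
  have hEsmul : ∀ (a : k) x, E (algebraMap k O a * x) = PowerSeries.C a * E x := by
    have : ∀ n, ∀ (a : k) x, PowerSeries.coeff n (E (algebraMap k O a * x)) =
        a * PowerSeries.coeff n (E x) := by
      intro n
      induction n with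
      | zero => intro a x; rw [hE0, hE0, (hsmul a x).1]
      | succ n ih => intro a x; rw [hEs, hEs, (hsmul a x).2, ih]
    intro a x; ext n; rw [this, PowerSeries.coeff_C_mul]
  have hEmul : ∀ x x', E (x * x') = E x * E x' := by
    have : ∀ n, ∀ x x', PowerSeries.coeff n (E (x * x')) =
        PowerSeries.coeff n (E x * E x') := by
      intro n
      induction n with
      | zero =>
        intro x x'
        have h1 := hE0 x
        have h2 := hE0 x'
        rw [PowerSeries.coeff_zero_eq_constantCoeff_apply] at h1 h2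
        rw [hE0, (hmul x x').1, PowerSeries.coeff_zero_eq_constantCoeff_apply, map_mul, h1, h2]
      | succ n ih =>
        intro x x'
        rw [hEs, (hmul x x').2, hEadd, hEsmul, map_add, ih]
        conv_rhs => rw [hErec x, add_mul, map_add, PowerSeries.coeff_C_mul, hEs, mul_assoc,
          PowerSeries.coeff_succ_X_mul]
        rw [PowerSeries.coeff_C_mul]
    intro x x'; ext n; rw [this]
  have hE00 : E 0 = 0 := by
    have := hEadd 0 0
    rw [add_zero] at this
    simpa using this
  have hE1 : E 1 = 1 := by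
    have hc1 := huniq (c 1) 1 (y 1) 0 (by rw [← hcy 1]; simp)
    rw [hErec 1, hc1.1, hc1.2, hE00]; simp
  have hEC : ∀ a : k, E (algebraMap k O a) = PowerSeries.C a := by
    intro a
    have := hEsmul a 1
    rwa [mul_one, hE1, mul_one] at this
  refine ⟨{ toFun := E
            map_one' := by rw [← map_one (algebraMap k O), hEC, map_one]
            map_mul' := hEmul
            map_zero' := by rw [← map_zero (algebraMap k O), hEC, map_zero]
            map_add' := hEadd
            commutes' := fun a => by rw [hEC]; rfl }, ?_⟩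
  have := huniq (c ϖ) 0 (y ϖ) 1 (by rw [← hcy ϖ]; simp)
  show E ϖ = PowerSeries.X
  rw [hErec ϖ, this.1, this.2, hE1]
  simp

omit [IsDomain O] in
/-- The order of the expansion is the divisibility by the prime element. -/
theorem X_pow_dvd_iff_of_expansion (ϖ : O) (hs : ∀ x : O, ∃ c : k, ϖ ∣ x - algebraMap k O c)
    (E : O →ₐ[k] PowerSeries k) (hE : E ϖ = PowerSeries.X) (n : ℕ) :
    ∀ x : O, PowerSeries.X ^ n ∣ E x ↔ ϖ ^ n ∣ x := by
  induction n with
  | zero => intro x; simp
  | succ n ih =>
    intro x
    constructor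
    · intro h
      obtain ⟨c, y, hy⟩ := hs x
      have h1 : PowerSeries.constantCoeff (E x) = 0 := by
        rw [← PowerSeries.X_dvd_iff]
        exact (dvd_pow_self _ (Nat.succ_ne_zero n)).trans h
      have h2 : E x = PowerSeries.C c + PowerSeries.X * E y := by
        have : x = algebraMap k O c + ϖ * y := by rw [← hy]; ring
        conv_lhs => rw [this]
        rw [map_add, map_mul, hE, AlgHom.commutes]
        rfl
      have hc : c = 0 := by
        rw [h2] at h1
        simpa using h1
      subst hc
      rw [map_zero, sub_zero] at hy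
      rw [map_zero, zero_add] at h2
      rw [h2, pow_succ'] at h
      have h3 := (mul_dvd_mul_iff_left PowerSeries.X_ne_zero).mp h
      rw [hy, pow_succ']
      exact mul_dvd_mul_left _ ((ih y).mp h3)
    · rintro ⟨y, rfl⟩
      rw [map_mul, map_pow, hE]
      exact dvd_mul_right _ _

end

/-- **Expansion at a closed point whose local ring is a discrete valuation ring.** -/
theorem exists_expansion_at {k : Type u} [Field k] {A : Type v} [CommRing A] [IsDomain A]
    [Algebra k A] (c : A →ₐ[k] k) (m : Ideal A) [hmp : m.IsPrime] (hm : ∀ a, a ∈ m ↔ c a = 0)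
    [IsDiscreteValuationRing (Localization.AtPrime m)] :
    ∃ ex : A →ₐ[k] PowerSeries k, Function.Injective ex ∧
      (∀ a, PowerSeries.constantCoeff (ex a) = c a) ∧
      (∀ (n : ℕ) (f : PowerSeries k), ∃ a, PowerSeries.X ^ n ∣ f - ex a) ∧
      (∀ (n : ℕ) (a : A), PowerSeries.X ^ n ∣ ex a ↔ a ∈ m ^ n) := by
  classical
  let O := Localization.AtPrime m
  obtain ⟨ϖ, hϖ⟩ := IsDiscreteValuationRing.exists_irreducible O
  have hmax : IsLocalRing.maximalIdeal O = Ideal.span {ϖ} := hϖ.maximalIdeal_eq
  have hmapm : Ideal.map (algebraMap A O) m = Ideal.span {ϖ} := by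
    rw [Localization.AtPrime.map_eq_maximalIdeal, hmax]
  have hdvd : ∀ a ∈ m, ϖ ∣ algebraMap A O a := by
    intro a ha
    rw [← Ideal.mem_span_singleton, ← hmapm]
    exact Ideal.mem_map_of_mem _ ha
  have halg : ∀ z : k, algebraMap A O (algebraMap k A z) = algebraMap k O z := fun z =>
    (IsScalarTower.algebraMap_apply k A O z).symm
  have hca : ∀ a, a - algebraMap k A (c a) ∈ m := by
    intro a
    rw [hm, map_sub, AlgHom.commutes]
    simp
  -- inverses modulo powers of m
  have hinv : ∀ s : A, s ∉ m → ∀ n : ℕ, ∃ t : A, 1 - s * t ∈ m ^ n := by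
    intro s hs n
    have hcs : c s ≠ 0 := fun h => hs ((hm s).mpr h)
    have h1 : 1 - s * algebraMap k A (c s)⁻¹ ∈ m := by
      rw [hm, map_sub, map_mul, AlgHom.commutes, map_one]
      simp [hcs]
    set q := 1 - s * algebraMap k A (c s)⁻¹ with hq
    refine ⟨algebraMap k A (c s)⁻¹ * ∑ i ∈ Finset.range n, q ^ i, ?_⟩
    have h2 : 1 - s * (algebraMap k A (c s)⁻¹ * ∑ i ∈ Finset.range n, q ^ i) = q ^ n := by
      have h3 : s * algebraMap k A (c s)⁻¹ = 1 - q := by rw [hq]; ring
      rw [← mul_assoc, h3, mul_neg_geom_sum]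
      ring
    rw [h2]
    exact Ideal.pow_mem_pow h1 n
  have hfrac : ∀ x : O, ∃ (a s : A), s ∉ m ∧ x * algebraMap A O s = algebraMap A O a := by
    intro x
    obtain ⟨⟨a, s⟩, h⟩ := IsLocalization.surj m.primeCompl x
    exact ⟨a, s, s.2, h⟩
  have hunit : ∀ s : A, s ∉ m → IsUnit (algebraMap A O s) := fun s hs =>
    IsLocalization.map_units O (⟨s, hs⟩ : m.primeCompl)
  -- approximation
  have happ : ∀ (n : ℕ) (x : O), ∃ a : A, ϖ ^ n ∣ x - algebraMap A O a := by
    intro n x
    obtain ⟨a, s, hs, hx⟩ := hfrac x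
    obtain ⟨t, ht⟩ := hinv s hs n
    refine ⟨a * t, ?_⟩
    have h1 : ϖ ^ n ∣ algebraMap A O (1 - s * t) := by
      have : algebraMap A O (1 - s * t) ∈ Ideal.span {ϖ ^ n} := by
        rw [← Ideal.span_singleton_pow, ← hmapm, ← Ideal.map_pow]
        exact Ideal.mem_map_of_mem _ ht
      rwa [Ideal.mem_span_singleton] at this
    have h2 : (x - algebraMap A O (a * t)) = x * algebraMap A O (1 - s * t) := by
      rw [map_sub, map_mul, map_mul, map_one, mul_sub, mul_one, ← mul_assoc, hx]
    rw [h2]
    exact h1.mul_left _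
  have hs : ∀ x : O, ∃ z : k, ϖ ∣ x - algebraMap k O z := by
    intro x
    obtain ⟨a, ha⟩ := happ 1 x
    rw [pow_one] at ha
    refine ⟨c a, ?_⟩
    have h1 := hdvd _ (hca a)
    rw [map_sub, halg] at h1
    have := dvd_add ha h1
    rwa [sub_add_sub_cancel] at this
  obtain ⟨E, hE⟩ := exists_expansion_X (k := k) ϖ hϖ.ne_zero hϖ.not_isUnit hs
  have hX := X_pow_dvd_iff_of_expansion ϖ hs E hE
  have hmem : ∀ (n : ℕ) (a : A), ϖ ^ n ∣ algebraMap A O a ↔ a ∈ m ^ n := by
    intro n a
    constructor
    · intro h
      have h1 : algebraMap A O a ∈ Ideal.map (algebraMap A O) (m ^ n) := by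
        rw [Ideal.map_pow, hmapm, Ideal.span_singleton_pow, Ideal.mem_span_singleton]
        exact h
      rw [IsLocalization.mem_map_algebraMap_iff m.primeCompl] at h1
      obtain ⟨⟨b, s⟩, hb⟩ := h1
      rw [← map_mul] at hb
      obtain ⟨r, hr⟩ := (IsLocalization.eq_iff_exists m.primeCompl O).mp hb
      have hr0 : (r : A) ≠ 0 := by
        intro h0
        apply r.2
        rw [h0]
        exact m.zero_mem
      have hb' : a * (s : A) = b := mul_left_cancel₀ hr0 hr
      obtain ⟨t, ht⟩ := hinv s s.2 n
      have h2 : a = a * (1 - (s : A) * t) + t * b := by rw [← hb']; ring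
      rw [h2]
      exact Ideal.add_mem _ (Ideal.mul_mem_left _ _ ht) (Ideal.mul_mem_left _ _ b.2)
    · intro h
      rw [← Ideal.mem_span_singleton, ← Ideal.span_singleton_pow, ← hmapm, ← Ideal.map_pow]
      exact Ideal.mem_map_of_mem _ h
  have hinj : Function.Injective (algebraMap A O) :=
    IsLocalization.injective O m.primeCompl_le_nonZeroDivisors
  let ex : A →ₐ[k] PowerSeries k := E.comp (IsScalarTower.toAlgHom k A O)
  have hex : ∀ a, ex a = E (algebraMap A O a) := fun a => rfl
  refine ⟨ex, ?_, ?_, ?_, ?_⟩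
  · rw [injective_iff_map_eq_zero]
    intro a ha
    by_contra ha0
    have h1 : algebraMap A O a ≠ 0 := fun h => ha0 (hinj (h.trans (map_zero _).symm))
    obtain ⟨n, hn⟩ := IsDiscreteValuationRing.associated_pow_irreducible h1 hϖ
    have h2 : ϖ ^ (n + 1) ∣ algebraMap A O a := by
      rw [← hX, ← hex, ha]
      exact dvd_zero _
    have h3 := h2.trans hn.dvd
    have h4 : n + 1 ≤ n := (pow_dvd_pow_iff hϖ.ne_zero hϖ.not_isUnit).mp h3
    omega
  · intro a
    have h1 : PowerSeries.X ^ 1 ∣ ex (a - algebraMap k A (c a)) := by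
      rw [hex, hX, pow_one]
      exact hdvd _ (hca a)
    rw [pow_one, PowerSeries.X_dvd_iff, map_sub, map_sub, AlgHom.commutes, sub_eq_zero] at h1
    rw [h1]
    simp
  · intro n f
    obtain ⟨a, ha⟩ := happ n (∑ i ∈ Finset.range n, algebraMap k O (PowerSeries.coeff i f) * ϖ ^ i)
    refine ⟨a, ?_⟩
    have h1 := (hX n _).mpr ha
    rw [map_sub, ← hex] at h1
    have h2 : E (∑ i ∈ Finset.range n, algebraMap k O (PowerSeries.coeff i f) * ϖ ^ i) =
        ∑ i ∈ Finset.range n, PowerSeries.C (PowerSeries.coeff i f) * PowerSeries.X ^ i := by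
      rw [map_sum]
      refine Finset.sum_congr rfl fun i _ => ?_
      rw [map_mul, map_pow, hE, AlgHom.commutes]
      rfl
    rw [h2] at h1
    have h3 : PowerSeries.X ^ n ∣ f -
        ∑ i ∈ Finset.range n, PowerSeries.C (PowerSeries.coeff i f) * PowerSeries.X ^ i := by
      rw [PowerSeries.X_pow_dvd_iff]
      intro j hj
      rw [map_sub, map_sum, Finset.sum_eq_single j]
      · rw [PowerSeries.coeff_C_mul, PowerSeries.coeff_X_pow, if_pos rfl, mul_one, sub_self]
      · intro i _ hij
        rw [PowerSeries.coeff_C_mul, PowerSeries.coeff_X_pow, if_neg (Ne.symm hij), mul_zero]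
      · intro hj'
        exact absurd (Finset.mem_range.mpr hj) hj'
    have := dvd_add h3 h1
    rwa [sub_add_sub_cancel] at this
  · intro n a
    rw [hex, hX, hmem]

end Vale.Agent.P292.Mo
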