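import Vale.Agent.P292.Mo.CrvBase
import Vale.Agent.P292.Mo.Expand

/-!
# P292-Mo F3f: expansions at the closed points of the first chart
-/

namespace Vale.Agent.P292.Mo

open Polynomial

universe u w

/-- F3f: expansions at the closed points of the first chart. -/
theorem expansion_IC {k : Type u} [Field k] {K : Type w} [Field K] [Algebra k K]
    [IsAlgClosed k] {t : K} (ht : Transcendental k t)
    [FiniteDimensional (IntermediateField.adjoin k {t}) K]
    [Algebra.IsSeparable (IntermediateField.adjoin k {t}) K] {g : Polynomial k} (hg : g ≠ 0)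
    (c : IC (B0 t g) →ₐ[k] k) :
    ∃ ex : IC (B0 t g) →ₐ[k] PowerSeries k, Function.Injective ex ∧
      (∀ a, PowerSeries.constantCoeff (ex a) = c a) ∧
      ∀ (n : ℕ) (s : PowerSeries k), ∃ a, PowerSeries.X ^ n ∣ ex a - s := by
  have hded : IsDedekindDomain (IC (B0 t g)) := (crv_basis0 ht hg).1
  have hp : (RingHom.ker c).IsPrime := RingHom.ker_isPrime c
  have htm : t ∈ IC (B0 t g) :=
    (integralClosure (B0 t g) K).algebraMap_mem ⟨t, crv_t_mem_B0 t g⟩
  have hne : RingHom.ker c ≠ ⊥ := by
    intro h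
    let τ : IC (B0 t g) := ⟨t, htm⟩
    have h1 : τ - algebraMap k (IC (B0 t g)) (c τ) ∈ RingHom.ker c := by
      rw [RingHom.mem_ker, map_sub, AlgHom.commutes]
      simp
    rw [h, Ideal.mem_bot] at h1
    have h2 := congrArg Subtype.val h1
    exact crv_ne_C ht (c τ) h2
  have hdvr : IsDiscreteValuationRing (Localization.AtPrime (RingHom.ker c)) :=
    IsLocalization.AtPrime.isDiscreteValuationRing_of_dedekind_domain (IC (B0 t g)) hne _
  obtain ⟨ex, h1, h2, h3, -⟩ := exists_expansion_at c (RingHom.ker c) (fun a => Iff.rfl)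
  refine ⟨ex, h1, h2, fun n s => ?_⟩
  obtain ⟨a, ha⟩ := h3 n s
  exact ⟨a, (dvd_sub_comm).mp ha⟩

end Vale.Agent.P292.Mo
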