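import Vale.Agent.P292.Mo.Defs

/-! # P292 Part II: the morphism part of the curve (F5a) -/

namespace Vale.Agent.P292.Mo

open MvPolynomial

universe u v w

variable {k : Type u} [Field k] {K : Type w} [Field K] [Algebra k K]

theorem F5a_isIntegral_of_eq {A : Type*} [CommRing A] [Nontrivial A] [Algebra A K] {x : K} {m : ℕ}
    (c : ℕ → A)
    (h : x ^ m + ∑ i ∈ Finset.range m, algebraMap A K (c (i + 1)) * x ^ (m - (i + 1)) = 0) :
    IsIntegral A x := by
  refine ⟨Polynomial.X ^ m + ∑ i ∈ Finset.range m,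
    Polynomial.C (c (i + 1)) * Polynomial.X ^ (m - (i + 1)), ?_, ?_⟩
  · refine Polynomial.monic_X_pow_add ?_
    refine Polynomial.mem_degreeLT.1 (Submodule.sum_mem _ fun i hi => Polynomial.mem_degreeLT.2 ?_)
    have hi := Finset.mem_range.1 hi
    refine lt_of_le_of_lt (Polynomial.degree_C_mul_X_pow_le _ _) ?_
    exact_mod_cast (by omega : m - (i + 1) < m)
  · rw [← h]
    simp [Polynomial.eval₂_finsetSum, Polynomial.eval₂_add]

theorem mem_IC {B : Subalgebra k K} {x : K} : x ∈ IC B ↔ IsIntegral B x := Iff.rfl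

theorem le_IC (B : Subalgebra k K) : B ≤ IC B := fun x hx =>
  mem_IC.2 (isIntegral_algebraMap (R := B) (A := K) (x := ⟨x, hx⟩))

theorem F5a_aeval_mem {B : Subalgebra k K} {t : K} (ht : t ∈ B) (p : Polynomial k) :
    Polynomial.aeval t p ∈ B := by
  have := Subalgebra.aeval_coe B (⟨t, ht⟩ : B) p
  change Polynomial.aeval t p = _ at this
  rw [this]
  exact SetLike.coe_mem _

theorem t_mem_B0 (t : K) (g : Polynomial k) : t ∈ B0 t g := Algebra.subset_adjoin (Or.inl rfl)

theorem aeval_mem_B0 (t : K) (g p : Polynomial k) : Polynomial.aeval t p ∈ B0 t g :=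
  F5a_aeval_mem (t_mem_B0 t g) p

theorem F5a_aeval_ne {t : K} (ht : Transcendental k t) {p : Polynomial k} (hp : p ≠ 0) :
    Polynomial.aeval t p ≠ 0 := fun h => hp (by
  by_contra h0
  exact ht ⟨p, h0, h⟩)

theorem F5a_coprime {g : Polynomial k} {l : k} (hl : g.eval l ≠ 0) (m : ℕ) :
    IsCoprime ((Polynomial.X - Polynomial.C l) ^ m) g := by
  refine IsCoprime.pow_left ?_
  refine ((Polynomial.irreducible_X_sub_C l).coprime_iff_not_dvd).2 fun h => hl ?_
  exact Polynomial.dvd_iff_isRoot.1 h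

theorem F5a_aeval_pow (t : K) (l : k) (m : ℕ) :
    Polynomial.aeval t ((Polynomial.X - Polynomial.C l) ^ m) = (t - algebraMap k K l) ^ m := by
  simp

/-- `c(t) / (t - l)^m` lies in `B1` for `deg c ≤ m`. -/
theorem F5a_mem_B1 {t : K} (ht : Transcendental k t) {g : Polynomial k} {l : k}
    (hl : g.eval l ≠ 0) (c : Polynomial k) {m : ℕ} (hc : c.natDegree ≤ m) :
    ((t - algebraMap k K l)⁻¹) ^ m * Polynomial.aeval t c ∈ B1 t g := by
  refine ⟨c, (Polynomial.X - Polynomial.C l) ^ m, ?_, F5a_coprime hl m, ?_, ?_⟩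
  · exact F5a_aeval_ne ht (pow_ne_zero _ (Polynomial.X_sub_C_ne_zero l))
  · rw [Polynomial.natDegree_pow, Polynomial.natDegree_X_sub_C, mul_one]
    exact hc
  · rw [F5a_aeval_pow, inv_pow, mul_comm, div_eq_mul_inv]

/-- a linear combination with prescribed values -/
theorem F5a_exists_comb {n : ℕ} {a b : Fin n → k} (hab : LinearIndependent k ![a, b]) (c₀ c₁ : k) :
    ∃ α : Fin n → k, ∑ i, α i * a i = c₀ ∧ ∑ i, α i * b i = c₁ := by
  obtain ⟨f, hf⟩ := LinearMap.exists_extend ((Module.Basis.span hab).constr k ![c₀, c₁])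
  have h : ∀ j, f (![a, b] j) = ![c₀, c₁] j := by
    intro j
    rw [← (Module.Basis.span hab).constr_basis k ![c₀, c₁] j, ← hf, LinearMap.comp_apply,
      Submodule.subtype_apply, Module.Basis.span_apply]
  refine ⟨fun i => f (fun j => if i = j then 1 else 0), ?_, ?_⟩
  · have := h 0
    rw [Matrix.cons_val_zero, Matrix.cons_val_zero, LinearMap.pi_apply_eq_sum_univ] at this
    rw [← this]
    exact Finset.sum_congr rfl fun i _ => by rw [smul_eq_mul, mul_comm]
  · have := h 1
    rw [Matrix.cons_val_one, Matrix.cons_val_one, LinearMap.pi_apply_eq_sum_univ] at this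
    simp only [Matrix.cons_val_zero] at this
    rw [← this]
    exact Finset.sum_congr rfl fun i _ => by rw [smul_eq_mul, mul_comm]

variable {R : Type v} [CommRing R] [Algebra k R] {𝒜 : ℕ → Submodule k R}

/-- an element of degree `e` with value `c₀ + c₁ t^e` -/
theorem F5a_exists_elem {p e n : ℕ} {y : Fin n → R} (hN : IsNoe 𝒜 p e y) {t : K}
    {φ : R →ₐ[k] K} {a b : Fin n → k} (h : IsFF e y t φ a b) (c₀ c₁ : k) :
    ∃ r ∈ 𝒜 e, φ r = algebraMap k K c₀ + algebraMap k K c₁ * t ^ e := by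
  obtain ⟨α, h0, h1⟩ := F5a_exists_comb h.li c₀ c₁
  refine ⟨∑ i, α i • y i, Submodule.sum_mem _ fun i _ => Submodule.smul_mem _ _ (hN.hom i), ?_⟩
  rw [map_sum, ← h0, ← h1, map_sum, map_sum, Finset.sum_mul, ← Finset.sum_add_distrib]
  refine Finset.sum_congr rfl fun i _ => ?_
  rw [map_smul, h.val, Algebra.smul_def, map_mul, map_mul]
  ring

/-- **F5a**: the morphism. -/
theorem mp_IC_of [IsAlgClosed k] {p e n : ℕ} {y : Fin n → R} (hN : IsNoe 𝒜 p e y) {t : K}
    {φ : R →ₐ[k] K} {a b : Fin n → k} (h : IsFF e y t φ a b)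
    (hF2 : ∀ (j : ℕ) (r : R), r ∈ 𝒜 j → ∃ (m : ℕ) (c : ℕ → Polynomial k),
      (∀ i, (c i).natDegree ≤ j * i) ∧
      φ r ^ m + ∑ i ∈ Finset.range m, Polynomial.aeval t (c (i + 1)) * φ r ^ (m - (i + 1)) = 0)
    {g : Polynomial k} (hg : g ≠ 0) (l : k) (hl : g.eval l ≠ 0) :
    IsMp 𝒜 (IC (B0 t g)) (IC (B1 t g)) (t - algebraMap k K l)⁻¹ φ where
  u_ne := by
    refine inv_ne_zero ?_
    have := F5a_aeval_ne h.transc (Polynomial.X_sub_C_ne_zero l)
    simpa using this
  sec := by
    intro j r hr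
    obtain ⟨m, c, hc, heq⟩ := hF2 j r hr
    rw [mem_Sec]
    constructor
    · exact F5a_isIntegral_of_eq (A := B0 t g) (fun i => ⟨_, aeval_mem_B0 t g (c i)⟩) heq
    · refine F5a_isIntegral_of_eq (A := B1 t g) (m := m)
        (fun i => ⟨_, F5a_mem_B1 h.transc hl (c i) (hc i)⟩) ?_
      set v := (t - algebraMap k K l)⁻¹ with hv
      have h2 : v ^ (j * m) * (φ r ^ m + ∑ i ∈ Finset.range m,
          Polynomial.aeval t (c (i + 1)) * φ r ^ (m - (i + 1))) = 0 := by rw [heq, mul_zero]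
      rw [← h2, mul_add, Finset.mul_sum]
      congr 1
      · rw [mul_pow, ← pow_mul]
      · refine Finset.sum_congr rfl fun i hi => ?_
        have hi := Finset.mem_range.1 hi
        have h3 : j * m = j * (i + 1) + j * (m - (i + 1)) := by
          rw [← mul_add]
          congr 1
          omega
        have h4 : (algebraMap (B1 t g) K) ⟨_, F5a_mem_B1 h.transc hl (c (i + 1)) (hc (i + 1))⟩ =
          v ^ (j * (i + 1)) * Polynomial.aeval t (c (i + 1)) := rfl
        rw [h4, h3, pow_add, mul_pow, ← pow_mul]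
        ring
  unit0 := by
    obtain ⟨r, hr, hr1⟩ := F5a_exists_elem hN h 1 0
    have h1 : φ r = 1 := by rw [hr1]; simp
    refine ⟨e, hN.e_pos, r, hr, ?_, ?_⟩
    · rw [h1]
      exact one_ne_zero
    · rw [h1, inv_one]
      exact Subalgebra.one_mem _
  unit1 := by
    classical
    obtain ⟨c₀, hc₀⟩ := Infinite.exists_notMem_finset (g.roots.toFinset.image fun ρ => -ρ ^ e)
    obtain ⟨r, hr, hr1⟩ := F5a_exists_elem hN h c₀ 1
    have h1 : φ r = Polynomial.aeval t (Polynomial.X ^ e + Polynomial.C c₀) := by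
      rw [hr1]
      simp [add_comm]
    have hb0 : (Polynomial.X ^ e + Polynomial.C c₀ : Polynomial k) ≠ 0 :=
      Polynomial.X_pow_add_C_ne_zero hN.e_pos c₀
    have hne := F5a_aeval_ne h.transc hb0
    refine ⟨e, hN.e_pos, r, hr, ?_, ?_⟩
    · rw [h1]
      exact hne
    · refine le_IC _ ⟨(Polynomial.X - Polynomial.C l) ^ e, Polynomial.X ^ e + Polynomial.C c₀,
        hne, ?_, ?_, ?_⟩
      · refine (Polynomial.isCoprime_iff_aeval_ne_zero_of_isAlgClosed k k _ _).2 fun ρ => ?_
        by_contra hcon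
        push Not at hcon
        obtain ⟨h2, h3⟩ := hcon
        apply hc₀
        rw [Finset.mem_image]
        refine ⟨ρ, ?_, ?_⟩
        · rw [Multiset.mem_toFinset, Polynomial.mem_roots hg]
          simpa using h3
        · have h4 : ρ ^ e + c₀ = 0 := by simpa using h2
          linear_combination -h4
      · rw [Polynomial.natDegree_X_pow_add_C, Polynomial.natDegree_pow,
          Polynomial.natDegree_X_sub_C, mul_one]
      · rw [h1, F5a_aeval_pow, mul_inv, inv_pow, inv_inv, div_eq_mul_inv]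

end Vale.Agent.P292.Mo
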