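import Vale.Agent.P292.Mo.Defs

/-! # F4a: frames of the same size along a map to a field. -/

namespace Vale.Agent.P292.Mo

universe u v w

variable {k : Type u} [Field k] {K : Type w} [Field K] [Algebra k K]

theorem frame_card_le {R : Type v} [CommRing R] [Algebra k R] {𝒜 : ℕ → Submodule k R}
    {P : R →ₗ[k] R →ₗ[k] R} (halt : ∀ a, P a a = 0)
    (hlei : ∀ a b c, P a (b * c) = P a b * c + b * P a c) (φ : R →ₐ[k] K) {N N' : ℕ}
    {x : Fin N → R} {d : Fin N → ℕ} {g : R} (h : IsFr 𝒜 x d g) (hg : φ g ≠ 0)
    {x' : Fin N' → R} (h0' : φ (brM P x').det ≠ 0) : N' ≤ N := by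
  classical
  let δ : R → Derivation k R R := fun a => Derivation.mk' (P a) (fun b c => by
    rw [hlei, smul_eq_mul, smul_eq_mul]; ring)
  have hanti : ∀ a b, P a b = - P b a := by
    intro a b
    have h1 := halt (a + b)
    simp only [map_add, LinearMap.add_apply, halt, zero_add, add_zero] at h1
    linear_combination h1
  have key : ∀ a b : R, ∀ c : Fin N → R, g • KaehlerDifferential.D k R b =
      ∑ i, c i • KaehlerDifferential.D k R (x i) → g * P a b = ∑ i, c i * P a (x i) := by
    intro a b c hc
    have h1 := congrArg ((δ a).liftKaehlerDifferential) hc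
    simp only [map_smul, map_sum, Derivation.liftKaehlerDifferential_comp_D, smul_eq_mul] at h1
    exact h1
  choose c hc using h.gen
  have hMM : ∀ a b, g * g * P a b = ∑ i, ∑ j, c a i * P (x i) (x j) * c b j := by
    intro a b
    have h1 := key a b (c b) (hc b)
    have h2 : ∀ j, g * P a (x j) = ∑ i, c a i * P (x i) (x j) := by
      intro j
      have h3 := key (x j) a (c a) (hc a)
      have h4 : g * P a (x j) = - (g * P (x j) a) := by rw [hanti a (x j), mul_neg]
      rw [h4, h3, ← Finset.sum_neg_distrib]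
      refine Finset.sum_congr rfl fun i _ => ?_
      rw [hanti (x j) (x i), mul_neg, neg_neg]
    calc g * g * P a b = g * (g * P a b) := by ring
      _ = ∑ j, (g * P a (x j)) * c b j := by
          rw [h1, Finset.mul_sum]
          exact Finset.sum_congr rfl fun j _ => by ring
      _ = ∑ j, ∑ i, c a i * P (x i) (x j) * c b j := by
          refine Finset.sum_congr rfl fun j _ => ?_
          rw [h2, Finset.sum_mul]
      _ = _ := Finset.sum_comm
  set M : Matrix (Fin N) (Fin N) K := (brM P x).map φ with hM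
  set M' : Matrix (Fin N') (Fin N') K := (brM P x').map φ with hM'
  set C : Matrix (Fin N') (Fin N) K := Matrix.of fun i j => φ (c (x' i) j) with hC
  have hprod : (φ g * φ g) • M' = C * M * C.transpose := by
    ext i j
    rw [Matrix.smul_apply, smul_eq_mul, Matrix.mul_apply]
    have h5 := congrArg φ (hMM (x' i) (x' j))
    simp only [map_mul, map_sum] at h5
    rw [show M' i j = φ (P (x' i) (x' j)) from rfl, h5, Finset.sum_comm]
    refine Finset.sum_congr rfl fun b _ => ?_
    rw [Matrix.mul_apply, Finset.sum_mul]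
    rfl
  have hdet : M'.det ≠ 0 := by
    rw [hM']
    have h6 : φ (brM P x').det = ((brM P x').map φ).det := by
      rw [AlgHom.map_det]
      rfl
    rwa [← h6]
  have hrank : ((φ g * φ g) • M').rank = N' := by
    rw [Matrix.rank_of_isUnit, Fintype.card_fin]
    rw [Matrix.isUnit_iff_isUnit_det, Matrix.det_smul]
    exact (IsUnit.mk0 _ (mul_ne_zero (pow_ne_zero _ (mul_ne_zero hg hg)) hdet))
  calc N' = ((φ g * φ g) • M').rank := hrank.symm
    _ = (C * M * C.transpose).rank := by rw [hprod]
    _ ≤ (C * M).rank := Matrix.rank_mul_le_left _ _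
    _ ≤ C.rank := Matrix.rank_mul_le_left _ _
    _ ≤ Fintype.card (Fin N) := Matrix.rank_le_card_width _
    _ = N := Fintype.card_fin N

/-- F4a: frames of the same size along a map to a field. -/
theorem frame_card_eq {R : Type v} [CommRing R] [Algebra k R] {𝒜 : ℕ → Submodule k R}
    [GradedAlgebra 𝒜] {P : R →ₗ[k] R →ₗ[k] R} (hP : IsPM 𝒜 P) (φ : R →ₐ[k] K) {N N' : ℕ}
    {x : Fin N → R} {d : Fin N → ℕ} {g : R} (h : IsFr 𝒜 x d g) (h0 : φ (g * (brM P x).det) ≠ 0)
    {x' : Fin N' → R} {d' : Fin N' → ℕ} {g' : R} (h' : IsFr 𝒜 x' d' g')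
    (h0' : φ (g' * (brM P x').det) ≠ 0) : N = N' := by
  rw [map_mul] at h0 h0'
  exact le_antisymm
    (frame_card_le hP.alternating hP.leibniz φ h' (left_ne_zero_of_mul h0')
      (right_ne_zero_of_mul h0))
    (frame_card_le hP.alternating hP.leibniz φ h (left_ne_zero_of_mul h0)
      (right_ne_zero_of_mul h0'))

end Vale.Agent.P292.Mo
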