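import Mathlib

/-! Block II.c: scaling of a family of graded homomorphisms with a pole. -/

namespace Vale.Agent.P292.Mo.Sc

open scoped DirectSum

section twist

variable {k R B : Type*} [CommRing k] [CommRing R] [Algebra k R] (𝒜 : ℕ → Submodule k R)
  [GradedAlgebra 𝒜] [CommRing B] [Algebra k B]

/-- the pieces of the twist -/
noncomputable def twistAux (φ : R →ₐ[k] B) (t : B) (i : ℕ) : 𝒜 i →ₗ[k] B :=
  (LinearMap.mulLeft k (t ^ i)) ∘ₗ φ.toLinearMap ∘ₗ (𝒜 i).subtype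

lemma twistAux_one (φ : R →ₐ[k] B) (t : B) :
    twistAux 𝒜 φ t _ (GradedMonoid.GOne.one (A := fun i => 𝒜 i)) = 1 := by
  change t ^ 0 * φ 1 = 1
  rw [pow_zero, map_one, one_mul]

lemma twistAux_mul (φ : R →ₐ[k] B) (t : B) {i j : ℕ} (a : 𝒜 i) (b : 𝒜 j) :
    twistAux 𝒜 φ t _ (GradedMonoid.GMul.mul (A := fun i => 𝒜 i) a b) =
      twistAux 𝒜 φ t _ a * twistAux 𝒜 φ t _ b := by
  change t ^ (i + j) * φ (a * b) = t ^ i * φ a * (t ^ j * φ b)
  rw [map_mul, pow_add]
  ring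

/-- twist of a homomorphism by powers of an element, according to the degree -/
noncomputable def twist (φ : R →ₐ[k] B) (t : B) : R →ₐ[k] B :=
  (DirectSum.toAlgebra k (fun i => 𝒜 i) (twistAux 𝒜 φ t) (twistAux_one 𝒜 φ t)
    (twistAux_mul 𝒜 φ t)).comp (DirectSum.decomposeAlgEquiv 𝒜).toAlgHom

lemma twist_apply (φ : R →ₐ[k] B) (t : B) {n : ℕ} {r : R} (hr : r ∈ 𝒜 n) :
    twist 𝒜 φ t r = t ^ n * φ r := by
  classical
  have h : (DirectSum.decomposeAlgEquiv 𝒜).toAlgHom r =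
      DirectSum.of (fun i => 𝒜 i) n ⟨r, hr⟩ := by
    change DirectSum.decompose 𝒜 r = _
    rw [DirectSum.decompose_of_mem 𝒜 hr]
  rw [twist, AlgHom.comp_apply, h]
  exact DirectSum.toSemiring_of (fun i => (twistAux 𝒜 φ t i).toAddMonoidHom)
    (twistAux_one 𝒜 φ t) (twistAux_mul 𝒜 φ t) n ⟨r, hr⟩

end twist

section laurent

variable {k B : Type*} [CommRing k] [CommRing B] [Algebra k B]

/-- the embedding of the integers used for `τ ↦ τ ^ e` -/
def mulEmb (e : ℕ) (he : 0 < e) : ℤ ↪o ℤ where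
  toFun i := e * i
  inj' a b h := by
    have he' : (e : ℤ) ≠ 0 := by exact_mod_cast he.ne'
    exact mul_left_cancel₀ he' h
  map_rel_iff' {a b} := by
    have he' : (0 : ℤ) < e := by exact_mod_cast he
    exact mul_le_mul_iff_of_pos_left he'

/-- substitution `τ ↦ τ ^ e` -/
noncomputable def expand (k : Type*) {B : Type*} [CommRing k] [CommRing B] [Algebra k B]
    (e : ℕ) (he : 0 < e) : LaurentSeries B →ₐ[k] LaurentSeries B :=
  { HahnSeries.embDomainRingHom (AddMonoidHom.mulLeft (e : ℤ)) (mulEmb e he).injective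
      (fun _ _ => (mulEmb e he).map_rel_iff) with
    commutes' := fun c => by
      rw [HahnSeries.algebraMap_apply', PowerSeries.algebraMap_apply, HahnSeries.ofPowerSeries_C]
      exact HahnSeries.embDomainRingHom_C }

lemma expand_eq (e : ℕ) (he : 0 < e) (x : LaurentSeries B) :
    expand k e he x = HahnSeries.embDomain (mulEmb e he) x := rfl

lemma expand_coeff_mul (e : ℕ) (he : 0 < e) (x : LaurentSeries B) (i : ℤ) :
    (expand k e he x).coeff (e * i) = x.coeff i := by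
  rw [expand_eq]
  exact HahnSeries.embDomain_coeff

lemma expand_coeff_of_not_dvd (e : ℕ) (he : 0 < e) (x : LaurentSeries B) (j : ℤ)
    (h : ¬ (e : ℤ) ∣ j) : (expand k e he x).coeff j = 0 := by
  rw [expand_eq]
  refine HahnSeries.embDomain_of_notMem_range ?_
  rintro ⟨i, hi⟩
  exact h ⟨i, hi.symm⟩

lemma single_mul_coeff (a : ℤ) (x : LaurentSeries B) (j : ℤ) :
    (HahnSeries.single a (1 : B) * x).coeff j = x.coeff (j - a) := by
  rw [HahnSeries.coeff_single_mul, one_mul]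

/-- power series as Laurent series -/
noncomputable def ofPS (k B : Type*) [CommRing k] [CommRing B] [Algebra k B] :
    PowerSeries B →ₐ[k] LaurentSeries B :=
  { HahnSeries.ofPowerSeries ℤ B with
    commutes' := fun c => (HahnSeries.algebraMap_apply' (Γ := ℤ) (R := B) c).symm }

lemma ofPS_apply (y : PowerSeries B) : ofPS k B y = HahnSeries.ofPowerSeries ℤ B y := rfl

lemma ofPS_coeff_nat (y : PowerSeries B) (n : ℕ) :
    (ofPS k B y).coeff (n : ℤ) = PowerSeries.coeff n y :=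
  LaurentSeries.coeff_coe_powerSeries y n

lemma ofPS_coeff_neg (y : PowerSeries B) (i : ℤ) (hi : i < 0) :
    (ofPS k B y).coeff i = 0 := by
  rw [ofPS_apply, HahnSeries.ofPowerSeries_apply]
  refine HahnSeries.embDomain_of_notMem_range ?_
  rintro ⟨n, hn⟩
  have : (n : ℤ) = i := hn
  omega

lemma ofPS_injective : Function.Injective (ofPS k B) := HahnSeries.ofPowerSeries_injective

lemma mem_range_ofPS {x : LaurentSeries B} :
    x ∈ (ofPS k B).range ↔ ∀ i : ℤ, i < 0 → x.coeff i = 0 := by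
  constructor
  · rintro ⟨y, rfl⟩ i hi
    exact ofPS_coeff_neg y i hi
  · intro h
    refine ⟨PowerSeries.mk fun n => x.coeff n, ?_⟩
    ext i
    rcases lt_or_ge i 0 with hi | hi
    · rw [h i hi]
      exact ofPS_coeff_neg _ i hi
    · obtain ⟨n, rfl⟩ := Int.eq_ofNat_of_zero_le hi
      exact (ofPS_coeff_nat (k := k) _ n).trans (PowerSeries.coeff_mk _ _)

lemma mem_range_ofPowerSeries {x : LaurentSeries B} :
    x ∈ Set.range (HahnSeries.ofPowerSeries ℤ B) ↔ ∀ i : ℤ, i < 0 → x.coeff i = 0 := by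
  rw [← mem_range_ofPS (k := B)]
  exact Iff.rfl

end laurent

section scale

variable {k R B : Type*} [CommRing k] [CommRing R] [Algebra k R] (𝒜 : ℕ → Submodule k R)
  [GradedAlgebra 𝒜] [CommRing B] [Algebra k B]

/-- a homomorphism maps into a subalgebra if the generators do -/
lemma forall_mem_of_adjoin {C : Type*} [CommRing C] [Algebra k C] (φ : R →ₐ[k] C) (s : Set R)
    (hs : Algebra.adjoin k s = ⊤) (Q : Subalgebra k C) (hQ : ∀ r ∈ s, φ r ∈ Q) (r : R) :
    φ r ∈ Q := by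
  have hr : r ∈ Algebra.adjoin k s := by rw [hs]; trivial
  have h : Algebra.adjoin k s ≤ Q.comap φ := Algebra.adjoin_le hQ
  exact h hr

/-- a power series lift -/
lemma exists_lift (φ : R →ₐ[k] LaurentSeries B) (h : ∀ r, φ r ∈ (ofPS k B).range) :
    ∃ φ' : R →ₐ[k] PowerSeries B, ∀ r, ofPS k B (φ' r) = φ r := by
  let e := AlgEquiv.ofInjective (ofPS k B) ofPS_injective
  refine ⟨e.symm.toAlgHom.comp (φ.codRestrict (ofPS k B).range h), fun r => ?_⟩
  have h1 : e (e.symm (φ.codRestrict (ofPS k B).range h r)) = φ.codRestrict _ h r :=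
    e.apply_symm_apply _
  exact congrArg Subtype.val h1

/-- General scaling: a homomorphism to Laurent series can be rescaled, according to the degree,
to a homomorphism to power series whose reduction is not the vertex. -/
theorem exists_scaled (φ : R →ₐ[k] LaurentSeries B) (s : Finset R)
    (hs : Algebra.adjoin k (s : Set R) = ⊤) (hdeg : ∀ x ∈ s, ∃ n, 0 < n ∧ x ∈ 𝒜 n)
    (hne : ∃ x ∈ s, φ x ≠ 0) :
    ∃ (e : ℕ) (he : 0 < e) (a : ℤ) (φ' : R →ₐ[k] PowerSeries B),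
      (∀ n, ∀ r ∈ 𝒜 n, ofPS k B (φ' r) = HahnSeries.single (a * n) 1 * expand k e he (φ r)) ∧
      ∃ x ∈ s, ∃ n, 0 < n ∧ x ∈ 𝒜 n ∧ PowerSeries.constantCoeff (φ' x) ≠ 0 := by
  classical
  choose! d hd0 hd using hdeg
  obtain ⟨x, hx, hmax⟩ := (s.filter fun x => φ x ≠ 0).exists_min_image
    (fun x => ((φ x).order : ℚ) / d x) (by
      obtain ⟨x, hx, hx'⟩ := hne
      exact ⟨x, Finset.mem_filter.mpr ⟨hx, hx'⟩⟩)
  rw [Finset.mem_filter] at hx
  obtain ⟨hxs, hx0⟩ := hx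
  have he : 0 < d x := hd0 x hxs
  let t : LaurentSeries B := HahnSeries.single (-(φ x).order) (1 : B)
  let ψ : R →ₐ[k] LaurentSeries B := twist 𝒜 ((expand k (d x) he).comp φ) t
  have hψ : ∀ n, ∀ r ∈ 𝒜 n, ψ r =
      HahnSeries.single (-(φ x).order * n) 1 * expand k (d x) he (φ r) := by
    intro n r hr
    change twist 𝒜 _ t r = _
    rw [twist_apply 𝒜 _ t hr]
    change t ^ n * _ = _
    congr 1
    change (HahnSeries.single (-(φ x).order) (1 : B)) ^ n = _
    rw [HahnSeries.single_pow, one_pow, nsmul_eq_mul, mul_comm]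
  have hreg : ∀ r, ψ r ∈ (ofPS k B).range := by
    refine forall_mem_of_adjoin ψ s hs _ fun y hy => ?_
    rw [mem_range_ofPS]
    intro i hi
    rw [hψ _ y (hd y hy), single_mul_coeff]
    by_cases hdv : ((d x : ℕ) : ℤ) ∣ i - -(φ x).order * (d y : ℤ)
    · obtain ⟨j, hj⟩ := hdv
      rw [hj, expand_coeff_mul]
      by_cases hy0 : φ y = 0
      · rw [hy0]; rfl
      · apply HahnSeries.coeff_eq_zero_of_lt_order
        have h1 := hmax y (Finset.mem_filter.mpr ⟨hy, hy0⟩)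
        have hx' : (0 : ℚ) < d x := by exact_mod_cast he
        have hy' : (0 : ℚ) < d y := by exact_mod_cast hd0 y hy
        rw [div_le_div_iff₀ hx' hy'] at h1
        have h2 : (φ x).order * (d y : ℤ) ≤ (φ y).order * (d x : ℤ) := by exact_mod_cast h1
        by_contra hcon
        push Not at hcon
        have he' : (0 : ℤ) < d x := by exact_mod_cast he
        nlinarith
    · exact expand_coeff_of_not_dvd _ _ _ _ hdv
  obtain ⟨φ', hφ'⟩ := exists_lift ψ hreg
  refine ⟨d x, he, -(φ x).order, φ', fun n r hr => by rw [hφ', hψ n r hr], x, hxs, d x, he,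
    hd x hxs, ?_⟩
  have h1 : (ofPS k B (φ' x)).coeff ((0 : ℕ) : ℤ) = PowerSeries.coeff 0 (φ' x) :=
    ofPS_coeff_nat (φ' x) 0
  rw [← PowerSeries.coeff_zero_eq_constantCoeff_apply, ← h1, hφ', hψ _ x (hd x hxs),
    single_mul_coeff]
  have h2 : (((0 : ℕ) : ℤ) - -(φ x).order * (d x : ℤ)) = (d x : ℤ) * (φ x).order := by
    push_cast; ring
  rw [h2, expand_coeff_mul]
  exact HahnSeries.coeff_order_eq_zero.not.mpr hx0

omit [GradedAlgebra 𝒜] in
/-- coefficients of the rescaled homomorphism -/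
lemma coeff_scaled {φ : R →ₐ[k] LaurentSeries B} {e : ℕ} {he : 0 < e} {a : ℤ}
    {φ' : R →ₐ[k] PowerSeries B}
    (h : ∀ n, ∀ r ∈ 𝒜 n, ofPS k B (φ' r) = HahnSeries.single (a * n) 1 * expand k e he (φ r))
    {n : ℕ} {r : R} (hr : r ∈ 𝒜 n) (j : ℕ) :
    PowerSeries.coeff j (φ' r) = (expand k e he (φ r)).coeff (j - a * n) := by
  rw [← ofPS_coeff_nat (k := k), h n r hr, single_mul_coeff]

omit [GradedAlgebra 𝒜] in
lemma coeff_scaled_neg {φ : R →ₐ[k] LaurentSeries B} {e : ℕ} {he : 0 < e} {a : ℤ}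
    {φ' : R →ₐ[k] PowerSeries B}
    (h : ∀ n, ∀ r ∈ 𝒜 n, ofPS k B (φ' r) = HahnSeries.single (a * n) 1 * expand k e he (φ r))
    {n : ℕ} {r : R} (hr : r ∈ 𝒜 n) (i : ℤ) (hi : e * i + a * n < 0) :
    (φ r).coeff i = 0 := by
  have h1 := ofPS_coeff_neg (k := k) (φ' r) _ hi
  rw [h n r hr, single_mul_coeff, add_sub_cancel_right, expand_coeff_mul] at h1
  exact h1

/-- (S1) scaling in the presence of a pole -/
theorem exists_scaled_of_pole (φ : R →ₐ[k] LaurentSeries B) (s : Finset R)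
    (hs : Algebra.adjoin k (s : Set R) = ⊤) (hdeg : ∀ x ∈ s, ∃ n, 0 < n ∧ x ∈ 𝒜 n)
    (hpole : ∃ r, φ r ∉ Set.range (HahnSeries.ofPowerSeries ℤ B)) :
    ∃ (e : ℕ) (he : 0 < e) (μ : ℕ) (φ' : R →ₐ[k] PowerSeries B), 0 < μ ∧
      (∀ n, ∀ r ∈ 𝒜 n, ofPS k B (φ' r) =
        HahnSeries.single (μ * n : ℤ) 1 * expand k e he (φ r)) ∧
      ∃ x ∈ s, ∃ n, 0 < n ∧ x ∈ 𝒜 n ∧ PowerSeries.constantCoeff (φ' x) ≠ 0 := by
  have hgen : ∃ x ∈ s, φ x ∉ (ofPS k B).range := by
    by_contra hcon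
    push Not at hcon
    obtain ⟨r, hr⟩ := hpole
    exact hr (forall_mem_of_adjoin φ s hs _ hcon r)
  obtain ⟨y, hy, hy'⟩ := hgen
  obtain ⟨e, he, a, φ', h1, h2⟩ := exists_scaled 𝒜 φ s hs hdeg ⟨y, hy, fun h => hy' (by
    rw [h]; exact zero_mem _)⟩
  have ha : 0 < a := by
    by_contra hcon
    push Not at hcon
    apply hy'
    rw [mem_range_ofPS]
    intro i hi
    obtain ⟨n, hn, hyn⟩ := hdeg y hy
    refine coeff_scaled_neg 𝒜 h1 hyn i ?_
    have h3 : (e : ℤ) * i < 0 := mul_neg_of_pos_of_neg (by exact_mod_cast he) hi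
    have h4 : a * (n : ℤ) ≤ 0 := mul_nonpos_of_nonpos_of_nonneg hcon (by positivity)
    linarith
  obtain ⟨μ, rfl⟩ := Int.eq_ofNat_of_zero_le ha.le
  exact ⟨e, he, μ, φ', by exact_mod_cast ha, h1, h2⟩

omit [GradedAlgebra 𝒜] in
/-- (S2) values at a mark -/
theorem mark_scaled {C : Type*} [CommRing C] [Algebra k C] {φ : R →ₐ[k] LaurentSeries B}
    {e : ℕ} {he : 0 < e} {μ : ℕ} {φ' : R →ₐ[k] PowerSeries B}
    (h : ∀ n, ∀ r ∈ 𝒜 n, ofPS k B (φ' r) =
      HahnSeries.single (μ * n : ℤ) 1 * expand k e he (φ r))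
    (c : B →ₐ[k] C) (w : R → C)
    (hmark : ∀ r (i : ℤ), c ((φ r).coeff i) = if i = 0 then w r else 0)
    {n : ℕ} {r : R} (hr : r ∈ 𝒜 n) (j : ℕ) :
    c (PowerSeries.coeff j (φ' r)) = if j = μ * n then w r else 0 := by
  rw [coeff_scaled 𝒜 h hr]
  by_cases hdv : (e : ℤ) ∣ (j - μ * n : ℤ)
  · obtain ⟨i, hi⟩ := hdv
    rw [hi, expand_coeff_mul, hmark]
    by_cases hi0 : i = 0
    · rw [if_pos hi0, if_pos]
      rw [hi0, mul_zero, sub_eq_zero] at hi
      exact_mod_cast hi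
    · rw [if_neg hi0, if_neg]
      intro h3
      rw [h3] at hi
      push_cast at hi
      rw [sub_self] at hi
      rcases mul_eq_zero.mp hi.symm with h4 | h4
      · have : e = 0 := by exact_mod_cast h4
        omega
      · exact hi0 h4
  · rw [expand_coeff_of_not_dvd _ _ _ _ hdv, map_zero, if_neg]
    intro h3
    apply hdv
    rw [h3]
    push_cast
    rw [sub_self]
    exact dvd_zero _

end scale

section order

variable {k R : Type*} [Field k] [CommRing R] [Algebra k R] (𝒜 : ℕ → Submodule k R)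
  [GradedAlgebra 𝒜]

/-- (S3) the order of vanishing of a graded homomorphism at a smooth point is an integer. -/
theorem exists_order (s : Finset R)
    (hs : Algebra.adjoin k (s : Set R) = ⊤) (hdeg : ∀ x ∈ s, ∃ n, 0 < n ∧ x ∈ 𝒜 n)
    (lb : ∀ x : R →ₐ[k] k, (∃ n : ℕ, 0 < n ∧ ∃ r ∈ 𝒜 n, x r ≠ 0) →
      ∀ d : ℕ, (∀ n, ∀ r ∈ 𝒜 n, x r ≠ 0 → d ∣ n) → d = 1)
    (Ψ : R →ₐ[k] PowerSeries k) (hne : ∃ x ∈ s, Ψ x ≠ 0)
    (h0 : ∀ n, 0 < n → ∀ r ∈ 𝒜 n, PowerSeries.constantCoeff (Ψ r) = 0) :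
    ∃ (β : ℕ) (x : R →ₐ[k] k), 0 < β ∧
      (∀ n, ∀ r ∈ 𝒜 n, (PowerSeries.X : PowerSeries k) ^ (β * n) ∣ Ψ r) ∧
      (∀ n, ∀ r ∈ 𝒜 n, x r = PowerSeries.coeff (β * n) (Ψ r)) ∧
      ∃ r ∈ s, ∃ n, 0 < n ∧ r ∈ 𝒜 n ∧ x r ≠ 0 := by
  obtain ⟨e, he, a, φ', h1, y, hys, n, hn, hyn, hy0⟩ := exists_scaled 𝒜
    ((ofPS k k).comp Ψ) s hs hdeg (by
      obtain ⟨x, hx, hx'⟩ := hne
      exact ⟨x, hx, fun h => hx' (ofPS_injective (k := k) (by rw [map_zero]; exact h))⟩)
  have he' : (0 : ℤ) < e := by exact_mod_cast he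
  let x : R →ₐ[k] k :=
    { (PowerSeries.constantCoeff (R := k)).comp φ'.toRingHom with
      commutes' := fun c => by
        change PowerSeries.constantCoeff (φ' (algebraMap k R c)) = _
        rw [AlgHom.commutes, PowerSeries.algebraMap_apply, PowerSeries.constantCoeff_C] }
  have hx : ∀ r, x r = PowerSeries.constantCoeff (φ' r) := fun r => rfl
  have hdvd : ∀ n, ∀ r ∈ 𝒜 n, x r ≠ 0 → (e : ℤ) ∣ a * n := by
    intro n r hr hr0
    by_contra hcon
    apply hr0
    rw [hx, ← PowerSeries.coeff_zero_eq_constantCoeff_apply, coeff_scaled 𝒜 h1 hr]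
    refine expand_coeff_of_not_dvd _ _ _ _ fun h => hcon ?_
    rw [show a * (n : ℤ) = -(((0 : ℕ) : ℤ) - a * n) by push_cast; ring]
    exact (dvd_neg).mpr h
  have hea : (e : ℤ) ∣ a := by
    have hg : Int.gcd e a ≠ 0 := by
      intro h
      rw [Int.gcd_eq_zero_iff] at h
      exact he'.ne' h.1
    obtain ⟨e', a', hcop, h2, h3⟩ := Int.exists_gcd_one (Nat.pos_of_ne_zero hg)
    have hg' : (0 : ℤ) < (Int.gcd e a : ℤ) := by exact_mod_cast Nat.pos_of_ne_zero hg
    have hd : e'.natAbs = 1 := by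
      refine lb x ⟨n, hn, y, hyn, hy0⟩ _ fun m r hr hr0 => ?_
      have h4 := hdvd m r hr hr0
      rw [← Int.natCast_dvd_natCast, Int.natCast_natAbs, abs_dvd]
      have h5 : e' ∣ a' * m := by
        have h6 : e' * (Int.gcd e a : ℤ) ∣ a' * m * (Int.gcd e a : ℤ) := by
          rw [← h2, show a' * (m : ℤ) * (Int.gcd e a : ℤ) = a' * (Int.gcd e a : ℤ) * m by ring,
            ← h3]
          exact h4
        exact (mul_dvd_mul_iff_right hg'.ne').mp h6
      exact (Int.isCoprime_iff_gcd_eq_one.mpr hcop).dvd_of_dvd_mul_left h5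
    have h7 : (e : ℤ) ∣ (Int.gcd e a : ℤ) := by
      have h8 : e' = 1 ∨ e' = -1 := Int.natAbs_eq_iff.mp (by simpa using hd)
      rcases h8 with h8 | h8
      · rw [h8, one_mul] at h2
        exact dvd_of_eq h2
      · rw [h8, neg_one_mul] at h2
        omega
    exact h7.trans (Int.gcd_dvd_right _ _)
  obtain ⟨b, rfl⟩ := hea
  -- coefficients of `x`
  have hxc : ∀ n, ∀ r ∈ 𝒜 n, x r = (ofPS k k (Ψ r)).coeff (-b * n) := by
    intro n r hr
    rw [hx, ← PowerSeries.coeff_zero_eq_constantCoeff_apply, coeff_scaled 𝒜 h1 hr,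
      show (((0 : ℕ) : ℤ) - (e : ℤ) * b * n) = e * (-b * n) by push_cast; ring, expand_coeff_mul]
    rfl
  have hb : b < 0 := by
    by_contra hcon
    push Not at hcon
    apply hy0
    rw [← hx, hxc n y hyn]
    rcases eq_or_lt_of_le hcon with h | h
    · rw [← h, neg_zero, zero_mul]
      have := ofPS_coeff_nat (k := k) (Ψ y) 0
      rw [Nat.cast_zero] at this
      rw [this, PowerSeries.coeff_zero_eq_constantCoeff_apply, h0 n hn y hyn]
    · refine ofPS_coeff_neg _ _ ?_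
      have : (0 : ℤ) < n := by exact_mod_cast hn
      nlinarith
  obtain ⟨β, hβ⟩ := Int.eq_ofNat_of_zero_le (show 0 ≤ -b by linarith)
  have hβ0 : 0 < β := by
    have : (0 : ℤ) < β := by rw [← hβ]; linarith
    exact_mod_cast this
  refine ⟨β, x, hβ0, fun n r hr => ?_, fun n r hr => ?_, y, hys, n, hn, hyn, hy0⟩
  · rw [PowerSeries.X_pow_dvd_iff]
    intro m hm
    rw [← ofPS_coeff_nat (k := k)]
    refine coeff_scaled_neg 𝒜 h1 hr (m : ℤ) ?_
    have h3 : (m : ℤ) < β * n := by exact_mod_cast hm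
    have h4 : b = -(β : ℤ) := by linarith
    rw [h4]
    have : (e : ℤ) * m + e * -(β : ℤ) * n = e * ((m : ℤ) - β * n) := by ring
    rw [this]
    exact mul_neg_of_pos_of_neg he' (by linarith)
  · rw [hxc n r hr, hβ, ← ofPS_coeff_nat (k := k)]
    push_cast
    rfl

end order

end Vale.Agent.P292.Mo.Sc
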