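import Vale.Agent.P292.Mo.Defs
import Vale.Agent.P292.Mo.Scale
import Vale.Agent.P292.Mo.Frame_card_eq

/-! # P292 Part II: frames along the curve (F5b) -/

namespace Vale.Agent.P292.Mo

universe u v w

variable {k : Type u} [Field k] {K : Type w} [Field K] [Algebra k K]
  {R : Type v} [CommRing R] [Algebra k R] {𝒜 : ℕ → Submodule k R} [GradedAlgebra 𝒜]
  {P : R →ₗ[k] R →ₗ[k] R}

theorem F5b_P_one (hP : IsPM 𝒜 P) (a : R) : P a 1 = 0 := by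
  have h := hP.leibniz a 1 1
  simp only [mul_one, one_mul] at h
  have h2 : P a 1 + P a 1 = P a 1 := h.symm
  simpa using h2

theorem F5b_P_zero (hP : IsPM 𝒜 P) (a : R) {b : R} (hb : b ∈ 𝒜 0) : P a b = 0 := by
  obtain ⟨c, rfl⟩ := hP.connected b hb
  rw [Algebra.algebraMap_eq_smul_one, map_smul, F5b_P_one hP, smul_zero]

/-- a bracket of homogeneous elements is homogeneous of the expected integral degree -/
theorem F5b_br (hP : IsPM 𝒜 P) {i j : ℕ} {a b : R} (ha : a ∈ 𝒜 i) (hb : b ∈ 𝒜 j) :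
    P a b = 0 ∨ ∃ n : ℕ, (n : ℤ) = i + j - 1 ∧ P a b ∈ 𝒜 n := by
  rcases Nat.eq_zero_or_pos j with hj | hj
  · subst hj
    exact Or.inl (F5b_P_zero hP a hb)
  · refine Or.inr ⟨i + j - 1, by omega, hP.degree i j _ (by omega) a ha b hb⟩

/-- the determinant is homogeneous of degree `2 ∑ d - N` -/
theorem F5b_det (hP : IsPM 𝒜 P) {N : ℕ} {x : Fin N → R} {d : Fin N → ℕ} (hx : ∀ i, x i ∈ 𝒜 (d i))
    (h0 : (brM P x).det ≠ 0) :
    ∃ m : ℕ, (m : ℤ) = 2 * (∑ i, (d i : ℤ)) - N ∧ (brM P x).det ∈ 𝒜 m := by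
  classical
  have hterm : ∀ σ : Equiv.Perm (Fin N), (∏ i, brM P x (σ i) i) = 0 ∨
      ∃ m : ℕ, (m : ℤ) = 2 * (∑ i, (d i : ℤ)) - N ∧ (∏ i, brM P x (σ i) i) ∈ 𝒜 m := by
    intro σ
    by_cases hz : ∃ i, P (x (σ i)) (x i) = 0
    · obtain ⟨i, hi⟩ := hz
      exact Or.inl (Finset.prod_eq_zero (Finset.mem_univ i) hi)
    · push Not at hz
      have h1 : ∀ i, ∃ n : ℕ, (n : ℤ) = d (σ i) + d i - 1 ∧ P (x (σ i)) (x i) ∈ 𝒜 n := fun i =>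
        (F5b_br hP (hx (σ i)) (hx i)).resolve_left (hz i)
      choose n hn hmem using h1
      refine Or.inr ⟨∑ i, n i, ?_, ?_⟩
      · push_cast
        simp only [hn]
        rw [Finset.sum_sub_distrib, Finset.sum_add_distrib, Equiv.sum_comp σ (fun i => (d i : ℤ))]
        simp
        ring
      · exact SetLike.prod_mem_graded _ _ _ fun i _ => hmem i
  rw [Matrix.det_apply] at h0 ⊢
  obtain ⟨σ, _, hσ⟩ := Finset.exists_ne_zero_of_sum_ne_zero h0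
  have hσ' : (∏ i, brM P x (σ i) i) ≠ 0 := fun h => hσ (by rw [h, smul_zero])
  obtain ⟨m, hm, _⟩ := (hterm σ).resolve_left hσ'
  refine ⟨m, hm, Submodule.sum_mem _ fun τ _ => ?_⟩
  rcases hterm τ with h | ⟨m', hm', h⟩
  · rw [h, smul_zero]
    exact Submodule.zero_mem _
  · have : m' = m := by exact_mod_cast hm'.trans hm.symm
    subst this
    rw [Units.smul_def]
    exact (𝒜 m').toAddSubgroup.zsmul_mem h _

/-- the morphism to the second chart -/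
theorem F5b_twist_mem {A₀ A₁ : Subalgebra k K} {u : K} {φ : R →ₐ[k] K}
    (h : IsMp 𝒜 A₀ A₁ u φ) (r : R) : Sc.twist 𝒜 φ u r ∈ A₁ := by
  classical
  rw [← DirectSum.sum_support_decompose 𝒜 r, map_sum]
  refine Subalgebra.sum_mem _ fun i _ => ?_
  rw [Sc.twist_apply 𝒜 φ u (SetLike.coe_mem _)]
  exact (mem_Sec.1 (h.sec i _ (SetLike.coe_mem _))).2

/-- the point of the variety attached to a closed point of the second chart -/
noncomputable def pt1 {A₀ A₁ : Subalgebra k K} {u : K} {φ : R →ₐ[k] K}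
    (h : IsMp 𝒜 A₀ A₁ u φ) (σ : A₁ →ₐ[k] k) : R →ₐ[k] k :=
  σ.comp ((Sc.twist 𝒜 φ u).codRestrict A₁ (F5b_twist_mem h))

theorem pt1_apply {A₀ A₁ : Subalgebra k K} {u : K} {φ : R →ₐ[k] K}
    (h : IsMp 𝒜 A₀ A₁ u φ) (σ : A₁ →ₐ[k] k) (r : R) :
    pt1 h σ r = σ ⟨Sc.twist 𝒜 φ u r, F5b_twist_mem h r⟩ := rfl

theorem pt1_ne {A₀ A₁ : Subalgebra k K} {u : K} {φ : R →ₐ[k] K}
    (h : IsMp 𝒜 A₀ A₁ u φ) (σ : A₁ →ₐ[k] k) {r : R} (hr : pt1 h σ r ≠ 0) :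
    Sc.twist 𝒜 φ u r ≠ 0 := by
  intro h0
  apply hr
  rw [pt1_apply]
  have : (⟨Sc.twist 𝒜 φ u r, F5b_twist_mem h r⟩ : A₁) = 0 := Subtype.ext h0
  rw [this, map_zero]

theorem pt1_NV {A₀ A₁ : Subalgebra k K} {u : K} {φ : R →ₐ[k] K}
    (h : IsMp 𝒜 A₀ A₁ u φ) (σ : A₁ →ₐ[k] k) : NV 𝒜 (pt1 h σ) := by
  obtain ⟨n, hn, r, hr, h0, hinv⟩ := h.unit1
  refine ⟨n, hn, r, hr, fun h1 => ?_⟩
  have hne : u ^ n * φ r ≠ 0 := mul_ne_zero (pow_ne_zero _ h.u_ne) h0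
  have h2 : (⟨Sc.twist 𝒜 φ u r, F5b_twist_mem h r⟩ : A₁) * ⟨(u ^ n * φ r)⁻¹, hinv⟩ = 1 := by
    apply Subtype.ext
    change Sc.twist 𝒜 φ u r * (u ^ n * φ r)⁻¹ = 1
    rw [Sc.twist_apply 𝒜 φ u hr, mul_inv_cancel₀ hne]
  have h3 := congrArg σ h2
  rw [map_mul, map_one] at h3
  rw [pt1_apply] at h1
  rw [h1, zero_mul] at h3
  exact zero_ne_one h3

/-- the ranks at the closed points of the second chart agree with the generic rank -/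
theorem pt1_rk {A₀ A₁ : Subalgebra k K} {u : K} {φ : R →ₐ[k] K} (hP : IsPM 𝒜 P)
    (h : IsMp 𝒜 A₀ A₁ u φ) (σ : A₁ →ₐ[k] k) {N : ℕ} {x : Fin N → R} {d : Fin N → ℕ} {g : R}
    (hx : IsFr 𝒜 x d g) (h0 : φ (g * (brM P x).det) ≠ 0) : HasRk 𝒜 P (pt1 h σ) N := by
  obtain ⟨N', x', d', g', hx', h0'⟩ := hP.frame _ (pt1_NV h σ)
  have h1 : Sc.twist 𝒜 φ u (g' * (brM P x').det) ≠ 0 := pt1_ne h σ h0'
  have hdet : (brM P x).det ≠ 0 := fun h2 => h0 (by rw [h2, mul_zero, map_zero])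
  obtain ⟨m, _, hm⟩ := F5b_det hP hx.hom hdet
  obtain ⟨l, hl⟩ := hx.ghom
  have h2 : Sc.twist 𝒜 φ u (g * (brM P x).det) ≠ 0 := by
    rw [Sc.twist_apply 𝒜 φ u (SetLike.mul_mem_graded hl hm)]
    exact mul_ne_zero (pow_ne_zero _ h.u_ne) h0
  obtain rfl := frame_card_eq hP (Sc.twist 𝒜 φ u) hx h2 hx' h1
  exact ⟨x', d', g', hx', h0'⟩

/-- **F5b**: a frame which is nondegenerate on the second chart. `hF4b` is the conclusion of F4b. -/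
theorem fr1_of_mp {A₀ A₁ : Subalgebra k K} {u : K} {φ : R →ₐ[k] K} (hP : IsPM 𝒜 P)
    (h : IsMp 𝒜 A₀ A₁ u φ) (hfin : Finite (A₁ →ₐ[k] k))
    (hunit : ∀ a : A₁, (∀ c : A₁ →ₐ[k] k, c a ≠ 0) → IsUnit a)
    {N : ℕ} {x : Fin N → R} {d : Fin N → ℕ} {g : R}
    (hx : IsFr 𝒜 x d g) (h0 : φ (g * (brM P x).det) ≠ 0)
    (hF4b : ∀ Y : Set (R →ₐ[k] k), Y.Finite → (∀ y ∈ Y, NV 𝒜 y) → (∀ y ∈ Y, HasRk 𝒜 P y N) →
      ∃ (x : Fin N → R) (d : Fin N → ℕ) (g : R), IsFr 𝒜 x d g ∧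
        ∀ y ∈ Y, y (g * (brM P x).det) ≠ 0) :
    ∃ (x' : Fin N → R) (d' : Fin N → ℕ) (g' : R), IsFr1 𝒜 P A₁ u φ x' d' g' := by
  obtain ⟨x', d', g', hx', h0'⟩ := hF4b (Set.range (pt1 h)) (Set.finite_range _)
    (by rintro _ ⟨σ, rfl⟩; exact pt1_NV h σ) (by rintro _ ⟨σ, rfl⟩; exact pt1_rk hP h σ hx h0)
  obtain ⟨σ₀⟩ : Nonempty (A₁ →ₐ[k] k) := by
    by_contra hne
    rw [not_nonempty_iff] at hne
    exact not_isUnit_zero (hunit 0 fun c => (hne.false c).elim)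
  have h1 := h0' _ ⟨σ₀, rfl⟩
  rw [map_mul] at h1
  have hdet : (brM P x').det ≠ 0 := fun h2 => h1 (by rw [h2, map_zero, mul_zero])
  obtain ⟨m, hm, hmem⟩ := F5b_det hP hx'.hom hdet
  obtain ⟨l, hl⟩ := hx'.ghom
  have hg : φ g' ≠ 0 := by
    have := pt1_ne h σ₀ (left_ne_zero_of_mul h1)
    rw [Sc.twist_apply 𝒜 φ u hl] at this
    exact right_ne_zero_of_mul this
  have hd : φ (brM P x').det ≠ 0 := by
    have := pt1_ne h σ₀ (right_ne_zero_of_mul h1)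
    rw [Sc.twist_apply 𝒜 φ u hmem] at this
    exact right_ne_zero_of_mul this
  refine ⟨x', d', g', hx', hg, hd, ?_⟩
  rw [← hm, zpow_natCast]
  have hmA : u ^ m * φ (brM P x').det ∈ A₁ := (mem_Sec.1 (h.sec m _ hmem)).2
  obtain ⟨v, hv⟩ := hunit ⟨_, hmA⟩ (by
    intro c hc
    have h2 := h0' _ ⟨c, rfl⟩
    rw [map_mul] at h2
    apply right_ne_zero_of_mul h2
    rw [pt1_apply, ← hc]
    congr 1
    exact Subtype.ext (Sc.twist_apply 𝒜 φ u hmem))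
  have h3 : ((v⁻¹ : A₁ˣ) : A₁) * ⟨_, hmA⟩ = 1 := by rw [← hv, Units.inv_mul]
  have h4 := congrArg (Subtype.val) h3
  have h5 : (((v⁻¹ : A₁ˣ) : A₁) : K) * (u ^ m * φ (brM P x').det) = 1 := h4
  rw [← eq_inv_of_mul_eq_one_left h5]
  exact SetLike.coe_mem _

end Vale.Agent.P292.Mo
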