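import Vale.Agent.P292.Mo.Defs

/-! # P292 Part II: every element of the function field is a fraction of functions on the first
chart (F5c) -/

namespace Vale.Agent.P292.Mo

universe u w

open scoped IntermediateField.algebraAdjoinAdjoin

/-- **F5c** -/
theorem frac0_IC {k : Type u} [Field k] {K : Type w} [Field K] [Algebra k K] {t : K}
    [FiniteDimensional (IntermediateField.adjoin k {t}) K] (g : Polynomial k) (x : K) :
    ∃ a ∈ IC (B0 t g), ∃ b ∈ IC (B0 t g), b ≠ 0 ∧ x = a / b := by
  have h1 : Algebra.IsAlgebraic (IntermediateField.adjoin k {t}) K := inferInstance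
  have h2 : Algebra.IsAlgebraic (Algebra.adjoin k {t}) (IntermediateField.adjoin k {t}) :=
    IsLocalization.isAlgebraic _ (nonZeroDivisors _)
  have h3 : IsAlgebraic (Algebra.adjoin k {t}) x :=
    (Algebra.IsAlgebraic.trans (Algebra.adjoin k {t}) (IntermediateField.adjoin k {t})
      K).isAlgebraic x
  obtain ⟨y, hy, hint⟩ := h3.exists_integral_multiple
  have hle : Algebra.adjoin k {t} ≤ B0 t g :=
    Algebra.adjoin_mono (Set.singleton_subset_iff.2 (Or.inl rfl))
  have hy0 : (y : K) ≠ 0 := fun h => hy (Subtype.ext h)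
  refine ⟨(y : K) * x, ?_, (y : K), ?_, hy0, ?_⟩
  · obtain ⟨p, hp, hp0⟩ := hint
    refine ⟨p.map (Subalgebra.inclusion hle).toRingHom, hp.map _, ?_⟩
    rw [Polynomial.eval₂_map]
    exact hp0
  · exact (isIntegral_algebraMap (R := B0 t g) (A := K) (x := ⟨y, hle y.2⟩) :)
  · rw [mul_div_cancel_left₀ x hy0]

end Vale.Agent.P292.Mo
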