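import Vale.Agent.P292.Mo.Defs
import Vale.Agent.P292.Mo.CrvBase

/-! # The index of a uniformiser in the integral closure (F3b). -/

namespace Vale.Agent.P292.Mo

universe u w

variable {k : Type u} [Field k] {K : Type w} [Field K] [Algebra k K]

theorem idxic_relIdx_of_le {V : Type w} [AddCommGroup V] [Module k V] {U U' : Submodule k V}
    (h : U' ≤ U) : relIdx U U' = Module.finrank k (↥U ⧸ U'.comap U.subtype) := by
  have h1 : U.comap U'.subtype = ⊤ := by
    rw [eq_top_iff]
    intro x _
    exact h x.2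
  have h2 : Module.finrank k (↥U' ⧸ U.comap U'.subtype) = 0 := by
    rw [h1]
    have : Subsingleton (↥U' ⧸ (⊤ : Submodule k U')) :=
      Submodule.Quotient.subsingleton_iff.2 rfl
    exact Module.finrank_zero_of_subsingleton
  rw [relIdx, h2]
  simp

theorem idxic_mem_IC {B : Subalgebra k K} {x : K} : x ∈ IC B ↔ x ∈ integralClosure B K := Iff.rfl

theorem idxic_le_IC {B : Subalgebra k K} {x : K} (hx : x ∈ B) : x ∈ IC B := by
  rw [idxic_mem_IC]
  exact (integralClosure B K).algebraMap_mem (⟨x, hx⟩ : B)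

/-- The index of `u ∈ B` in the integral closure of `B`, with a basis. -/
theorem idxic_basis (B : Subalgebra k K) (F : IntermediateField k K) {n : ℕ}
    (ω : Module.Basis (Fin n) F K) (hω : ∀ x, x ∈ IC B ↔ ∀ i, (ω.repr x i : K) ∈ B)
    (hBF : ∀ x ∈ B, x ∈ F) {u : K} (hu : u ∈ B)
    (ev : B →ₗ[k] k) (hev : Function.Surjective ev)
    (hker : ∀ b : B, ev b = 0 ↔ ∃ b' : B, b = ⟨u, hu⟩ * b') :
    idx (IC B) u = n := by
  classical
  have hle : (Subalgebra.toSubmodule (IC B)).map (LinearMap.mulLeft k u) ≤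
      Subalgebra.toSubmodule (IC B) := by
    rintro _ ⟨a, ha, rfl⟩
    exact (IC B).mul_mem (idxic_le_IC hu) ha
  rw [idx, idxic_relIdx_of_le hle]
  have hrep : ∀ (β : Fin n → B) (i : Fin n),
      (ω.repr (∑ j, (⟨(β j : K), hBF _ (β j).2⟩ : F) • ω j) i : K) = β i := by
    intro β i
    rw [ω.repr_sum_self]
  have hsmul : ∀ (β : B) (x : K) (i : Fin n),
      (ω.repr ((β : K) * x) i : K) = β * (ω.repr x i : K) := by
    intro β x i
    have : (β : K) * x = (⟨(β : K), hBF _ β.2⟩ : F) • x := rfl
    rw [this, map_smul, Finsupp.smul_apply]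
    rfl
  let Φ : ↥(Subalgebra.toSubmodule (IC B)) →ₗ[k] (Fin n → k) :=
    { toFun := fun a i => ev ⟨(ω.repr (a : K) i : K), (hω _).1 a.2 i⟩
      map_add' := by
        intro a a'
        funext i
        have : (⟨(ω.repr ((a + a' : ↥(Subalgebra.toSubmodule (IC B))) : K) i : K),
            (hω _).1 (a + a').2 i⟩ : B) = ⟨(ω.repr (a : K) i : K), (hω _).1 a.2 i⟩ +
            ⟨(ω.repr (a' : K) i : K), (hω _).1 a'.2 i⟩ := by
          apply Subtype.ext
          change (ω.repr ((a : K) + (a' : K)) i : K) = (ω.repr (a : K) i : K) + _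
          rw [map_add]
          rfl
        rw [this, map_add]
        rfl
      map_smul' := by
        intro c a
        funext i
        have : (⟨(ω.repr ((c • a : ↥(Subalgebra.toSubmodule (IC B))) : K) i : K),
            (hω _).1 (c • a).2 i⟩ : B) = c • ⟨(ω.repr (a : K) i : K), (hω _).1 a.2 i⟩ := by
          apply Subtype.ext
          change (ω.repr (c • (a : K)) i : K) = c • (ω.repr (a : K) i : K)
          rw [Algebra.smul_def, Algebra.smul_def]
          exact hsmul (algebraMap k B c) _ i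
        rw [this, map_smul]
        rfl }
  have hΦs : Function.Surjective Φ := by
    intro f
    choose β hβ using fun i => hev (f i)
    refine ⟨⟨∑ j, (⟨(β j : K), hBF _ (β j).2⟩ : F) • ω j, (hω _).2 fun i => ?_⟩, ?_⟩
    · rw [hrep]
      exact (β i).2
    · funext i
      change ev _ = f i
      rw [← hβ i]
      congr 1
      exact Subtype.ext (hrep β i)
  have hΦk : LinearMap.ker Φ =
      ((Subalgebra.toSubmodule (IC B)).map (LinearMap.mulLeft k u)).comap
        (Subalgebra.toSubmodule (IC B)).subtype := by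
    ext a
    rw [LinearMap.mem_ker, Submodule.mem_comap, Submodule.mem_map]
    constructor
    · intro h
      have h1 : ∀ i, ∃ b' : B, (⟨(ω.repr (a : K) i : K), (hω _).1 a.2 i⟩ : B) = ⟨u, hu⟩ * b' :=
        fun i => (hker _).1 (congrFun h i)
      choose β hβ using h1
      refine ⟨∑ j, (⟨(β j : K), hBF _ (β j).2⟩ : F) • ω j, (hω _).2 fun i => ?_, ?_⟩
      · rw [hrep]
        exact (β i).2
      · change u * (∑ j, (⟨(β j : K), hBF _ (β j).2⟩ : F) • ω j) = (a : K)
        apply ω.repr.injective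
        ext i
        have h2 := hsmul ⟨u, hu⟩ (∑ j, (⟨(β j : K), hBF _ (β j).2⟩ : F) • ω j) i
        rw [hrep] at h2
        exact h2.trans (congrArg Subtype.val (hβ i)).symm
    · rintro ⟨a', ha', h⟩
      funext i
      change ev _ = 0
      refine (hker _).2 ⟨⟨(ω.repr a' i : K), (hω _).1 ha' i⟩, Subtype.ext ?_⟩
      change (ω.repr (a : K) i : K) = u * (ω.repr a' i : K)
      have h3 : (a : K) = u * a' := h.symm
      rw [h3]
      exact hsmul ⟨u, hu⟩ a' i
  rw [← hΦk, LinearEquiv.finrank_eq (LinearMap.quotKerEquivOfSurjective Φ hΦs),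
    Module.finrank_fintype_fun_eq_card, Fintype.card_fin]

/-- an evaluation from a decomposition -/
theorem idxic_exists_ev (B : Subalgebra k K) {u : K} (hu : u ∈ B)
    (h1 : ∀ x ∈ B, ∃ c : k, ∃ y ∈ B, x = algebraMap k K c + u * y)
    (h2 : ∀ (c : k), ∀ y ∈ B, algebraMap k K c = u * y → c = 0) :
    ∃ ev : B →ₗ[k] k, Function.Surjective ev ∧
      ∀ b : B, ev b = 0 ↔ ∃ b' : B, b = ⟨u, hu⟩ * b' := by
  classical
  choose c y hy hc using fun x : B => h1 x x.2
  have key : ∀ (x : B) (d : k) (z : K), z ∈ B → (x : K) = algebraMap k K d + u * z → c x = d := by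
    intro x d z hz h
    rw [← sub_eq_zero]
    refine h2 _ (z - y x) (B.sub_mem hz (hy x)) ?_
    rw [map_sub, mul_sub]
    have := hc x
    rw [h] at this
    linear_combination -this
  let ev : B →ₗ[k] k :=
    { toFun := c
      map_add' := by
        intro x x'
        refine key _ _ (y x + y x') (B.add_mem (hy x) (hy x')) ?_
        change (x : K) + (x' : K) = _
        rw [map_add]
        linear_combination hc x + hc x'
      map_smul' := by
        intro a x
        refine key _ _ (algebraMap k K a * y x) (B.mul_mem (B.algebraMap_mem a) (hy x)) ?_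
        change a • (x : K) = _
        rw [Algebra.smul_def, RingHom.id_apply, smul_eq_mul, map_mul]
        linear_combination (algebraMap k K a) * hc x }
  refine ⟨ev, ?_, ?_⟩
  · intro d
    refine ⟨algebraMap k B d, key _ _ 0 B.zero_mem ?_⟩
    rw [mul_zero, add_zero]
    rfl
  · intro b
    constructor
    · intro h
      refine ⟨⟨y b, hy b⟩, ?_⟩
      apply Subtype.ext
      change (b : K) = u * y b
      have h3 := hc b
      have h4 : c b = 0 := h
      rw [h4, map_zero, zero_add] at h3
      exact h3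
    · rintro ⟨b', rfl⟩
      refine key _ _ b' b'.2 ?_
      rw [map_zero, zero_add]
      rfl

section B1

open Polynomial

variable {t : K}

theorem idxic_aeval_inj (ht : Transcendental k t) {a b : k[X]} (h : aeval t a = aeval t b) :
    a = b :=
  transcendental_iff_injective.1 ht h

theorem idxic_aeval_ne (ht : Transcendental k t) {a : k[X]} (h : a ≠ 0) : aeval t a ≠ 0 := by
  intro h0
  exact h (idxic_aeval_inj ht (h0.trans (map_zero _).symm))

theorem idxic_mem (ht : Transcendental k t) {g : k[X]} (l : k) (hl : g.eval l ≠ 0) :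
    (t - algebraMap k K l)⁻¹ ∈ B1 t g := by
  refine ⟨1, X - C l, idxic_aeval_ne ht (X_sub_C_ne_zero l), ?_, ?_, ?_⟩
  · rw [(irreducible_X_sub_C l).coprime_iff_not_dvd, dvd_iff_isRoot]
    exact hl
  · rw [natDegree_one]; exact Nat.zero_le _
  · rw [map_one, map_sub, aeval_X, aeval_C, one_div]

theorem idxic_decomp (ht : Transcendental k t) {g : k[X]} (l : k) (x : K) (hx : x ∈ B1 t g) :
    ∃ c : k, ∃ y ∈ B1 t g, x = algebraMap k K c + (t - algebraMap k K l)⁻¹ * y := by
  obtain ⟨a, b, hb, hbg, hd, rfl⟩ := hx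
  have hb0 : b ≠ 0 := fun h => hb (by rw [h, map_zero])
  have ht0 : t - algebraMap k K l ≠ 0 := by
    have := idxic_aeval_ne ht (X_sub_C_ne_zero l)
    rwa [map_sub, aeval_X, aeval_C] at this
  set c : k := a.coeff b.natDegree / b.leadingCoeff with hc
  have hp : ∀ j, b.natDegree ≤ j → (a - C c * b).coeff j = 0 := by
    intro j hj
    rw [coeff_sub, coeff_C_mul]
    rcases eq_or_lt_of_le hj with rfl | hj
    · rw [hc, coeff_natDegree, div_mul_cancel₀ _ (leadingCoeff_ne_zero.2 hb0), sub_self]
    · rw [coeff_eq_zero_of_natDegree_lt (hd.trans_lt hj), coeff_eq_zero_of_natDegree_lt hj,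
        mul_zero, sub_zero]
  refine ⟨c, aeval t ((X - C l) * (a - C c * b)) / aeval t b, ⟨_, b, hb, hbg, ?_, rfl⟩, ?_⟩
  · rw [natDegree_le_iff_coeff_eq_zero]
    intro j hj
    obtain ⟨i, rfl⟩ : ∃ i, j = i + 1 := ⟨j - 1, by omega⟩
    rw [sub_mul, coeff_sub, coeff_X_mul, coeff_C_mul, hp i (by omega), hp (i + 1) (by omega),
      mul_zero, sub_zero]
  · rw [map_mul, map_sub, map_sub, map_mul, aeval_X, aeval_C, aeval_C]
    field_simp
    ring

theorem idxic_indep (ht : Transcendental k t) {g : k[X]} (l : k) (c : k) (y : K)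
    (hy : y ∈ B1 t g) (h : algebraMap k K c = (t - algebraMap k K l)⁻¹ * y) : c = 0 := by
  obtain ⟨a, b, hb, hbg, hd, rfl⟩ := hy
  have hb0 : b ≠ 0 := fun h => hb (by rw [h, map_zero])
  have ht0 : t - algebraMap k K l ≠ 0 := by
    have := idxic_aeval_ne ht (X_sub_C_ne_zero l)
    rwa [map_sub, aeval_X, aeval_C] at this
  by_contra hc
  have h1 : aeval t (C c * ((X - C l) * b)) = aeval t a := by
    rw [map_mul, map_mul, map_sub, aeval_C, aeval_C, aeval_X, h]
    field_simp
  have h2 := idxic_aeval_inj ht h1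
  have h3 : a.natDegree = 1 + b.natDegree := by
    rw [← h2, natDegree_C_mul hc, natDegree_mul (X_sub_C_ne_zero l) hb0, natDegree_X_sub_C]
  omega

theorem idxic_B1_basis (ht : Transcendental k t) {g : k[X]} (l : k) (hl : g.eval l ≠ 0)
    (F : IntermediateField k K) {n : ℕ} (ω : Module.Basis (Fin n) F K)
    (hω : ∀ x, x ∈ IC (B1 t g) ↔ ∀ i, (ω.repr x i : K) ∈ B1 t g)
    (hBF : ∀ x ∈ B1 t g, x ∈ F) :
    idx (IC (B1 t g)) ((t - algebraMap k K l)⁻¹) = n := by
  obtain ⟨ev, h1, h2⟩ := idxic_exists_ev (B1 t g) (idxic_mem ht l hl)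
    (fun x hx => idxic_decomp ht l x hx) (fun c y hy h => idxic_indep ht l c y hy h)
  exact idxic_basis (B1 t g) F ω hω hBF (idxic_mem ht l hl) ev h1 h2

/-- F3b: the degree. -/
theorem idx_IC [IsAlgClosed k] {t : K} (ht : Transcendental k t)
    [FiniteDimensional (IntermediateField.adjoin k {t}) K]
    [Algebra.IsSeparable (IntermediateField.adjoin k {t}) K] {g : Polynomial k} (hg : g ≠ 0)
    (l : k) (hl : g.eval l ≠ 0) :
    idx (IC (B1 t g)) ((t - algebraMap k K l)⁻¹) =
      Module.finrank (IntermediateField.adjoin k {t}) K := by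
  have : Infinite k := IsAlgClosed.instInfinite
  obtain ⟨-, ω, -, hω⟩ := crv_basis1 (K := K) ht hg
  exact idxic_B1_basis ht l hl _ ω hω (crv_B1_le t g)

end B1

end Vale.Agent.P292.Mo
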