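import Vale.Agent.P292.Mo.Defs

/-! # Infinitely many closed points on the first chart (F3g, helper551). -/

namespace Vale.Agent.P292.Mo

universe u w

variable {k : Type u} [Field k] {K : Type w} [Field K] [Algebra k K]

private lemma iic_form {t : K} {g : Polynomial k} (hgt : Polynomial.aeval t g ≠ 0)
    {x : K} (hx : x ∈ B0 t g) :
    ∃ (f : Polynomial k) (m : ℕ), x * Polynomial.aeval t g ^ m = Polynomial.aeval t f := by
  induction hx using Algebra.adjoin_induction with
  | mem x hx =>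
    rcases hx with rfl | rfl
    · exact ⟨Polynomial.X, 0, by rw [pow_zero, mul_one, Polynomial.aeval_X]⟩
    · exact ⟨1, 1, by rw [pow_one, inv_mul_cancel₀ hgt, map_one]⟩
  | algebraMap c => exact ⟨Polynomial.C c, 0, by rw [pow_zero, mul_one, Polynomial.aeval_C]⟩
  | add x y _ _ h1 h2 =>
    obtain ⟨f1, m1, e1⟩ := h1
    obtain ⟨f2, m2, e2⟩ := h2
    exact ⟨f1 * g ^ m2 + f2 * g ^ m1, m1 + m2, by
      rw [map_add, map_mul, map_mul, map_pow, map_pow, ← e1, ← e2]; ring⟩
  | mul x y _ _ h1 h2 =>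
    obtain ⟨f1, m1, e1⟩ := h1
    obtain ⟨f2, m2, e2⟩ := h2
    exact ⟨f1 * f2, m1 + m2, by rw [map_mul, ← e1, ← e2]; ring⟩

private lemma iic_le {B : Subalgebra k K} {x : K} (hx : x ∈ B) : x ∈ IC B :=
  (integralClosure B K).algebraMap_mem ⟨x, hx⟩

private lemma iic_val {B : Subalgebra k K} (u : IC B) (f : Polynomial k) :
    ((Polynomial.aeval u f : IC B) : K) = Polynomial.aeval (u : K) f :=
  (Polynomial.aeval_algHom_apply (IC B).val u f).symm

private lemma iic_t_mem {t : K} {g : Polynomial k} : t ∈ B0 t g :=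
  Algebra.subset_adjoin (Set.mem_insert _ _)

private lemma iic_nonunit {t : K} (ht : Transcendental k t) {g : Polynomial k} (hg : g ≠ 0)
    {α : k} (hα : g.eval α ≠ 0) (v : IC (B0 t g)) (hv : (v : K) = t - algebraMap k K α) :
    ¬ IsUnit v := by
  intro hu
  have hgt : Polynomial.aeval t g ≠ 0 := fun h => hg ((transcendental_iff.1 ht) g h)
  obtain ⟨w, hw⟩ := hu.exists_right_inv
  have hb : t - algebraMap k K α ∈ B0 t g := sub_mem iic_t_mem (algebraMap_mem _ _)
  have h1 : IsUnit (algebraMap (B0 t g) (integralClosure (B0 t g) K) ⟨_, hb⟩) := by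
    refine IsUnit.of_mul_eq_one (⟨(w : K), w.2⟩ : integralClosure (B0 t g) K) ?_
    apply Subtype.ext
    have h2 : (v : K) * (w : K) = 1 := congrArg Subtype.val hw
    rw [hv] at h2
    exact h2
  have h3 : IsUnit (⟨_, hb⟩ : B0 t g) := by
    have hi : (algebraMap (B0 t g) (integralClosure (B0 t g) K)).IsIntegral :=
      algebraMap_isIntegral_iff.mpr inferInstance
    have hinj : Function.Injective (algebraMap (B0 t g) (integralClosure (B0 t g) K)) := by
      intro a b h
      have h' := congrArg (fun z : integralClosure (B0 t g) K => (z : K)) h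
      exact Subtype.ext h'
    have := hi.isLocalHom hinj
    exact IsUnit.of_map _ _ h1
  obtain ⟨c, hc⟩ := h3.exists_right_inv
  have hc' : (t - algebraMap k K α) * (c : K) = 1 := congrArg Subtype.val hc
  obtain ⟨f, m, hf⟩ := iic_form hgt c.2
  have h4 : Polynomial.aeval t (g ^ m - (Polynomial.X - Polynomial.C α) * f) = 0 := by
    rw [map_sub, map_mul, map_sub, map_pow, Polynomial.aeval_X, Polynomial.aeval_C, ← hf,
      ← mul_assoc, hc', one_mul, sub_self]
  have h5 := (transcendental_iff.1 ht) _ h4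
  have h6 := congrArg (Polynomial.eval α) h5
  rw [Polynomial.eval_sub, Polynomial.eval_mul, Polynomial.eval_sub, Polynomial.eval_X,
    Polynomial.eval_C, sub_self, zero_mul, sub_zero, Polynomial.eval_zero,
    Polynomial.eval_pow] at h6
  exact pow_ne_zero m hα h6

private lemma iic_const {t : K} {g : Polynomial k} (hgt : Polynomial.aeval t g ≠ 0) {α : k}
    (hα : g.eval α ≠ 0) {M : Ideal (IC (B0 t g))} [M.IsMaximal] (u : IC (B0 t g)) (hu : (u : K) = t)
    (huM : u - algebraMap k _ α ∈ M) {x : K} (hx : x ∈ B0 t g) :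
    ∀ a : IC (B0 t g), (a : K) = x → ∃ c : k, Ideal.Quotient.mk M a =
      algebraMap k (IC (B0 t g) ⧸ M) c := by
  have hmu : Ideal.Quotient.mk M u = algebraMap k (IC (B0 t g) ⧸ M) α := by
    have h := Ideal.Quotient.eq.2 huM
    rw [h]
    rfl
  induction hx using Algebra.adjoin_induction with
  | mem x hx =>
    rcases hx with rfl | rfl
    · intro a ha
      obtain rfl : a = u := Subtype.ext (ha.trans hu.symm)
      exact ⟨α, hmu⟩
    · intro a ha
      refine ⟨(g.eval α)⁻¹, ?_⟩
      have h1 : a * Polynomial.aeval u g = 1 := by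
        apply Subtype.ext
        have h2 : ((Polynomial.aeval u g : IC (B0 t g)) : K) = Polynomial.aeval t g := by
          rw [iic_val, hu]
        rw [MulMemClass.coe_mul, ha, h2, inv_mul_cancel₀ hgt]
        rfl
      have h3 : Ideal.Quotient.mk M (Polynomial.aeval u g) =
          algebraMap k (IC (B0 t g) ⧸ M) (g.eval α) := by
        have h4 := (Polynomial.aeval_algHom_apply (Ideal.Quotient.mkₐ k M) u g)
        have h5 : (Ideal.Quotient.mkₐ k M) u = algebraMap k (IC (B0 t g) ⧸ M) α := hmu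
        rw [h5, Polynomial.aeval_algebraMap_apply] at h4
        rw [Polynomial.coe_aeval_eq_eval] at h4
        exact h4.symm
      have h4 := congrArg (Ideal.Quotient.mk M) h1
      rw [map_mul, h3, map_one] at h4
      have h5 : algebraMap k (IC (B0 t g) ⧸ M) (g.eval α) *
          algebraMap k (IC (B0 t g) ⧸ M) (g.eval α)⁻¹ = 1 := by
        rw [← map_mul, mul_inv_cancel₀ hα, map_one]
      calc Ideal.Quotient.mk M a = Ideal.Quotient.mk M a * (algebraMap k (IC (B0 t g) ⧸ M)
            (g.eval α) * algebraMap k (IC (B0 t g) ⧸ M) (g.eval α)⁻¹) := by rw [h5, mul_one]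
        _ = _ := by rw [← mul_assoc, h4, one_mul]
  | algebraMap c =>
    intro a ha
    refine ⟨c, ?_⟩
    obtain rfl : a = algebraMap k _ c := Subtype.ext ha
    rfl
  | add x y hx hy h1 h2 =>
    intro a ha
    obtain ⟨c1, e1⟩ := h1 ⟨x, iic_le hx⟩ rfl
    obtain ⟨c2, e2⟩ := h2 ⟨y, iic_le hy⟩ rfl
    obtain rfl : a = ⟨x, iic_le hx⟩ + ⟨y, iic_le hy⟩ := Subtype.ext ha
    exact ⟨c1 + c2, by rw [map_add, e1, e2, map_add]⟩
  | mul x y hx hy h1 h2 =>
    intro a ha
    obtain ⟨c1, e1⟩ := h1 ⟨x, iic_le hx⟩ rfl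
    obtain ⟨c2, e2⟩ := h2 ⟨y, iic_le hy⟩ rfl
    obtain rfl : a = ⟨x, iic_le hx⟩ * ⟨y, iic_le hy⟩ := Subtype.ext ha
    exact ⟨c1 * c2, by rw [map_mul, e1, e2, map_mul]⟩

private lemma iic_point [IsAlgClosed k] {t : K} (ht : Transcendental k t) {g : Polynomial k}
    (hg : g ≠ 0) {α : k} (hα : g.eval α ≠ 0) (u : IC (B0 t g)) (hu : (u : K) = t) :
    ∃ c : IC (B0 t g) →ₐ[k] k, c u = α := by
  have hgt : Polynomial.aeval t g ≠ 0 := fun h => hg ((transcendental_iff.1 ht) g h)
  have hnu : u - algebraMap k _ α ∈ nonunits (IC (B0 t g)) := by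
    refine iic_nonunit ht hg hα _ ?_
    have h : ((u - algebraMap k (IC (B0 t g)) α : IC (B0 t g)) : K) =
        (u : K) - algebraMap k K α := rfl
    rw [h, hu]
  obtain ⟨M, hM, huM⟩ := exists_max_ideal_of_mem_nonunits hnu
  have hconst := fun {x : K} (hx : x ∈ B0 t g) => iic_const hgt hα (M := M) u hu huM hx
  have hint : Algebra.IsIntegral k (IC (B0 t g) ⧸ M) := by
    refine ⟨fun y => ?_⟩
    obtain ⟨a, rfl⟩ := Ideal.Quotient.mk_surjective y
    obtain ⟨p, hp, hpa⟩ : IsIntegral (B0 t g) (a : K) := a.2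
    let ψ : B0 t g →+* IC (B0 t g) :=
      { toFun := fun b => ⟨(b : K), iic_le b.2⟩
        map_one' := rfl
        map_mul' := fun _ _ => rfl
        map_zero' := rfl
        map_add' := fun _ _ => rfl }
    have h1 : Polynomial.eval₂ ψ a p = 0 := by
      apply Subtype.ext
      have h2 := Polynomial.hom_eval₂ p ψ (IC (B0 t g)).val.toRingHom a
      have h3 : ((IC (B0 t g)).val.toRingHom).comp ψ = algebraMap (B0 t g) K := rfl
      rw [h3] at h2
      exact h2.trans hpa
    have h2 : Polynomial.eval₂ ((Ideal.Quotient.mk M).comp ψ) (Ideal.Quotient.mk M a) p = 0 := by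
      rw [← Polynomial.hom_eval₂, h1, map_zero]
    have h3 : p.map ((Ideal.Quotient.mk M).comp ψ) ∈
        Polynomial.lifts (algebraMap k (IC (B0 t g) ⧸ M)) := by
      rw [Polynomial.lifts_iff_coeff_lifts]
      intro n
      rw [Polynomial.coeff_map]
      obtain ⟨c, hc⟩ := hconst (p.coeff n).2 (ψ (p.coeff n)) rfl
      exact ⟨c, hc.symm⟩
    obtain ⟨q, hq, -, hqm⟩ := Polynomial.lifts_and_natDegree_eq_and_monic h3 (hp.map _)
    refine ⟨q, hqm, ?_⟩
    rw [← Polynomial.eval_map, hq, Polynomial.eval_map]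
    exact h2
  have hbij : Function.Bijective (algebraMap k (IC (B0 t g) ⧸ M)) := by
    have : IsDomain (IC (B0 t g) ⧸ M) := Ideal.Quotient.isDomain M
    exact IsAlgClosed.algebraMap_bijective_of_isIntegral
  let e : k ≃ₐ[k] (IC (B0 t g) ⧸ M) := AlgEquiv.ofBijective (Algebra.ofId k _) hbij
  refine ⟨e.symm.toAlgHom.comp (Ideal.Quotient.mkₐ k M), ?_⟩
  have h5 : Ideal.Quotient.mkₐ k M u = e α := by
    have h := Ideal.Quotient.eq.2 huM
    exact h
  rw [AlgHom.comp_apply, h5]
  exact e.symm_apply_apply α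

private lemma iic_dvd {t : K} [FiniteDimensional (IntermediateField.adjoin k {t}) K]
    {g : Polynomial k} (s : IC (B0 t g)) (hs : s ≠ 0) (u : IC (B0 t g)) (hu : (u : K) = t) :
    ∃ (f : Polynomial k) (a : IC (B0 t g)), f ≠ 0 ∧ Polynomial.aeval u f = s * a := by
  have hsK : (s : K) ≠ 0 := fun h => hs (Subtype.ext h)
  have halg : IsAlgebraic (Algebra.adjoin k {t}) ((s : K)⁻¹) := by
    open scoped IntermediateField.algebraAdjoinAdjoin in
    have h1 : Algebra.IsAlgebraic (Algebra.adjoin k {t}) K :=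
      Algebra.IsAlgebraic.trans (Algebra.adjoin k {t}) (IntermediateField.adjoin k {t}) K
    exact h1.isAlgebraic _
  obtain ⟨y, hy, hyi⟩ := halg.exists_integral_multiple
  have hle : Algebra.adjoin k {t} ≤ B0 t g :=
    Algebra.adjoin_mono (Set.singleton_subset_iff.2 (Set.mem_insert _ _))
  have ha : (y : K) * (s : K)⁻¹ ∈ IC (B0 t g) := by
    obtain ⟨p, hp, hps⟩ := hyi
    refine ⟨p.map (Subalgebra.inclusion hle).toRingHom, hp.map _, ?_⟩
    rw [Polynomial.eval₂_map]
    exact hps
  obtain ⟨f, hf⟩ : ∃ f : Polynomial k, Polynomial.aeval t f = (y : K) := by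
    have h0 : (y : K) ∈ (Polynomial.aeval (R := k) t).range := by
      rw [← Algebra.adjoin_singleton_eq_range_aeval]
      exact y.2
    exact h0
  refine ⟨f, ⟨_, ha⟩, ?_, ?_⟩
  · rintro rfl
    rw [map_zero] at hf
    exact hy (Subtype.ext hf.symm)
  · apply Subtype.ext
    have h2 : ((Polynomial.aeval u f : IC (B0 t g)) : K) = Polynomial.aeval t f := by
      rw [iic_val, hu]
    rw [h2, hf, MulMemClass.coe_mul]
    show (y : K) = s * (y * (s : K)⁻¹)
    field_simp

/-- F3g: infinitely many closed points outside the zeros of a function. -/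
theorem infinite_IC [IsAlgClosed k] {t : K} (ht : Transcendental k t)
    [FiniteDimensional (IntermediateField.adjoin k {t}) K] {g : Polynomial k} (hg : g ≠ 0)
    (s : IC (B0 t g)) (hs : s ≠ 0) : {c : IC (B0 t g) →ₐ[k] k | c s ≠ 0}.Infinite := by
  classical
  obtain ⟨u, hu⟩ : ∃ u : IC (B0 t g), (u : K) = t := ⟨⟨t, iic_le iic_t_mem⟩, rfl⟩
  obtain ⟨f, a, hf, hfa⟩ := iic_dvd s hs u hu
  intro hfin
  have hfg : f * g ≠ 0 := mul_ne_zero hf hg
  have hinf : {α : k | (f * g).eval α = 0}ᶜ.Infinite := by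
    refine Set.Finite.infinite_compl ?_
    refine (f * g).roots.toFinset.finite_toSet.subset fun α hα => ?_
    rw [Finset.mem_coe, Multiset.mem_toFinset, Polynomial.mem_roots hfg]
    exact hα
  refine hinf ((hfin.image fun c => c u).subset fun α hα => ?_)
  have hα' : f.eval α ≠ 0 ∧ g.eval α ≠ 0 := by
    have h : (f * g).eval α ≠ 0 := hα
    rw [Polynomial.eval_mul] at h
    exact ⟨left_ne_zero_of_mul h, right_ne_zero_of_mul h⟩
  obtain ⟨c, hc⟩ := iic_point ht hg hα'.2 u hu
  refine ⟨c, fun hcs => hα'.1 ?_, hc⟩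
  have h1 := congrArg c hfa
  rw [map_mul, hcs, zero_mul, ← Polynomial.aeval_algHom_apply, hc,
    Polynomial.coe_aeval_eq_eval] at h1
  exact h1

end Vale.Agent.P292.Mo
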