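import Vale.Agent.P292.Mo.Defs

/-! # P292, block Mo: partial fractions and the semilocal ring `B1` (for F3a, F3e) -/

open Polynomial

namespace Vale.Agent.P292.Mo

variable {k K : Type*} [Field k] [Field K] [Algebra k K] {t : K}

lemma pf_ne (ht : Transcendental k t) {p : k[X]} (hp : p ≠ 0) : aeval t p ≠ 0 := fun h =>
  hp ((transcendental_iff.1 ht) p h)

lemma pf_inj (ht : Transcendental k t) : Function.Injective (aeval t : k[X] →ₐ[k] K) := by
  intro p q h
  have h1 : aeval t (p - q) = 0 := by rw [map_sub, h, sub_self]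
  by_contra h2
  exact pf_ne ht (sub_ne_zero.2 h2) h1

/-- splitting a polynomial with respect to `g` -/
lemma pf_split (g : k[X]) (q : k[X]) (hq : q ≠ 0) :
    ∃ q1 q2 : k[X], ∃ N : ℕ, q = q1 * q2 ∧ q1 ∣ g ^ N ∧ IsCoprime q2 g := by
  classical
  induction hn : q.natDegree using Nat.strong_induction_on generalizing q with
  | _ n ih =>
    by_cases hc : IsCoprime q g
    · exact ⟨1, q, 0, (one_mul q).symm, one_dvd _, hc⟩
    · set h := EuclideanDomain.gcd q g with hh
      have h1 : ¬ IsUnit h := fun hu => hc (EuclideanDomain.gcd_isUnit_iff.1 hu)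
      obtain ⟨q', hq'⟩ := EuclideanDomain.gcd_dvd_left q g
      rw [← hh] at hq'
      have hq'0 : q' ≠ 0 := fun h0 => hq (by rw [hq', h0, mul_zero])
      have hh0 : h ≠ 0 := fun h0 => hq (by rw [hq', h0, zero_mul])
      have hdeg : q'.natDegree < n := by
        have h2 : q.natDegree = h.natDegree + q'.natDegree := by
          conv_lhs => rw [hq']
          exact natDegree_mul hh0 hq'0
        have h3 : 0 < h.natDegree := by
          rw [Nat.pos_iff_ne_zero]
          intro h0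
          exact h1 (isUnit_iff_degree_eq_zero.2 (by rw [degree_eq_natDegree hh0, h0]; rfl))
        omega
      obtain ⟨q1, q2, N, e1, e2, e3⟩ := ih _ hdeg q' hq'0 rfl
      refine ⟨h * q1, q2, N + 1, ?_, ?_, e3⟩
      · rw [mul_assoc, ← e1, ← hq']
      · rw [pow_succ']
        exact mul_dvd_mul (EuclideanDomain.gcd_dvd_right q g) e2

lemma pf_B0_aeval (g p : k[X]) : aeval t p ∈ B0 t g := by
  have h1 : (aeval t : k[X] →ₐ[k] K) p ∈ Algebra.adjoin k ({t} : Set K) :=
    aeval_mem_adjoin_singleton k t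
  have h2 : ({t} : Set K) ⊆ {t, (aeval t g)⁻¹} := by
    intro x hx
    rw [Set.mem_singleton_iff] at hx
    exact Or.inl hx
  exact Algebra.adjoin_mono h2 h1

/-- `1 / q1 ∈ B0` if `q1` divides a power of `g` -/
lemma pf_B0_inv (ht : Transcendental k t) {g q1 : k[X]} (hg : g ≠ 0) {N : ℕ} (h : q1 ∣ g ^ N) :
    (aeval t q1)⁻¹ ∈ B0 t g := by
  obtain ⟨r, hr⟩ := h
  have h0 : aeval t (g ^ N) ≠ 0 := pf_ne ht (pow_ne_zero N hg)
  have h1 : (aeval t q1)⁻¹ = aeval t r * ((aeval t g)⁻¹) ^ N := by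
    have h2 : aeval t q1 ≠ 0 := by
      intro h3
      apply h0
      rw [hr, map_mul, h3, zero_mul]
    have h4 : aeval t g ^ N = aeval t q1 * aeval t r := by rw [← map_pow, hr, map_mul]
    have h5 : aeval t g ^ N ≠ 0 := by rwa [← map_pow]
    rw [inv_pow, eq_mul_inv_iff_mul_eq₀ h5, h4]
    field_simp
  have h6 : (aeval t g)⁻¹ ∈ B0 t g :=
    Algebra.subset_adjoin (Set.mem_insert_of_mem _ (Set.mem_singleton _))
  rw [h1]
  exact mul_mem (pf_B0_aeval g r) (pow_mem h6 N)

/-- elements of `B0` -/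
lemma pf_B0_elim (ht : Transcendental k t) {g : k[X]} (hg : g ≠ 0) {x : K} (hx : x ∈ B0 t g) :
    ∃ (a : k[X]) (n : ℕ), x * aeval t g ^ n = aeval t a := by
  have hg0 := pf_ne ht hg
  induction hx using Algebra.adjoin_induction with
  | mem x hx =>
    rcases hx with rfl | hx
    · exact ⟨X, 0, by simp⟩
    · rw [Set.mem_singleton_iff] at hx
      exact ⟨1, 1, by rw [hx, pow_one, inv_mul_cancel₀ hg0, map_one]⟩
  | algebraMap c => exact ⟨C c, 0, by simp⟩
  | add x y _ _ hx hy =>
    obtain ⟨a, n, ha⟩ := hx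
    obtain ⟨b, m, hb⟩ := hy
    refine ⟨a * g ^ m + b * g ^ n, n + m, ?_⟩
    rw [map_add, map_mul, map_mul, map_pow, map_pow, ← ha, ← hb]
    ring
  | mul x y _ _ hx hy =>
    obtain ⟨a, n, ha⟩ := hx
    obtain ⟨b, m, hb⟩ := hy
    refine ⟨a * b, n + m, ?_⟩
    rw [map_mul, ← ha, ← hb]
    ring

/-- rational functions -/
lemma pf_adjoin_elim {x : K} (hx : x ∈ IntermediateField.adjoin k {t}) :
    ∃ p q : k[X], q ≠ 0 ∧ x = aeval t p / aeval t q := by
  obtain ⟨p, q, h⟩ := IntermediateField.mem_adjoin_simple_iff k x |>.1 hx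
  by_cases hq : q = 0
  · exact ⟨0, 1, one_ne_zero, by rw [h, hq]; simp⟩
  · exact ⟨p, q, hq, h⟩

/-- **partial fractions**: `k(t) = B0 + B1` -/
theorem b0_add_b1 (ht : Transcendental k t) {g : k[X]} (hg : g ≠ 0) {x : K}
    (hx : x ∈ IntermediateField.adjoin k {t}) : ∃ a ∈ B0 t g, ∃ b ∈ B1 t g, x = a + b := by
  obtain ⟨p, q, hq, rfl⟩ := pf_adjoin_elim hx
  obtain ⟨q1, q2, N, rfl, h1, h2⟩ := pf_split g q hq
  have hq1 : q1 ≠ 0 := left_ne_zero_of_mul hq
  have hq2 : q2 ≠ 0 := right_ne_zero_of_mul hq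
  have hc : IsCoprime q1 q2 := (IsCoprime.of_isCoprime_of_dvd_left (h2.pow_right (n := N)).symm h1)
  obtain ⟨u, v, huv⟩ := hc
  refine ⟨aeval t ((p * u) / q2) + aeval t (p * v) * (aeval t q1)⁻¹, ?_,
    aeval t ((p * u) % q2) / aeval t q2, ?_, ?_⟩
  · exact Subalgebra.add_mem _ (pf_B0_aeval _ _)
      (Subalgebra.mul_mem _ (pf_B0_aeval _ _) (pf_B0_inv ht hg h1))
  · refine ⟨(p * u) % q2, q2, pf_ne ht hq2, h2, ?_, rfl⟩
    exact natDegree_le_natDegree (degree_mod_lt _ hq2).le
  · have e1 : aeval t q1 ≠ 0 := pf_ne ht hq1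
    have e2 : aeval t q2 ≠ 0 := pf_ne ht hq2
    have e3 : aeval t (p * u) = aeval t q2 * aeval t ((p * u) / q2) + aeval t ((p * u) % q2) := by
      rw [← map_mul, ← map_add, EuclideanDomain.div_add_mod]
    have e4 : aeval t u * aeval t q1 + aeval t v * aeval t q2 = 1 := by
      rw [← map_mul, ← map_mul, ← map_add, huv, map_one]
    rw [map_mul, map_mul]
    rw [map_mul] at e3
    field_simp
    linear_combination (aeval t p) * (-e4) + aeval t q1 * e3

/-- the regular functions on the whole line are constant -/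
theorem b0_inf_b1 (ht : Transcendental k t) {g : k[X]} (hg : g ≠ 0) {x : K} (h0 : x ∈ B0 t g)
    (h1 : x ∈ B1 t g) : ∃ c : k, x = algebraMap k K c := by
  obtain ⟨a, n, ha⟩ := pf_B0_elim ht hg h0
  obtain ⟨c, b, hb, hbg, hdeg, rfl⟩ := h1
  have hb0 : b ≠ 0 := fun h => hb (by rw [h, map_zero])
  have e1 : c * g ^ n = a * b := by
    apply pf_inj ht
    rw [map_mul, map_mul, map_pow, ← ha]
    field_simp
  have e2 : b ∣ c * g ^ n := ⟨a, by rw [e1, mul_comm]⟩
  obtain ⟨e, rfl⟩ := (hbg.pow_right (n := n)).dvd_of_dvd_mul_right e2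
  have e3 : aeval t (b * e) / aeval t b = aeval t e := by
    rw [map_mul]
    field_simp
  rw [e3]
  have e4 : e.natDegree = 0 := by
    by_cases he : e = 0
    · rw [he, natDegree_zero]
    · rw [natDegree_mul hb0 he] at hdeg
      omega
  rw [eq_C_of_natDegree_eq_zero e4, aeval_C]
  exact ⟨_, rfl⟩

/-- nonzero elements of `B1` have finite dimensional quotients -/
theorem b1_quot [Infinite k] (ht : Transcendental k t) {g : k[X]} (hg : g ≠ 0) {d : K}
    (hd : d ∈ B1 t g) (hd0 : d ≠ 0) : ∃ S : Submodule k K, FiniteDimensional k S ∧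
      ∀ x ∈ B1 t g, ∃ s ∈ S, ∃ c ∈ B1 t g, x = s + d * c := by
  obtain ⟨l, hl⟩ : ∃ l, g.eval l ≠ 0 := by
    by_contra h
    push Not at h
    exact hg (Polynomial.funext (fun r => by rw [h r, eval_zero]))
  obtain ⟨c, b, hb, hbg, hdeg, rfl⟩ := hd
  have hb0 : b ≠ 0 := fun h => hb (by rw [h, map_zero])
  have hc0 : c ≠ 0 := fun h => hd0 (by rw [h, map_zero, zero_div])
  obtain ⟨c1, c2, N, rfl, h1, h2⟩ := pf_split g c hc0
  have hc1 : c1 ≠ 0 := left_ne_zero_of_mul hc0
  have hc2 : c2 ≠ 0 := right_ne_zero_of_mul hc0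
  set m := (b.natDegree - (c1 * c2).natDegree) + c1.natDegree with hm
  have hXl : (X - C l) ≠ (0 : k[X]) := X_sub_C_ne_zero l
  have hlg : IsCoprime (X - C l) g := by
    rw [(irreducible_X_sub_C l).coprime_iff_not_dvd, dvd_iff_isRoot]
    exact hl
  set D : k[X] := (X - C l) ^ m with hD
  have hD0 : D ≠ 0 := pow_ne_zero _ hXl
  have hDg : IsCoprime D g := hlg.pow_left
  have hDd : D.natDegree = m := by rw [hD, natDegree_pow, natDegree_X_sub_C, mul_one]
  refine ⟨(degreeLT k (m + 1)).map ((LinearMap.mulLeft k (aeval t D)⁻¹).comp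
    (aeval t).toLinearMap), inferInstance, ?_⟩
  rintro x ⟨p, q, hq, hqg, hpq, rfl⟩
  have hq0 : q ≠ 0 := fun h => hq (by rw [h, map_zero])
  have hqc : IsCoprime c1 q :=
    IsCoprime.of_isCoprime_of_dvd_left (hqg.pow_right (n := N)).symm h1
  obtain ⟨u, v, huv⟩ := hqc
  set Q0 := (p * D) / q
  set R0 := (p * D) % q
  have hQR : q * Q0 + R0 = p * D := EuclideanDomain.div_add_mod _ _
  have hR0 : R0.degree < q.degree := degree_mod_lt _ hq0
  set κ := (R0 * v) % c1
  have hκ : κ.degree < c1.degree := degree_mod_lt _ hc1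
  have hκ2 : c1 * ((R0 * v) / c1) + κ = R0 * v := EuclideanDomain.div_add_mod _ _
  have hQd : Q0.natDegree ≤ m := by
    by_cases hQ : Q0 = 0
    · rw [hQ, natDegree_zero]; exact Nat.zero_le _
    · have e1 : q * Q0 = p * D - R0 := by rw [← hQR]; ring
      have e2 : (q * Q0).natDegree ≤ q.natDegree + m := by
        rw [e1]
        refine (natDegree_sub_le _ _).trans (max_le ?_ ?_)
        · refine natDegree_mul_le.trans ?_
          rw [hDd]
          exact add_le_add hpq le_rfl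
        · exact (natDegree_le_natDegree hR0.le).trans (Nat.le_add_right _ _)
      rw [natDegree_mul hq0 hQ] at e2
      omega
  have hκd : κ.natDegree ≤ c1.natDegree := natDegree_le_natDegree hκ.le
  -- the numerator
  have hnum : R0 - q * κ = c1 * (R0 * u + q * ((R0 * v) / c1)) := by
    linear_combination (-q) * hκ2 - R0 * huv
  set W := R0 * u + q * ((R0 * v) / c1)
  have hWd : W.natDegree ≤ q.natDegree := by
    by_cases hW : W = 0
    · rw [hW, natDegree_zero]; exact Nat.zero_le _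
    · have e1 : (c1 * W).natDegree ≤ q.natDegree + c1.natDegree := by
        rw [← hnum]
        refine (natDegree_sub_le _ _).trans (max_le ?_ ?_)
        · exact (natDegree_le_natDegree hR0.le).trans (Nat.le_add_right _ _)
        · exact natDegree_mul_le.trans (add_le_add le_rfl hκd)
      rw [natDegree_mul hc1 hW] at e1
      omega
  have a1 : aeval t c1 ≠ 0 := pf_ne ht hc1
  have a2 : aeval t c2 ≠ 0 := pf_ne ht hc2
  have a3 : aeval t D ≠ 0 := pf_ne ht hD0
  refine ⟨(aeval t D)⁻¹ * aeval t (Q0 + κ), ⟨Q0 + κ, ?_, rfl⟩,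
    aeval t (W * b) / aeval t (q * D * c2), ?_, ?_⟩
  · rw [SetLike.mem_coe, mem_degreeLT]
    refine lt_of_le_of_lt degree_le_natDegree ?_
    have : (Q0 + κ).natDegree < m + 1 := by
      refine Nat.lt_succ_of_le ((natDegree_add_le _ _).trans (max_le hQd (hκd.trans ?_)))
      omega
    exact_mod_cast this
  · refine ⟨W * b, q * D * c2, pf_ne ht (mul_ne_zero (mul_ne_zero hq0 hD0) hc2),
      (hqg.mul_left hDg).mul_left h2, ?_, rfl⟩
    rw [natDegree_mul (mul_ne_zero hq0 hD0) hc2, natDegree_mul hq0 hD0, hDd]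
    refine natDegree_mul_le.trans ?_
    rw [natDegree_mul hc1 hc2] at hdeg hm
    omega
  · have e1 := congrArg (aeval t) hQR
    have e2 := congrArg (aeval t) hnum
    rw [map_add, map_mul, map_mul] at e1
    rw [map_sub, map_mul, map_mul] at e2
    rw [map_mul, map_mul, map_mul, map_mul, map_add]
    field_simp
    linear_combination e2 - e1
end Vale.Agent.P292.Mo
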