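import Vale.Agent.P292.Mo.IsCDCore
import Vale.Agent.P292.Mo.IcPf

/-!
# The curve data (P292, block F3a)
-/

namespace Vale.Agent.P292.Mo

open Polynomial

universe u w

variable {k : Type u} [Field k] {K : Type w} [Field K] [Algebra k K]

/-- F3a: the curve data. -/
theorem isCD_IC [IsAlgClosed k] {t : K} (ht : Transcendental k t)
    [FiniteDimensional (IntermediateField.adjoin k {t}) K]
    [Algebra.IsSeparable (IntermediateField.adjoin k {t}) K] {g : Polynomial k} (hg : g ≠ 0) :
    IsCD (IC (B0 t g)) (IC (B1 t g)) :=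
  isCD_of ht hg (fun _ hd hd0 => b1_quot ht hg hd hd0) (fun _ hx => b0_add_b1 ht hg hx)
    (fun _ h0 h1 => b0_inf_b1 ht hg h0 h1)

end Vale.Agent.P292.Mo
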