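import Vale.Agent.P292.Mo.Defs
import Vale.Agent.P292.Mo.F5a

/-! # Part II.f, block F3c: every place is on one of the charts -/

namespace Vale.Agent.P292.Mo

universe u v w

variable {k : Type u} [Field k] {K : Type w} [Field K] [Algebra k K]

theorem plc_mem (V : ValuationSubring K) {B : Subalgebra k K} (hB : ∀ b ∈ B, b ∈ V) {a : K}
    (ha : a ∈ IC B) : a ∈ V := by
  have h : IsIntegral B a := mem_IC.1 ha
  have h2 : IsIntegral V a := by
    obtain ⟨q, hq, he⟩ := h
    let f : B →+* V := (algebraMap B K).codRestrict V.toSubring (fun b => hB b b.2)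
    refine ⟨q.map f, hq.map _, ?_⟩
    rw [Polynomial.eval₂_map]
    exact he
  obtain ⟨v, hv⟩ := (IsIntegrallyClosed.isIntegral_iff (R := V) (K := K)).1 h2
  rw [← hv]
  exact v.2

theorem plc_poly (V : ValuationSubring K) (hV : ∀ c : k, algebraMap k K c ∈ V) {s : K}
    (hs : s ∈ V) (q : Polynomial k) : Polynomial.aeval s q ∈ V := by
  rw [Polynomial.aeval_eq_sum_range]
  refine V.toSubring.sum_mem fun i _ => ?_
  rw [Algebra.smul_def]
  exact V.toSubring.mul_mem (hV _) (V.toSubring.pow_mem hs i)

theorem plc_lt {V : ValuationSubring K} {x : K} (hx : x⁻¹ ∉ V) : V.valuation x < 1 := by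
  rw [← V.valuation_le_one_iff, not_le, map_inv₀] at hx
  by_contra h
  rw [not_lt] at h
  exact absurd (inv_le_one_of_one_le₀ h) (not_le.2 hx)

theorem place_IC [IsAlgClosed k] {t : K} (ht : Transcendental k t) {g : Polynomial k} (hg : g ≠ 0)
    (V : ValuationSubring K) (hV : ∀ c : k, algebraMap k K c ∈ V) :
    (∀ a ∈ IC (B0 t g), a ∈ V) ∨ (∀ a ∈ IC (B1 t g), a ∈ V) := by
  by_cases h1 : t ∈ V
  · by_cases h2 : (Polynomial.aeval t g)⁻¹ ∈ V
    · left
      refine fun a ha => plc_mem V (fun b hb => ?_) ha
      refine Algebra.adjoin_induction (p := fun b _ => b ∈ V) ?_ hV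
        (fun _ _ _ _ h h' => V.toSubring.add_mem h h')
        (fun _ _ _ _ h h' => V.toSubring.mul_mem h h') hb
      rintro x (rfl | hx)
      · exact h1
      · rw [Set.mem_singleton_iff.1 hx]
        exact h2
    · right
      refine fun a ha => plc_mem V (fun x hx => ?_) ha
      obtain ⟨a, b, hb, ⟨u, v, huv⟩, -, rfl⟩ := hx
      rw [div_eq_mul_inv]
      refine V.toSubring.mul_mem (plc_poly V hV h1 a) ?_
      by_contra h3
      have h4 := plc_lt h2
      have h5 := plc_lt h3
      have h6 : Polynomial.aeval t u * Polynomial.aeval t b +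
          Polynomial.aeval t v * Polynomial.aeval t g = (1 : K) := by
        rw [← map_mul, ← map_mul, ← map_add, huv, map_one]
      have h7 : V.valuation (1 : K) < 1 := by
        rw [← h6]
        refine Valuation.map_add_lt _ ?_ ?_
        · rw [map_mul]
          exact lt_of_le_of_lt (mul_le_of_le_one_left'
            ((V.valuation_le_one_iff _).2 (plc_poly V hV h1 u))) h5
        · rw [map_mul]
          exact lt_of_le_of_lt (mul_le_of_le_one_left'
            ((V.valuation_le_one_iff _).2 (plc_poly V hV h1 v))) h4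
      rw [map_one] at h7
      exact lt_irrefl _ h7
  · right
    have ht0 : t ≠ 0 := by
      rintro rfl
      exact h1 V.toSubring.zero_mem
    have hs : t⁻¹ ∈ V := (V.mem_or_inv_mem t).resolve_left h1
    have hs1 : V.valuation t⁻¹ < 1 := plc_lt (by rwa [inv_inv])
    refine fun a ha => plc_mem V (fun x hx => ?_) ha
    obtain ⟨a, b, hb, -, hd, rfl⟩ := hx
    have hb0 : b ≠ 0 := fun h => hb (by rw [h, map_zero])
    have key : ∀ q : Polynomial k, Polynomial.aeval t q =
        Polynomial.aeval t⁻¹ q.reverse * t ^ q.natDegree := by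
      intro q
      let _ := invertibleOfNonzero ht0
      have h := Polynomial.eval₂_reverse_mul_pow (algebraMap k K) t q
      rw [invOf_eq_inv] at h
      exact h.symm
    have hv : V.valuation (Polynomial.aeval t⁻¹ b.reverse) = 1 := by
      have h2 : Polynomial.aeval t⁻¹ b.reverse =
          algebraMap k K b.leadingCoeff + t⁻¹ * Polynomial.aeval t⁻¹ b.reverse.divX := by
        conv_lhs => rw [← Polynomial.X_mul_divX_add b.reverse]
        rw [map_add, map_mul, Polynomial.aeval_X, Polynomial.aeval_C,
          Polynomial.coeff_zero_reverse, add_comm]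
      have h3 : V.valuation (algebraMap k K b.leadingCoeff) = 1 := by
        refine le_antisymm ((V.valuation_le_one_iff _).2 (hV _)) ?_
        have h4 : V.valuation (algebraMap k K b.leadingCoeff)⁻¹ ≤ 1 := by
          rw [V.valuation_le_one_iff, ← map_inv₀]
          exact hV _
        have h5 : V.valuation (algebraMap k K b.leadingCoeff) ≠ 0 := by
          rw [Valuation.ne_zero_iff, _root_.map_ne_zero]
          exact Polynomial.leadingCoeff_ne_zero.2 hb0
        rw [map_inv₀] at h4
        by_contra h6
        rw [not_le] at h6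
        exact absurd (one_lt_inv₀ (zero_lt_iff.2 h5) |>.2 h6) (not_lt.2 h4)
      rw [h2, Valuation.map_add_eq_of_lt_left, h3]
      rw [h3, map_mul]
      exact lt_of_le_of_lt (mul_le_of_le_one_right'
        ((V.valuation_le_one_iff _).2 (plc_poly V hV hs _))) hs1
    have hv' : (Polynomial.aeval t⁻¹ b.reverse)⁻¹ ∈ V := by
      rw [← V.valuation_le_one_iff, map_inv₀, hv, inv_one]
    have h3 : Polynomial.aeval t a / Polynomial.aeval t b =
        Polynomial.aeval t⁻¹ a.reverse * (Polynomial.aeval t⁻¹ b.reverse)⁻¹ *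
          t⁻¹ ^ (b.natDegree - a.natDegree) := by
      have h4 : Polynomial.aeval t⁻¹ b.reverse ≠ 0 := by
        intro h
        rw [h, map_zero] at hv
        exact zero_ne_one hv
      rw [key a, key b, div_eq_iff (mul_ne_zero h4 (pow_ne_zero _ ht0))]
      have h5 : t ^ b.natDegree = t ^ (b.natDegree - a.natDegree) * t ^ a.natDegree := by
        rw [← pow_add]
        congr 1
        omega
      have h6 : t⁻¹ ^ (b.natDegree - a.natDegree) * t ^ (b.natDegree - a.natDegree) = 1 := by
        rw [← mul_pow, inv_mul_cancel₀ ht0, one_pow]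
      rw [h5]
      have h7 : (Polynomial.aeval t⁻¹ b.reverse)⁻¹ * Polynomial.aeval t⁻¹ b.reverse = 1 :=
        inv_mul_cancel₀ h4
      linear_combination (-(Polynomial.aeval t⁻¹ a.reverse * t ^ a.natDegree)) * h7 -
        (Polynomial.aeval t⁻¹ a.reverse * t ^ a.natDegree) *
        ((Polynomial.aeval t⁻¹ b.reverse)⁻¹ * Polynomial.aeval t⁻¹ b.reverse) * h6
    rw [h3]
    exact V.toSubring.mul_mem (V.toSubring.mul_mem (plc_poly V hV hs _) hv')
      (V.toSubring.pow_mem hs _)

end Vale.Agent.P292.Mo
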