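import Vale.Agent.P292.Mo.Defs

/-! # P292, Mori step, block F4c: the rank is positive (Euler derivation). Owner helper777. -/

namespace Vale.Agent.P292.Mo

universe u v w

section euler

variable {k : Type u} [Field k] {R : Type v} [CommRing R] [Algebra k R] (𝒜 : ℕ → Submodule k R)
  [GradedAlgebra 𝒜]

/-- The Euler map. -/
noncomputable def rkEuler : R →ₗ[k] R :=
  (DirectSum.toModule k ℕ R (fun n => (n : k) • (𝒜 n).subtype)) ∘ₗ
    (DirectSum.decomposeLinearEquiv 𝒜).toLinearMap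

variable {𝒜}

theorem rkEuler_apply {n : ℕ} {r : R} (hr : r ∈ 𝒜 n) : rkEuler 𝒜 r = (n : k) • r := by
  change DirectSum.toModule k ℕ R (fun n => (n : k) • (𝒜 n).subtype)
    (DirectSum.decompose 𝒜 r) = _
  rw [DirectSum.decompose_of_mem 𝒜 hr]
  change DirectSum.toModule k ℕ R (fun n => (n : k) • (𝒜 n).subtype)
    (DirectSum.lof k ℕ (fun n => 𝒜 n) n ⟨r, hr⟩) = _
  rw [DirectSum.toModule_lof]
  rfl

theorem rkEuler_ext (f g : R →ₗ[k] R) (h : ∀ n, ∀ r ∈ 𝒜 n, f r = g r) : f = g := by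
  refine LinearMap.ext fun r => ?_
  induction r using DirectSum.Decomposition.inductionOn 𝒜 with
  | zero => rw [map_zero, map_zero]
  | homogeneous m => exact h _ m.1 m.2
  | add a b ha hb => rw [map_add, map_add, ha, hb]

theorem rkEuler_mul (a b : R) :
    rkEuler 𝒜 (a * b) = a * rkEuler 𝒜 b + b * rkEuler 𝒜 a := by
  have h1 : ∀ b, (rkEuler 𝒜) ∘ₗ LinearMap.mulRight k b =
      LinearMap.mulRight k (rkEuler 𝒜 b) + LinearMap.mulLeft k b ∘ₗ rkEuler 𝒜 := by
    intro b
    refine rkEuler_ext (𝒜 := 𝒜) _ _ fun n r hr => ?_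
    have h2 : (rkEuler 𝒜) ∘ₗ LinearMap.mulLeft k r =
        LinearMap.mulLeft k r ∘ₗ rkEuler 𝒜 + LinearMap.mulRight k (rkEuler 𝒜 r) := by
      refine rkEuler_ext (𝒜 := 𝒜) _ _ fun l s hs => ?_
      simp only [LinearMap.comp_apply, LinearMap.mulLeft_apply, LinearMap.add_apply,
        LinearMap.mulRight_apply]
      rw [rkEuler_apply (SetLike.mul_mem_graded hr hs), rkEuler_apply hr, rkEuler_apply hs]
      simp only [Algebra.smul_def, Nat.cast_add, map_add, map_natCast]
      ring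
    have h3 := LinearMap.congr_fun h2 b
    simp only [LinearMap.comp_apply, LinearMap.mulLeft_apply, LinearMap.add_apply,
      LinearMap.mulRight_apply] at h3 ⊢
    exact h3
  have h4 := LinearMap.congr_fun (h1 b) a
  simpa only [LinearMap.comp_apply, LinearMap.mulLeft_apply, LinearMap.add_apply,
    LinearMap.mulRight_apply] using h4

variable (𝒜) in
/-- The Euler derivation. -/
noncomputable def rkEulerD : Derivation k R R :=
  Derivation.mk' (rkEuler 𝒜) fun a b => by
    rw [rkEuler_mul, smul_eq_mul, smul_eq_mul]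

theorem rkEulerD_apply {n : ℕ} {r : R} (hr : r ∈ 𝒜 n) : rkEulerD 𝒜 r = (n : k) • r :=
  rkEuler_apply hr

end euler

/-- F4c: the rank is positive. -/
theorem rank_pos {k : Type u} [Field k] {R : Type v} [CommRing R] [Algebra k R]
    {𝒜 : ℕ → Submodule k R}
    [GradedAlgebra 𝒜] {P : R →ₗ[k] R →ₗ[k] R} [IsAlgClosed k] (p : ℕ) [Fact p.Prime] [CharP k p]
    (hP : IsPM 𝒜 P) {y : R →ₐ[k] k} (hy : NV 𝒜 y) {N : ℕ} (h : HasRk 𝒜 P y N) : 0 < N := by
  rcases Nat.eq_zero_or_pos N with h0 | h0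
  swap
  · exact h0
  exfalso
  subst h0
  obtain ⟨x, d, g, hF, hg⟩ := h
  have hg' : y g ≠ 0 := by
    rw [Matrix.det_isEmpty, mul_one] at hg
    exact hg
  have hd : ∀ n, ∀ r ∈ 𝒜 n, y r ≠ 0 → p ∣ n := by
    intro n r hr hyr
    obtain ⟨c, hc⟩ := hF.gen r
    rw [Finset.univ_eq_empty, Finset.sum_empty] at hc
    have h1 := congrArg (rkEulerD 𝒜).liftKaehlerDifferential hc
    rw [map_smul, Derivation.liftKaehlerDifferential_comp_D, map_zero, rkEulerD_apply hr,
      smul_eq_mul] at h1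
    have h2 := congrArg y h1
    rw [map_mul, map_smul, map_zero, smul_eq_mul] at h2
    have h3 : (n : k) = 0 := by
      rcases mul_eq_zero.1 h2 with h4 | h4
      · exact absurd h4 hg'
      · exact (mul_eq_zero.1 h4).resolve_right hyr
    exact (CharP.cast_eq_zero_iff k p n).1 h3
  exact (Fact.out : p.Prime).one_lt.ne' (hP.lineBundle y hy p hd)

end Vale.Agent.P292.Mo
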