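import Vale.Agent.P292.Mo.Defs
import Vale.Agent.P292.Mo.F5a
import Vale.Agent.P292.Mo.F5b
import Vale.Agent.P292.Mo.F5c
import Vale.Agent.P292.Mo.Exists_ff
import Vale.Agent.P292.Mo.Exists_equation
import Vale.Agent.P292.Mo.IsCD_IC
import Vale.Agent.P292.Mo.Idx_IC
import Vale.Agent.P292.Mo.Place_IC
import Vale.Agent.P292.Mo.Closed_IC0
import Vale.Agent.P292.Mo.Closed_IC1
import Vale.Agent.P292.Mo.Expansion_IC
import Vale.Agent.P292.Mo.Infinite_IC
import Vale.Agent.P292.Mo.Exists_inv_mem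
import Vale.Agent.P292.Mo.Frame_card_eq
import Vale.Agent.P292.Mo.Exists_frame_finset
import Vale.Agent.P292.Mo.Rank_pos

/-! # Part II.f, block F5: the curve -/

namespace Vale.Agent.P292.Mo

universe u v w

section sep

theorem ec_separable {F : Type*} {K : Type*} [Field F] [Field K] [Algebra F K]
    [FiniteDimensional F K] (p : ℕ) [Fact p.Prime] [CharP F p] (h : Module.finrank F K < p) :
    Algebra.IsSeparable F K := by
  refine ⟨fun x => ?_⟩
  have hi : IsIntegral F x := IsIntegral.of_finite F x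
  have hirr := minpoly.irreducible hi
  rcases Polynomial.separable_or p hirr with h1 | ⟨-, g, hg, he⟩
  · exact h1
  · exfalso
    have h2 : (minpoly F x).natDegree ≤ Module.finrank F K := minpoly.natDegree_le x
    rw [← he, Polynomial.natDegree_expand] at h2
    have h3 : 0 < g.natDegree := Irreducible.natDegree_pos hg
    nlinarith

end sep

variable {k : Type u} [Field k]

theorem exists_curve {R : Type v} [CommRing R] [Algebra k R] {𝒜 : ℕ → Submodule k R}
    [GradedAlgebra 𝒜] {P : R →ₗ[k] R →ₗ[k] R} [IsAlgClosed k] (p : ℕ) [Fact p.Prime] [CharP k p]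
    (hP : IsPM 𝒜 P) {e n : ℕ} {y : Fin n → R} (hN : IsNoe 𝒜 p e y) (f : R)
    (hf : ∃ h : R, ∃ G : MvPolynomial (Fin n) k, G ≠ 0 ∧ f * h = MvPolynomial.aeval y G) :
    ∃ (K : Type v) (_ : Field K) (_ : Algebra k K) (A₀ A₁ : Subalgebra k K) (u : K)
      (φ : R →ₐ[k] K), IsGC 𝒜 P A₀ A₁ u φ f := by
  obtain ⟨K, iF, iA, t, φ, a, b, hFF, hfr, hφf⟩ := exists_ff hN f hf
  have : FiniteDimensional (IntermediateField.adjoin k {t}) K := hFF.fin
  have : CharP (IntermediateField.adjoin k {t}) p :=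
    charP_of_injective_algebraMap (algebraMap k (IntermediateField.adjoin k {t})).injective p
  have : Algebra.IsSeparable (IntermediateField.adjoin k {t}) K := ec_separable p hfr
  have : Infinite k := IsAlgClosed.instInfinite
  have hF2 : ∀ (j : ℕ) (r : R), r ∈ 𝒜 j → ∃ (m : ℕ) (c : ℕ → Polynomial k),
      (∀ i, (c i).natDegree ≤ j * i) ∧
      φ r ^ m + ∑ i ∈ Finset.range m, Polynomial.aeval t (c (i + 1)) * φ r ^ (m - (i + 1)) = 0 :=
    fun j r hr => exists_equation hN hFF hr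
  have hmem : ∀ (B : Subalgebra k K), t ∈ B → ∀ r, IsIntegral B (φ r) := by
    classical
    intro B hB r
    rw [← DirectSum.sum_support_decompose 𝒜 r, map_sum]
    refine IsIntegral.sum _ fun j _ => ?_
    obtain ⟨m, c, -, hc⟩ := hF2 j _ (SetLike.coe_mem (DirectSum.decompose 𝒜 r j))
    exact F5a_isIntegral_of_eq (A := B) (fun i => ⟨_, F5a_aeval_mem hB (c i)⟩) hc
  have hone : (1 : Polynomial k) ≠ 0 := one_ne_zero
  have hmem0 : ∀ (g : Polynomial k) (r : R), φ r ∈ IC (B0 t g) :=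
    fun g r => mem_IC.2 (hmem _ (t_mem_B0 t g) r)
  -- a first closed point
  obtain ⟨c0, hc0⟩ := (infinite_IC hFF.transc hone (1 : IC (B0 t (1 : Polynomial k)))
    one_ne_zero).nonempty
  obtain ⟨y0, hy0⟩ : ∃ y0 : R →ₐ[k] k, ∀ r, y0 r = c0 ⟨φ r, hmem0 1 r⟩ :=
    ⟨c0.comp (φ.codRestrict (IC (B0 t (1 : Polynomial k))) (hmem0 1)), fun r => rfl⟩
  obtain ⟨r1, hr1, hr1'⟩ := F5a_exists_elem hN hFF 1 0
  have hr1'' : φ r1 = 1 := by rw [hr1', map_one, map_zero, zero_mul, add_zero]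
  have hNV : NV 𝒜 y0 := by
    refine ⟨e, hN.e_pos, r1, hr1, ?_⟩
    rw [hy0]
    have h1 : (⟨φ r1, hmem0 1 r1⟩ : IC (B0 t (1 : Polynomial k))) = 1 := Subtype.ext hr1''
    rw [h1, map_one]
    exact one_ne_zero
  obtain ⟨N, x, d, g0, hfr0, hy⟩ := hP.frame y0 hNV
  have hNpos : 0 < N := rank_pos p hP hNV ⟨x, d, g0, hfr0, hy⟩
  have hne : φ (g0 * (brM P x).det) ≠ 0 := by
    intro h
    apply hy
    rw [hy0]
    have h1 : (⟨φ (g0 * (brM P x).det), hmem0 1 _⟩ : IC (B0 t (1 : Polynomial k))) = 0 :=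
      Subtype.ext h
    rw [h1, map_zero]
  have hne' := hne
  rw [map_mul] at hne'
  have hg0 : φ g0 ≠ 0 := left_ne_zero_of_mul hne'
  have hdet : φ (brM P x).det ≠ 0 := right_ne_zero_of_mul hne'
  -- the open set
  obtain ⟨g, hg, hinv⟩ := exists_inv_mem hFF.transc hdet
    (hmem _ (Algebra.self_mem_adjoin_singleton k t) _)
  obtain ⟨l, hl⟩ : ∃ l, g.eval l ≠ 0 := by
    by_contra hcon
    push Not at hcon
    exact hg (Polynomial.funext fun r => by rw [hcon, Polynomial.eval_zero])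
  have hmp := mp_IC_of hN hFF hF2 hg l hl
  have hcl := closed_IC1 (K := K) hFF.transc hg
  obtain ⟨x', d', g', hfr1⟩ := fr1_of_mp hP hmp hcl.1 hcl.2 hfr0 hne
    (fun Y h1 h2 h3 => exists_frame_finset p hP Y h1 h2 h3)
  exact ⟨K, iF, iA, IC (B0 t g), IC (B1 t g), (t - algebraMap k K l)⁻¹, φ,
    { cd := isCD_IC hFF.transc hg
      mp := hmp
      idx_pos := by
        rw [idx_IC hFF.transc hg l hl]
        exact_mod_cast Module.finrank_pos
      frac0 := frac0_IC g
      P1 := place_IC hFF.transc hg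
      P2 := closed_IC0 hFF.transc hg
      frames := ⟨N, hNpos, x, d, g0, x', d', g', ⟨hfr0, hg0, hdet, hinv⟩, hfr1⟩
      exp := expansion_IC hFF.transc hg
      inf := by
        have h1 := infinite_IC hFF.transc hg ⟨φ f, hmem0 g f⟩ (by
          intro h
          exact hφf (congrArg Subtype.val h))
        exact h1.mono fun c hc h => hc }⟩

end Vale.Agent.P292.Mo
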