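import Vale.Agent.P292.Mo.Defs

/-! # The inverse of an integral element, after inverting a polynomial in `t`. -/

namespace Vale.Agent.P292.Mo

universe u w

variable {k : Type u} [Field k] {K : Type w} [Field K] [Algebra k K]

/-- F3h: a nonzero element of the integral closure of `k[t]` is a unit after inverting a
polynomial in `t`. -/
theorem exists_inv_mem {t : K} (ht : Transcendental k t) {s : K} (hs : s ≠ 0)
    (hi : IsIntegral (Algebra.adjoin k {t}) s) :
    ∃ g : Polynomial k, g ≠ 0 ∧ s⁻¹ ∈ IC (B0 t g) := by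
  obtain ⟨p, hp, hps⟩ := hi
  -- remove the powers of `X`
  obtain ⟨q, hpq, hq⟩ := Polynomial.exists_eq_pow_rootMultiplicity_mul_and_not_dvd p hp.ne_zero 0
  have hq0 : q.coeff 0 ≠ 0 := by
    intro h0
    apply hq
    rw [Polynomial.C_0, sub_zero]
    exact Polynomial.X_dvd_iff.2 h0
  have hqs : Polynomial.aeval s q = 0 := by
    have h1 : Polynomial.aeval s p = 0 := hps
    rw [hpq, map_mul, map_pow, map_sub, Polynomial.aeval_X, Polynomial.C_0, map_zero,
      sub_zero] at h1
    exact (mul_eq_zero.1 h1).resolve_left (pow_ne_zero _ hs)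
  obtain ⟨g, hg⟩ : ∃ g : Polynomial k, Polynomial.aeval t g = ((q.coeff 0 : Algebra.adjoin k {t}) : K) := by
    have h0 : ∀ x ∈ Algebra.adjoin k {t}, ∃ g : Polynomial k, Polynomial.aeval t g = x := by
      intro x hx
      rw [Algebra.adjoin_singleton_eq_range_aeval] at hx
      exact hx
    exact h0 _ (q.coeff 0).2
  have hc0 : ((q.coeff 0 : Algebra.adjoin k {t}) : K) ≠ 0 := fun h => hq0 (Subtype.ext h)
  have hg0 : g ≠ 0 := by
    rintro rfl
    rw [map_zero] at hg
    exact hc0 hg.symm
  refine ⟨g, hg0, ?_⟩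
  have hle : Algebra.adjoin k {t} ≤ B0 t g :=
    Algebra.adjoin_mono (Set.singleton_subset_iff.2 (Set.mem_insert _ _))
  have hB : ∀ x ∈ B0 t g, x ∈ IC (B0 t g) := fun x hx =>
    (integralClosure (B0 t g) K).algebraMap_mem ⟨x, hx⟩
  have hsI : s ∈ IC (B0 t g) := by
    refine ⟨p.map (Subalgebra.inclusion hle).toRingHom, hp.map _, ?_⟩
    rw [Polynomial.eval₂_map]
    exact hps
  have hdI : Polynomial.aeval s q.divX ∈ IC (B0 t g) := by
    rw [Polynomial.aeval_eq_sum_range]
    refine sum_mem fun i _ => ?_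
    rw [Subalgebra.smul_def, smul_eq_mul]
    exact mul_mem (hB _ (hle (q.divX.coeff i).2)) (pow_mem hsI i)
  have hcI : (((q.coeff 0 : Algebra.adjoin k {t}) : K))⁻¹ ∈ IC (B0 t g) := by
    rw [← hg]
    exact hB _ (Algebra.subset_adjoin (Set.mem_insert_of_mem _ (Set.mem_singleton _)))
  have key : s⁻¹ = -(Polynomial.aeval s q.divX * (((q.coeff 0 : Algebra.adjoin k {t}) : K))⁻¹) := by
    have h1 : Polynomial.aeval s q.divX * s + ((q.coeff 0 : Algebra.adjoin k {t}) : K) = 0 := by
      have h2 := hqs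
      rw [← Polynomial.divX_mul_X_add q, map_add, map_mul, Polynomial.aeval_X,
        Polynomial.aeval_C] at h2
      exact h2
    field_simp
    linear_combination h1
  rw [key]
  exact neg_mem (mul_mem hdI hcI)

end Vale.Agent.P292.Mo
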