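import Vale.Agent.P292.Mo.Defs
import Vale.Agent.P292.Mo.Chi

/-! # P292, Mori step, block II.b: the index of `Mo/Defs.lean` in terms of `Mo/Index.lean`. -/

namespace Vale.Agent.P292.Mo

open Module Submodule

universe u v w

section

variable {k : Type u} [Field k] {V : Type w} [AddCommGroup V] [Module k V]

/-- `L / (L ∩ D)` is the image of `L` in `V / D`. -/
noncomputable def quotEquiv (D L : Submodule k V) :
    (↥L ⧸ D.comap L.subtype) ≃ₗ[k] ↥(L.map D.mkQ) :=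
  (Submodule.quotEquivOfEq _ _ (by
    ext x
    simp [LinearMap.mem_ker])).trans
    (((D.mkQ ∘ₗ L.subtype).quotKerEquivRange).trans
      (LinearEquiv.ofEq _ _ (by rw [LinearMap.range_comp, Submodule.range_subtype])))

theorem finrank_quot (D L : Submodule k V) :
    finrank k (↥L ⧸ D.comap L.subtype) = cod D L := (quotEquiv D L).finrank_eq

theorem finite_quot (D L : Submodule k V) :
    FiniteDimensional k (↥L ⧸ D.comap L.subtype) ↔ Fc D L :=
  ⟨fun _ => Module.Finite.equiv (quotEquiv D L), fun h => by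
    have : Module.Finite k ↥(L.map D.mkQ) := h
    exact Module.Finite.equiv (quotEquiv D L).symm⟩

theorem comm_iff (U U' : Submodule k V) : Comm U U' ↔ Com U U' := by
  rw [Comm, Com, finite_quot, finite_quot]

theorem relIdx_eq (U U' : Submodule k V) : relIdx U U' = ind U U' := by
  rw [relIdx, ind, finrank_quot, finrank_quot]

end

section curve

variable {k : Type u} [Field k] {K : Type w} [Field K] [Algebra k K] {A₀ A₁ : Subalgebra k K}

theorem idx_eq (x : K) : idx A₁ x = - dg A₁ x := by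
  rw [idx, relIdx_eq, dg, ind_symm]
  rfl

theorem chi0_eq : chi0 A₀ A₁ = chi (Subalgebra.toSubmodule A₁) (Subalgebra.toSubmodule A₀) := by
  rw [chi_comm]
  rfl

theorem IsCD.fred (h : IsCD A₀ A₁) :
    Fred (Subalgebra.toSubmodule A₁) (Subalgebra.toSubmodule A₀) :=
  Fred.comm ⟨h.fin0, h.fin1⟩

theorem IsCD.oneDim (h : IsCD A₀ A₁) : OneDim A₁ where
  frac x := by
    obtain ⟨a, ha, b, hb, hb0, rfl⟩ := h.frac x
    exact ⟨b, hb, hb0, by rwa [mul_div_cancel₀ a hb0]⟩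
  fin a ha ha0 := (finite_quot _ _).1 (h.finQ a ha ha0)

theorem IsCD.idx_mul (h : IsCD A₀ A₁) {x y : K} (hx : x ≠ 0) (hy : y ≠ 0) :
    idx A₁ (x * y) = idx A₁ x + idx A₁ y := by
  rw [idx_eq, idx_eq, idx_eq, h.oneDim.dg_mul hx hy]
  ring

theorem IsCD.idx_pow (h : IsCD A₀ A₁) {x : K} (hx : x ≠ 0) (n : ℕ) :
    idx A₁ (x ^ n) = n * idx A₁ x := by
  rw [idx_eq, idx_eq, h.oneDim.dg_pow hx]
  ring

theorem idx_one : idx A₁ (1 : K) = 0 := by rw [idx_eq, dg_one, neg_zero]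

theorem IsCD.idx_inv (h : IsCD A₀ A₁) {x : K} (hx : x ≠ 0) : idx A₁ x⁻¹ = - idx A₁ x := by
  have := h.idx_mul hx (inv_ne_zero hx)
  rw [mul_inv_cancel₀ hx, idx_one] at this
  omega

theorem IsCD.idx_unit1 (_h : IsCD A₀ A₁) {x : K} (hx : x ∈ A₁) (hx' : x⁻¹ ∈ A₁) (h0 : x ≠ 0) :
    idx A₁ x = 0 := by
  rw [idx_eq, dg_unit hx hx' h0, neg_zero]

theorem IsCD.idx_unit0 (h : IsCD A₀ A₁) {x : K} (hx : x ∈ A₀) (hx' : x⁻¹ ∈ A₀) (h0 : x ≠ 0) :
    idx A₁ x = 0 := by
  rw [idx_eq, dg_unit_O h.oneDim h.fred hx hx' h0, neg_zero]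

/-- The index of an element of the second chart is the number of its zeros there. -/
theorem IsCD.idx_of_mem (_h : IsCD A₀ A₁) {x : K} (hx : x ∈ A₁) :
    idx A₁ x = finrank k (↥(Subalgebra.toSubmodule A₁) ⧸
      ((Subalgebra.toSubmodule A₁).map (LinearMap.mulLeft k x)).comap
        (Subalgebra.toSubmodule A₁).subtype) := by
  rw [idx_eq, dg_of_mem hx, finrank_quot, neg_neg]
  rfl

/-- Elements of the first chart have nonpositive index. -/
theorem IsCD.idx_le (h : IsCD A₀ A₁) {x : K} (hx : x ∈ A₀) (h0 : x ≠ 0) : idx A₁ x ≤ 0 := by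
  rw [idx_eq]
  have := dg_nonneg h.oneDim h.fred hx h0
  omega

/-- Riemann-Roch for the powers of the line bundle: `χ (n) = χ (0) + n deg`. -/
theorem IsCD.chi_Sec (h : IsCD A₀ A₁) {u : K} (hu : u ≠ 0) (n : ℕ) :
    FiniteDimensional k ↥(Sec A₀ A₁ u n) ∧
    FiniteDimensional k (K ⧸ (Subalgebra.toSubmodule A₀ ⊔
      (Subalgebra.toSubmodule A₁).comap (LinearMap.mulLeft k (u ^ n)))) ∧
    (finrank k ↥(Sec A₀ A₁ u n) : ℤ) - finrank k (K ⧸ (Subalgebra.toSubmodule A₀ ⊔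
      (Subalgebra.toSubmodule A₁).comap (LinearMap.mulLeft k (u ^ n)))) =
      chi0 A₀ A₁ + n * idx A₁ u := by
  have hun : u ^ n ≠ 0 := pow_ne_zero n hu
  have e1 : (Subalgebra.toSubmodule A₁).comap (LinearMap.mulLeft k (u ^ n)) =
      sc (u ^ n)⁻¹ (Subalgebra.toSubmodule A₁) := by
    ext x
    rw [Submodule.mem_comap, mem_sc]
    constructor
    · intro hx
      exact ⟨_, hx, by rw [LinearMap.mulLeft_apply, inv_mul_cancel_left₀ hun]⟩
    · rintro ⟨y, hy, rfl⟩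
      rwa [LinearMap.mulLeft_apply, mul_inv_cancel_left₀ hun]
  have h1 := chi_sc_A h.oneDim h.fred (inv_ne_zero hun)
  have h2 := Fred.comm h1.1
  have h3 : chi (Subalgebra.toSubmodule A₀) (sc (u ^ n)⁻¹ (Subalgebra.toSubmodule A₁)) =
      chi0 A₀ A₁ + n * idx A₁ u := by
    rw [chi_comm, h1.2, chi0_eq]
    have : dg A₁ (u ^ n)⁻¹ = n * idx A₁ u := by
      have h4 := idx_eq (A₁ := A₁) (u ^ n)⁻¹
      rw [h.idx_inv hun, h.idx_pow hu] at h4
      linarith
    rw [this]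
  rw [Sec, e1]
  exact ⟨h2.1, h2.2, h3⟩

end curve

end Vale.Agent.P292.Mo
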