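import Vale.Agent.P292.Mo.Tw
import Vale.Agent.P292.Mo.Idx

/-! # P292, Mori step, F6: the Frobenius twist of a curve. -/

namespace Vale.Agent.P292.Mo

open Module

universe u v w

/-- `τ` is semilinear with respect to `σ`. -/
structure IsSl {k : Type u} [Field k] {K L : Type w} [Field K] [Algebra k K] [Field L] [Algebra k L]
    (σ : k ≃+* k) (τ : L ≃+* K) : Prop where
  al : ∀ c, τ (algebraMap k L c) = algebraMap k K (σ c)

section tw

variable {k : Type u} [Field k] {K L : Type w} [Field K] [Algebra k K] [Field L] [Algebra k L]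
  {σ : k ≃+* k} {τ : L ≃+* K} (hτ : IsSl σ τ)

include hτ

theorem IsSl.smul (c : k) (x : L) : τ (c • x) = σ c • τ x := by
  rw [Algebra.smul_def, Algebra.smul_def, map_mul, hτ.al]

theorem IsSl.sm (c : k) : τ.symm (algebraMap k K (σ c)) = algebraMap k L c := by
  rw [← hτ.al, τ.symm_apply_apply]

/-- The twisted subspace. -/
def IsSl.S (U : Submodule k K) : Submodule k L where
  carrier := {x : L | τ x ∈ U}
  add_mem' := fun {a b} ha hb => by
    simp only [Set.mem_ofPred_eq, map_add] at ha hb ⊢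
    exact U.add_mem ha hb
  zero_mem' := by
    simp only [Set.mem_ofPred_eq, map_zero]
    exact U.zero_mem
  smul_mem' := fun c x hx => by
    simp only [Set.mem_ofPred_eq, hτ.smul] at hx ⊢
    exact U.smul_mem _ hx

/-- The twisted subalgebra. -/
def IsSl.A (B : Subalgebra k K) : Subalgebra k L where
  carrier := {x : L | τ x ∈ B}
  add_mem' := fun {a b} ha hb => by
    simp only [Set.mem_ofPred_eq, map_add] at ha hb ⊢
    exact B.add_mem ha hb
  mul_mem' := fun {a b} ha hb => by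
    simp only [Set.mem_ofPred_eq, map_mul] at ha hb ⊢
    exact B.mul_mem ha hb
  algebraMap_mem' := fun c => by
    simp only [Set.mem_ofPred_eq, hτ.al]
    exact B.algebraMap_mem _

theorem IsSl.mem_S {U : Submodule k K} {x : L} : x ∈ hτ.S U ↔ τ x ∈ U := Iff.rfl

theorem IsSl.mem_A {B : Subalgebra k K} {x : L} : x ∈ hτ.A B ↔ τ x ∈ B := Iff.rfl

theorem IsSl.toS_A (B : Subalgebra k K) :
    Subalgebra.toSubmodule (hτ.A B) = hτ.S (Subalgebra.toSubmodule B) := by
  ext x
  rfl

theorem IsSl.S_inf (U W : Submodule k K) : hτ.S U ⊓ hτ.S W = hτ.S (U ⊓ W) := by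
  ext x
  rfl

theorem IsSl.S_sup (U W : Submodule k K) : hτ.S U ⊔ hτ.S W = hτ.S (U ⊔ W) := by
  ext x
  rw [hτ.mem_S, Submodule.mem_sup, Submodule.mem_sup]
  constructor
  · rintro ⟨y, hy, z, hz, rfl⟩
    exact ⟨τ y, hy, τ z, hz, (map_add τ y z).symm⟩
  · rintro ⟨y, hy, z, hz, h⟩
    refine ⟨τ.symm y, ?_, τ.symm z, ?_, ?_⟩
    · rw [hτ.mem_S, τ.apply_symm_apply]
      exact hy
    · rw [hτ.mem_S, τ.apply_symm_apply]
      exact hz
    · apply τ.injective
      rw [map_add, τ.apply_symm_apply, τ.apply_symm_apply, h]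

theorem IsSl.S_map (U : Submodule k K) (a : L) :
    (hτ.S U).map (LinearMap.mulLeft k a) = hτ.S (U.map (LinearMap.mulLeft k (τ a))) := by
  ext x
  rw [hτ.mem_S, Submodule.mem_map, Submodule.mem_map]
  constructor
  · rintro ⟨y, hy, rfl⟩
    exact ⟨τ y, hy, by rw [LinearMap.mulLeft_apply, LinearMap.mulLeft_apply, map_mul]⟩
  · rintro ⟨y, hy, h⟩
    refine ⟨τ.symm y, ?_, ?_⟩
    · rw [hτ.mem_S, τ.apply_symm_apply]
      exact hy
    · apply τ.injective
      rw [LinearMap.mulLeft_apply, map_mul, τ.apply_symm_apply, ← h, LinearMap.mulLeft_apply]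

omit hτ in
theorem sl_fin {M M' : Type w} [AddCommGroup M] [Module k M] [AddCommGroup M']
    [Module k M'] (e : M ≃+ M') (he : ∀ (c : k) x, e (c • x) = σ c • e x) :
    finrank k M = finrank k M' ∧ (FiniteDimensional k M' → FiniteDimensional k M) := by
  have h : Module.rank k M = Module.rank k M' := rank_eq_of_equiv_equiv _ e σ.bijective he
  refine ⟨by rw [finrank, finrank, h], fun h' => ?_⟩
  rw [FiniteDimensional, ← Module.rank_lt_aleph0_iff, h, Module.rank_lt_aleph0_iff]
  exact h'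

/-- identity on a subspace -/
def IsSl.E (U : Submodule k K) : ↥(hτ.S U) ≃+ ↥U where
  toFun x := ⟨τ x.1, x.2⟩
  invFun x := ⟨τ.symm x.1, by rw [hτ.mem_S, τ.apply_symm_apply]; exact x.2⟩
  left_inv x := Subtype.ext (τ.symm_apply_apply _)
  right_inv x := Subtype.ext (τ.apply_symm_apply _)
  map_add' x y := Subtype.ext (map_add τ _ _)

theorem IsSl.E_smul (U : Submodule k K) (c : k) (x : ↥(hτ.S U)) :
    hτ.E U (c • x) = σ c • hτ.E U x :=
  Subtype.ext (hτ.smul c x.1)

theorem IsSl.fin_sub (U : Submodule k K) :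
    finrank k ↥(hτ.S U) = finrank k ↥U ∧ (FiniteDimensional k ↥U → FiniteDimensional k ↥(hτ.S U)) :=
  sl_fin (hτ.E U) (hτ.E_smul U)

/-- identity on a quotient of a subspace -/
def IsSl.Q (U W : Submodule k K) :
    (↥(hτ.S U) ⧸ (hτ.S W).comap (hτ.S U).subtype) ≃+ (↥U ⧸ W.comap U.subtype) :=
  QuotientAddGroup.congr ((hτ.S W).comap (hτ.S U).subtype).toAddSubgroup
    (W.comap U.subtype).toAddSubgroup (hτ.E U) (by
      ext x
      constructor
      · rintro ⟨y, hy, rfl⟩
        exact hy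
      · intro hx
        refine ⟨(hτ.E U).symm x, ?_, (hτ.E U).apply_symm_apply x⟩
        change τ (τ.symm x.1) ∈ W
        rw [τ.apply_symm_apply]
        exact hx)

theorem IsSl.fin_quot (U W : Submodule k K) :
    finrank k (↥(hτ.S U) ⧸ (hτ.S W).comap (hτ.S U).subtype) =
      finrank k (↥U ⧸ W.comap U.subtype) ∧
    (FiniteDimensional k (↥U ⧸ W.comap U.subtype) →
      FiniteDimensional k (↥(hτ.S U) ⧸ (hτ.S W).comap (hτ.S U).subtype)) := by
  refine sl_fin (σ := σ) (hτ.Q U W) fun c x => ?_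
  obtain ⟨x, rfl⟩ := Submodule.Quotient.mk_surjective _ x
  change Submodule.Quotient.mk (hτ.E U (c • x)) = _
  rw [hτ.E_smul]
  rfl

/-- identity on the quotient of the whole space -/
def IsSl.T (W : Submodule k K) : (L ⧸ hτ.S W) ≃+ (K ⧸ W) :=
  QuotientAddGroup.congr (hτ.S W).toAddSubgroup W.toAddSubgroup τ.toAddEquiv (by
      ext x
      constructor
      · rintro ⟨y, hy, rfl⟩
        exact hy
      · intro hx
        refine ⟨τ.symm x, ?_, τ.apply_symm_apply x⟩
        change τ (τ.symm x) ∈ W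
        rw [τ.apply_symm_apply]
        exact hx)

theorem IsSl.fin_top (W : Submodule k K) :
    finrank k (L ⧸ hτ.S W) = finrank k (K ⧸ W) ∧
    (FiniteDimensional k (K ⧸ W) → FiniteDimensional k (L ⧸ hτ.S W)) := by
  refine sl_fin (σ := σ) (hτ.T W) fun c x => ?_
  obtain ⟨x, rfl⟩ := Submodule.Quotient.mk_surjective _ x
  change Submodule.Quotient.mk (τ (c • x)) = _
  rw [hτ.smul]
  rfl

theorem IsSl.relIdx (U W : Submodule k K) : relIdx (hτ.S U) (hτ.S W) = relIdx U W := by
  rw [Mo.relIdx, Mo.relIdx, (hτ.fin_quot U W).1, (hτ.fin_quot W U).1]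

theorem IsSl.idx (B : Subalgebra k K) (x : L) : idx (hτ.A B) x = idx B (τ x) := by
  rw [Mo.idx, Mo.idx, hτ.toS_A, hτ.S_map, hτ.relIdx]

theorem IsSl.chi0 (A₀ A₁ : Subalgebra k K) : chi0 (hτ.A A₀) (hτ.A A₁) = chi0 A₀ A₁ := by
  rw [Mo.chi0, Mo.chi0, hτ.toS_A, hτ.toS_A, hτ.S_inf, hτ.S_sup, (hτ.fin_sub _).1, (hτ.fin_top _).1]

theorem IsSl.cd {A₀ A₁ : Subalgebra k K} (h : IsCD A₀ A₁) : IsCD (hτ.A A₀) (hτ.A A₁) where
  fin0 := by
    rw [hτ.toS_A, hτ.toS_A, hτ.S_inf]
    exact (hτ.fin_sub _).2 h.fin0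
  fin1 := by
    rw [hτ.toS_A, hτ.toS_A, hτ.S_sup]
    exact (hτ.fin_top _).2 h.fin1
  finQ := by
    intro a ha ha0
    rw [hτ.toS_A, hτ.S_map]
    exact (hτ.fin_quot _ _).2 (h.finQ (τ a) ha ((map_ne_zero τ).2 ha0))
  frac := by
    intro x
    obtain ⟨a, ha, b, hb, hb0, hx⟩ := h.frac (τ x)
    refine ⟨τ.symm a, ?_, τ.symm b, ?_, (map_ne_zero τ.symm).2 hb0, ?_⟩
    · rw [hτ.mem_A, τ.apply_symm_apply]
      exact ha
    · rw [hτ.mem_A, τ.apply_symm_apply]
      exact hb
    · apply τ.injective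
      rw [map_div₀, τ.apply_symm_apply, τ.apply_symm_apply, hx]

/-- The ring isomorphism between a subalgebra and its twist. -/
def IsSl.R (B : Subalgebra k K) : ↥(hτ.A B) ≃+* ↥B where
  toFun x := ⟨τ x.1, x.2⟩
  invFun x := ⟨τ.symm x.1, by rw [hτ.mem_A, τ.apply_symm_apply]; exact x.2⟩
  left_inv x := Subtype.ext (τ.symm_apply_apply _)
  right_inv x := Subtype.ext (τ.apply_symm_apply _)
  map_add' x y := Subtype.ext (map_add τ _ _)
  map_mul' x y := Subtype.ext (map_mul τ _ _)

theorem IsSl.R_algebraMap (B : Subalgebra k K) (c : k) :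
    hτ.R B (algebraMap k _ c) = algebraMap k _ (σ c) := Subtype.ext (hτ.al c)

/-- Closed points of the twist. -/
noncomputable def IsSl.pt (B : Subalgebra k K) (c : B →ₐ[k] k) : hτ.A B →ₐ[k] k where
  toRingHom := (σ.symm.toRingHom.comp c.toRingHom).comp (hτ.R B).toRingHom
  commutes' r := by
    change σ.symm (c (hτ.R B (algebraMap k _ r))) = _
    rw [hτ.R_algebraMap, AlgHom.commutes]
    exact σ.symm_apply_apply r

theorem IsSl.pt_apply (B : Subalgebra k K) (c : B →ₐ[k] k) (x : hτ.A B) :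
    hτ.pt B c x = σ.symm (c (hτ.R B x)) := rfl

/-- Closed points of the curve from closed points of the twist. -/
noncomputable def IsSl.pt' (B : Subalgebra k K) (c : hτ.A B →ₐ[k] k) : B →ₐ[k] k where
  toRingHom := (σ.toRingHom.comp c.toRingHom).comp (hτ.R B).symm.toRingHom
  commutes' r := by
    change σ (c ((hτ.R B).symm (algebraMap k _ r))) = _
    have : (hτ.R B).symm (algebraMap k _ r) = algebraMap k _ (σ.symm r) := by
      apply (hτ.R B).injective
      rw [hτ.R_algebraMap, RingEquiv.apply_symm_apply, RingEquiv.apply_symm_apply]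
    rw [this, AlgHom.commutes]
    exact σ.apply_symm_apply r

theorem IsSl.pt'_apply (B : Subalgebra k K) (c : hτ.A B →ₐ[k] k) (x : B) :
    hτ.pt' B c x = σ (c ((hτ.R B).symm x)) := rfl

end tw

section main

variable {k : Type u} [Field k] {K : Type w} [Field K] [Algebra k K]

theorem map_mem_A₀ {R : Type v} [CommRing R] [Algebra k R] {𝒜 : ℕ → Submodule k R}
    [GradedAlgebra 𝒜] {A₀ A₁ : Subalgebra k K} {u : K} {φ : R →ₐ[k] K} (h : IsMp 𝒜 A₀ A₁ u φ)
    (r : R) : φ r ∈ A₀ := by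
  classical
  rw [← DirectSum.sum_support_decompose 𝒜 r, map_sum]
  exact sum_mem fun n _ => (h.sec n _ (SetLike.coe_mem _)).1

theorem exists_twist {R : Type v} [CommRing R] [Algebra k R] {𝒜 : ℕ → Submodule k R}
    [GradedAlgebra 𝒜] {P : R →ₗ[k] R →ₗ[k] R} [IsAlgClosed k] (p : ℕ) [Fact p.Prime] [CharP k p]
    (j : ℕ) (hP : IsPM 𝒜 P) {A₀ A₁ : Subalgebra k K} {u : K} {φ : R →ₐ[k] K} {f : R}
    (h : IsGC 𝒜 P A₀ A₁ u φ f) :
    ∃ (A₀' A₁' : Subalgebra k (Tw p j K)) (u' : Tw p j K) (φ' : R →ₐ[k] Tw p j K),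
      IsGC 𝒜 P A₀' A₁' u' φ' f ∧ chi0 A₀' A₁' = chi0 A₀ A₁ ∧
      idx A₁' u' = p ^ j * idx A₁ u := by
  have hpp : p.Prime := Fact.out
  set q : ℕ := p ^ j with hq
  have hq0 : 0 < q := pow_pos hpp.pos j
  have hs : Function.Surjective (iterateFrobenius k p j) := by
    intro c
    obtain ⟨z, hz⟩ := IsAlgClosed.exists_pow_nat_eq c hq0
    exact ⟨z, by rw [iterateFrobenius_def, hz]⟩
  have : CharP K p := charP_of_injective_algebraMap (algebraMap k K).injective p
  let σ : k ≃+* k := RingEquiv.ofBijective (iterateFrobenius k p j)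
    ⟨(iterateFrobenius k p j).injective, hs⟩
  have hσ : ∀ c, σ c = c ^ q := fun c => iterateFrobenius_def p j c
  let τ : Tw p j K ≃+* K := RingEquiv.refl K
  have hτ : IsSl σ τ := ⟨fun c => rfl⟩
  have hadd : ∀ x y : K, (x + y) ^ q = x ^ q + y ^ q := by
    intro x y
    have := map_add (iterateFrobenius K p j) x y
    simpa only [iterateFrobenius_def] using this
  let φ' : R →ₐ[k] Tw p j K :=
    { toFun := fun r => τ.symm (φ r ^ q)
      map_one' := by rw [map_one, one_pow, map_one]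
      map_mul' := fun x y => by rw [map_mul, mul_pow, map_mul]
      map_zero' := by rw [map_zero, zero_pow hq0.ne', map_zero]
      map_add' := fun x y => by rw [map_add, hadd, map_add]
      commutes' := fun c => by
        rw [AlgHom.commutes, ← map_pow, ← hσ, hτ.sm] }
  have hφ' : ∀ r, τ (φ' r) = φ r ^ q := fun r => τ.apply_symm_apply _
  have hne : ∀ r, φ r ≠ 0 → φ' r ≠ 0 := by
    intro r hr h0
    have := hφ' r
    rw [h0, map_zero] at this
    exact pow_ne_zero q hr this.symm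
  set u' : Tw p j K := τ.symm (u ^ q) with hu'
  have hτu : τ u' = u ^ q := τ.apply_symm_apply _
  have hidx : idx (hτ.A A₁) u' = p ^ j * idx A₁ u := by
    rw [hτ.idx, hτu, h.cd.idx_pow h.mp.u_ne, hq]
    push_cast
    rfl
  refine ⟨hτ.A A₀, hτ.A A₁, u', φ', ?_, hτ.chi0 A₀ A₁, hidx⟩
  refine
    { cd := hτ.cd h.cd
      mp := ?_
      idx_pos := ?_
      P1 := ?_
      P2 := ?_
      frames := ?_
      exp := ?_
      inf := ?_
      frac0 := fun x => by
        obtain ⟨a, ha, b, hb, hb0, hx⟩ := h.frac0 (τ x)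
        refine ⟨τ.symm a, ?_, τ.symm b, ?_, (map_ne_zero τ.symm).2 hb0, ?_⟩
        · rw [hτ.mem_A, τ.apply_symm_apply]
          exact ha
        · rw [hτ.mem_A, τ.apply_symm_apply]
          exact hb
        · rw [← map_div₀, ← hx, τ.symm_apply_apply] }
  · refine ⟨?_, ?_, ?_, ?_⟩
    · rw [hu']
      exact (map_ne_zero τ.symm).2 (pow_ne_zero q h.mp.u_ne)
    · intro n r hr
      obtain ⟨h1, h2⟩ := mem_Sec.1 (h.mp.sec n r hr)
      refine mem_Sec.2 ⟨?_, ?_⟩
      · rw [hτ.mem_A, hφ']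
        exact pow_mem h1 q
      · rw [hτ.mem_A, map_mul, map_pow, hφ', hτu, ← pow_mul, mul_comm q n, pow_mul, ← mul_pow]
        exact pow_mem h2 q
    · obtain ⟨n, hn, r, hr, h1, h2⟩ := h.mp.unit0
      refine ⟨n, hn, r, hr, hne r h1, ?_⟩
      rw [hτ.mem_A, map_inv₀, hφ', ← inv_pow]
      exact pow_mem h2 q
    · obtain ⟨n, hn, r, hr, h1, h2⟩ := h.mp.unit1
      refine ⟨n, hn, r, hr, hne r h1, ?_⟩
      rw [hτ.mem_A, map_inv₀, map_mul, map_pow, hφ', hτu, ← pow_mul, mul_comm q n, pow_mul, ← mul_pow,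
        ← inv_pow]
      exact pow_mem h2 q
  · rw [hidx]
    exact mul_pos (pow_pos (by exact_mod_cast hpp.pos) j) h.idx_pos
  · intro V hV
    let V' : ValuationSubring K := V.comap τ.symm.toRingHom
    have hV' : ∀ x : K, x ∈ V' ↔ τ.symm x ∈ V := fun x => Iff.rfl
    rcases h.P1 V' (fun c => by
      rw [hV']
      have := hτ.sm (σ.symm c)
      rw [σ.apply_symm_apply] at this
      rw [this]
      exact hV _) with h1 | h1
    · refine Or.inl fun a ha => ?_
      have := h1 (τ a) ha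
      rw [hV', τ.symm_apply_apply] at this
      exact this
    · refine Or.inr fun a ha => ?_
      have := h1 (τ a) ha
      rw [hV', τ.symm_apply_apply] at this
      exact this
  · intro 𝔭 h𝔭 h0 y
    obtain ⟨a, rfl⟩ := Ideal.Quotient.mk_surjective y
    let e := (hτ.R A₀)
    have hp' : (𝔭.comap e.symm.toRingHom).IsPrime := Ideal.IsPrime.comap _
    have h0' : 𝔭.comap e.symm.toRingHom ≠ ⊥ := by
      intro hb
      apply h0
      rw [eq_bot_iff]
      intro x hx
      have : e x ∈ 𝔭.comap e.symm.toRingHom := by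
        rw [Ideal.mem_comap]
        change e.symm (e x) ∈ 𝔭
        rwa [e.symm_apply_apply]
      rw [hb, Ideal.mem_bot] at this
      rw [Ideal.mem_bot]
      exact (map_eq_zero_iff e e.injective).1 this
    obtain ⟨c, hc⟩ := h.P2 _ hp' h0' (Ideal.Quotient.mk _ (e a))
    refine ⟨σ.symm c, ?_⟩
    have hc' : algebraMap k A₀ c - e a ∈ 𝔭.comap e.symm.toRingHom := by
      rw [← Ideal.Quotient.eq]
      exact hc
    rw [Ideal.mem_comap] at hc'
    change e.symm (algebraMap k A₀ c - e a) ∈ 𝔭 at hc'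
    have h2 : e.symm (algebraMap k A₀ c) = algebraMap k _ (σ.symm c) := by
      apply e.injective
      rw [e.apply_symm_apply]
      have := hτ.R_algebraMap A₀ (σ.symm c)
      rw [σ.apply_symm_apply] at this
      exact this.symm
    rw [map_sub, e.symm_apply_apply, h2] at hc'
    exact Ideal.Quotient.eq.2 hc'
  · obtain ⟨N, hN, x, d, g, x', d', g', h1, h2⟩ := h.frames
    refine ⟨N, hN, x, d, g, x', d', g', ⟨h1.fr, hne _ h1.g_ne, hne _ h1.det_ne, ?_⟩,
      ⟨h2.fr, hne _ h2.g_ne, hne _ h2.det_ne, ?_⟩⟩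
    · rw [hτ.mem_A, map_inv₀, hφ', ← inv_pow]
      exact pow_mem h1.unit q
    · rw [hτ.mem_A, map_inv₀, map_mul, map_zpow₀, hφ', hτu]
      have : ∀ m : ℤ, (u ^ q) ^ m = (u ^ m) ^ q := by
        intro m
        rw [← zpow_natCast, ← zpow_natCast, ← zpow_mul, ← zpow_mul, mul_comm]
      rw [this, ← mul_pow, ← inv_pow]
      exact pow_mem h2.unit q
  · intro c
    obtain ⟨ex, he1, he2, he3⟩ := h.exp (hτ.pt' A₀ c)
    let e := (hτ.R A₀)
    let ex' : hτ.A A₀ →ₐ[k] PowerSeries k :=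
      { toRingHom := ((PowerSeries.map σ.symm.toRingHom).comp ex.toRingHom).comp e.toRingHom
        commutes' := fun r => by
          change PowerSeries.map σ.symm.toRingHom (ex (e (algebraMap k _ r))) = _
          rw [hτ.R_algebraMap, AlgHom.commutes, PowerSeries.algebraMap_apply,
            PowerSeries.algebraMap_apply, PowerSeries.map_C]
          congr 1
          exact σ.symm_apply_apply r }
    have hex' : ∀ x, ex' x = PowerSeries.map σ.symm.toRingHom (ex (e x)) := fun x => rfl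
    refine ⟨ex', ?_, ?_, ?_⟩
    · intro x y hxy
      rw [hex', hex'] at hxy
      have h1 : Function.Injective (PowerSeries.map σ.symm.toRingHom) := by
        intro s t hst
        ext n
        have := congrArg (PowerSeries.coeff n) hst
        rw [PowerSeries.coeff_map, PowerSeries.coeff_map] at this
        exact σ.symm.injective this
      exact e.injective (he1 (h1 hxy))
    · intro a
      rw [hex']
      have h1 := he2 (e a)
      rw [hτ.pt'_apply] at h1
      change _ = σ (c (e.symm (e a))) at h1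
      rw [e.symm_apply_apply] at h1
      rw [← PowerSeries.coeff_zero_eq_constantCoeff_apply, PowerSeries.coeff_map,
        PowerSeries.coeff_zero_eq_constantCoeff_apply, h1]
      exact σ.symm_apply_apply _
    · intro n s
      obtain ⟨a, ha⟩ := he3 n (PowerSeries.map σ.toRingHom s)
      refine ⟨e.symm a, ?_⟩
      rw [hex', e.apply_symm_apply]
      have h1 := map_dvd (PowerSeries.map σ.symm.toRingHom) ha
      rw [map_pow, PowerSeries.map_X, map_sub] at h1
      have h2 : PowerSeries.map σ.symm.toRingHom (PowerSeries.map σ.toRingHom s) = s := by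
        ext m
        rw [PowerSeries.coeff_map, PowerSeries.coeff_map]
        exact σ.symm_apply_apply _
      rwa [h2] at h1
  · have hf : φ f ∈ A₀ := map_mem_A₀ h.mp f
    refine (h.inf.image (f := fun c => hτ.pt A₀ c) ?_).mono ?_
    · intro c _ c' _ hcc
      refine AlgHom.ext fun x => ?_
      have h1 := DFunLike.congr_fun hcc ((hτ.R A₀).symm x)
      change hτ.pt A₀ c _ = hτ.pt A₀ c' _ at h1
      rw [hτ.pt_apply, hτ.pt_apply, RingEquiv.apply_symm_apply] at h1
      exact σ.symm.injective h1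
    · rintro _ ⟨c, hc, rfl⟩ hm
      change hτ.pt A₀ c _ ≠ 0
      rw [hτ.pt_apply]
      have h1 : hτ.R A₀ ⟨φ' f, hm⟩ = (⟨φ f, hf⟩ : A₀) ^ q := Subtype.ext (hφ' f)
      rw [h1, map_pow, ← hσ, σ.symm_apply_apply]
      exact hc hf

end main

end Vale.Agent.P292.Mo
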