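import Vale.Agent.P292.Mo.Exists_twist

/-! # P292, Mori step, F7: choice of the twist and of the number of marks. -/

namespace Vale.Agent.P292.Mo

open MvPolynomial

universe u v w

theorem f7_num (p : ℕ) (hp : 1 < p) (q χ : ℤ) (hq : 0 < q) :
    ∃ (j m : ℕ), (p : ℤ) ^ j * q < 3 * m ∧ 2 * (m : ℤ) < (p : ℤ) ^ j * q + 2 * χ := by
  obtain ⟨j, hj⟩ := pow_unbounded_of_one_lt (12 + 12 * χ.natAbs) hp
  have h1 : ((12 + 12 * χ.natAbs : ℕ) : ℤ) < (p : ℤ) ^ j := by exact_mod_cast hj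
  have h2 : (p : ℤ) ^ j ≤ (p : ℤ) ^ j * q :=
    le_mul_of_one_le_right (pow_nonneg (by positivity) j) (by omega)
  obtain ⟨c, hc⟩ : ∃ c : ℕ, c = χ.natAbs := ⟨_, rfl⟩
  have h3 : -(c : ℤ) ≤ χ := by omega
  rw [← hc] at h1
  push_cast at h1
  have h4 : 12 + 12 * (c : ℤ) < (p : ℤ) ^ j * q := lt_of_lt_of_le h1 h2
  refine ⟨j, ((p : ℤ) ^ j * q / 3 + 1).toNat, ?_⟩
  clear h1 h2 hc hj
  generalize (p : ℤ) ^ j * q = d at *
  constructor <;> rw [Int.toNat_of_nonneg (by omega)] <;> omega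

/-- F7, relative to the statement for one curve. -/
theorem charp_main_of {k : Type u} [Field k] {R : Type v} [CommRing R] [Algebra k R]
    {𝒜 : ℕ → Submodule k R} [GradedAlgebra 𝒜] {P : R →ₗ[k] R →ₗ[k] R} [IsAlgClosed k] (p : ℕ)
    [Fact p.Prime] [CharP k p] (hP : IsPM 𝒜 P) (f : R)
    (hcurve : ∃ (K : Type v) (_ : Field K) (_ : Algebra k K) (A₀ A₁ : Subalgebra k K) (u : K)
      (φ : R →ₐ[k] K), IsGC 𝒜 P A₀ A₁ u φ f)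
    (hone : ∀ (K : Type v) [Field K] [Algebra k K] (A₀ A₁ : Subalgebra k K) (u : K)
      (φ : R →ₐ[k] K), IsGC 𝒜 P A₀ A₁ u φ f → ∀ m : ℕ, idx A₁ u < 3 * m →
        2 * (m : ℤ) < idx A₁ u + 2 * chi0 A₀ A₁ → ∃ w : R →ₐ[k] k, w f ≠ 0 ∧ Hit 𝒜 w) :
    ∃ w : R →ₐ[k] k, w f ≠ 0 ∧ Hit 𝒜 w := by
  obtain ⟨K, iK, iA, A₀, A₁, u, φ, h⟩ := hcurve
  obtain ⟨j, m, h1, h2⟩ := f7_num p (Fact.out : p.Prime).one_lt (idx A₁ u) (chi0 A₀ A₁) h.idx_pos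
  obtain ⟨A₀', A₁', u', φ', h', h3, h4⟩ := exists_twist p j hP h
  exact hone (Tw p j K) A₀' A₁' u' φ' h' m (by rw [h4]; exact h1) (by rw [h4, h3]; exact h2)

end Vale.Agent.P292.Mo
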