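import Vale.Agent.P292.Mo.Hit
import Vale.Agent.P292.Mo.DefT

/-! Block II.c: the final form of the bubble step for the curves of `IsGC`. -/

namespace Vale.Agent.P292.Mo

open TensorProduct

universe u v w

/-- The output of the deformation lemma (block II.a). -/
def FamOut {k : Type u} [Field k] {R : Type v} [CommRing R] [Algebra k R]
    (𝒜 : ℕ → Submodule k R) {K : Type w} [Field K] [Algebra k K]
    (A₀ A₁ : Subalgebra k K) (u : K) (φ : R →ₐ[k] K) (I : Submodule k K) : Prop :=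
  ∃ (D : Type u) (_ : CommRing D) (_ : Algebra k D) (_ : Algebra.FiniteType k D) (e : D →ₐ[k] k)
    (Ψ : R →ₐ[k] D ⊗[k] K),
    (∀ (m : Ideal D) [m.IsMaximal], m = RingHom.ker e →
      ¬ IsArtinianRing (Localization.AtPrime m)) ∧
    (∀ n, ∀ r ∈ 𝒜 n, Ψ r ∈ InB D (Sec A₀ A₁ u n)) ∧
    (∀ r, Ψ r - 1 ⊗ₜ φ r ∈ InB D I) ∧
    (∀ r, ∀ l : K →ₗ[k] k, e (lamB D l (Ψ r)) = l (φ r)) ∧
    Algebra.adjoin k {d : D | ∃ r, ∃ l : K →ₗ[k] k, lamB D l (Ψ r) = d} = ⊤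

section

variable {k : Type u} [Field k] {R : Type v} [CommRing R] [Algebra k R]
  {𝒜 : ℕ → Submodule k R} [GradedAlgebra 𝒜] {P : R →ₗ[k] R →ₗ[k] R} {K : Type w} [Field K]
  [Algebra k K] {A₀ A₁ : Subalgebra k K} {u : K} {φ : R →ₐ[k] K} {f : R}

lemma hitgc_evT {D : Type*} [CommRing D] [Algebra k D] (e : D →ₐ[k] k) (l : K →ₗ[k] k)
    (y : D ⊗[k] K) : l (evT e K y) = e (lamB D l y) := by
  induction y using TensorProduct.induction_on with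
  | zero => simp
  | tmul d b =>
    rw [evT_tmul, lamB_tmul, map_smul, ← Algebra.smul_def, map_smul, smul_eq_mul, smul_eq_mul,
      mul_comm]
  | add x y hx hy => rw [map_add, map_add, map_add, map_add, hx, hy]

lemma hitgc_sep {x y : K} (h : ∀ l : K →ₗ[k] k, l x = l y) : x = y := by
  rw [← sub_eq_zero, ← Module.forall_dual_apply_eq_zero_iff k]
  intro l
  rw [map_sub, sub_eq_zero]
  exact h l

lemma hitgc_frac (h : ∀ x : K, ∃ a ∈ A₀, ∃ b ∈ A₀, b ≠ 0 ∧ x = a / b) : IsFractionRing A₀ K := by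
  refine IsFractionRing.of_field A₀ K fun x => ?_
  obtain ⟨a, ha, b, hb, hb0, hx⟩ := h x
  exact ⟨⟨a, ha⟩, ⟨b, hb⟩, hx⟩

theorem hit_of_famOut [IsAlgClosed k] (h2 : (2 : k) ≠ 0) (hP : IsPM 𝒜 P)
    (h : IsGC 𝒜 P A₀ A₁ u φ f) {ι : Type} [Fintype ι] (c : ι → (A₀ →ₐ[k] k))
    (hc : Function.Injective c) (I : Submodule k K)
    (hI : ∀ a, a ∈ I ↔ ∃ h : a ∈ A₀, ∀ l, c l ⟨a, h⟩ = 0)
    (hcard : idx A₁ u < 3 * (Fintype.card ι : ℤ)) (hfam : FamOut 𝒜 A₀ A₁ u φ I) :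
    ∃ l, ∃ w : R →ₐ[k] k, (∀ r, ∃ h : φ r ∈ A₀, w r = c l ⟨φ r, h⟩) ∧ Hit 𝒜 w := by
  classical
  have hft := hP.finiteType
  obtain ⟨D, _, _, _, e, Ψ, hart, hsec, hmark, he, hD⟩ := hfam
  have hfrac : IsFractionRing A₀ K := hitgc_frac h.frac0
  have hφ : ∀ r, φ r ∈ A₀ := by
    intro r
    rw [← DirectSum.sum_support_decompose 𝒜 r, map_sum]
    exact Subalgebra.sum_mem _ fun n _ =>
      (mem_Sec.mp (h.mp.sec n _ (DirectSum.decompose 𝒜 r n).2)).1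
  choose ex hex1 hex2 hex3 using fun l => h.exp (c l)
  let w : ι → (R →ₐ[k] k) := fun l => (c l).comp (φ.codRestrict A₀ hφ)
  have hw : ∀ l r, ∃ h : φ r ∈ A₀, w l r = c l ⟨φ r, h⟩ := fun l r => ⟨hφ r, rfl⟩
  obtain ⟨l, hl⟩ := hit_of_data h2 hP.connected hP.lineBundle h.cd h.mp h.P1 h.P2 c hc ex hex1
    hex2 hex3 hcard w hw I (fun a ha => (hI a).mp ha) e hart Ψ hsec hmark
    (fun r => hitgc_sep fun l => by rw [hitgc_evT, he]) hD
  exact ⟨l, w l, hw l, hl⟩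

end

end Vale.Agent.P292.Mo
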