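import Vale.Agent.P292.Mo.F7a
import Vale.Agent.P292.Mo.HitGC
import Vale.Agent.P292.Mo.ChiDer
import Vale.Agent.P292.Mo.Exists_curve

/-! # P292, Mori step, F7: one curve, relative to the deformation lemma. -/

namespace Vale.Agent.P292.Mo

open MvPolynomial

universe u v w

/-- The statement of the deformation lemma (block II.a) for one curve. -/
def FamSt {k : Type u} [Field k] {R : Type v} [CommRing R] [Algebra k R]
    (𝒜 : ℕ → Submodule k R) {K : Type w} [Field K] [Algebra k K]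
    (A₀ A₁ : Subalgebra k K) (u : K) (φ : R →ₐ[k] K) : Prop :=
  ∀ I : Submodule k K, (∀ a ∈ I, a ∈ A₀) → (∀ a ∈ A₀, ∀ b ∈ I, a * b ∈ I) →
    (∀ n, Module.Finite k (Sec A₀ A₁ u n)) → Module.Finite k (ObS 𝒜 φ I A₁ u) →
    Module.finrank k (ObS 𝒜 φ I A₁ u) < Module.finrank k (T0 𝒜 φ I A₁ u) →
    FamOut 𝒜 A₀ A₁ u φ I

/-- F7 for one curve, relative to the deformation lemma. -/
theorem hit_of_gc_of {k : Type u} [Field k] {R : Type v} [CommRing R] [Algebra k R]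
    {𝒜 : ℕ → Submodule k R} [GradedAlgebra 𝒜] {P : R →ₗ[k] R →ₗ[k] R} {K : Type w} [Field K]
    [Algebra k K] {A₀ A₁ : Subalgebra k K} {u : K} {φ : R →ₐ[k] K} {f : R} [IsAlgClosed k]
    (h2 : (2 : k) ≠ 0) (hP : IsPM 𝒜 P) (h : IsGC 𝒜 P A₀ A₁ u φ f)
    (hfam : FamSt 𝒜 A₀ A₁ u φ) (m : ℕ) (hm1 : idx A₁ u < 3 * m)
    (hm2 : 2 * (m : ℤ) < idx A₁ u + 2 * chi0 A₀ A₁) :
    ∃ w : R →ₐ[k] k, w f ≠ 0 ∧ Hit 𝒜 w := by
  obtain ⟨c, hc, hcf⟩ : ∃ c : Fin m → (A₀ →ₐ[k] k), Function.Injective c ∧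
      ∀ l, ∀ h : φ f ∈ A₀, c l ⟨φ f, h⟩ ≠ 0 := by
    have : Infinite ↥{c : A₀ →ₐ[k] k | ∀ h : φ f ∈ A₀, c ⟨φ f, h⟩ ≠ 0} := h.inf.to_subtype
    let g := Infinite.natEmbedding ↥{c : A₀ →ₐ[k] k | ∀ h : φ f ∈ A₀, c ⟨φ f, h⟩ ≠ 0}
    exact ⟨fun i => (g i).1, fun i j hij => Fin.ext (g.injective (Subtype.ext hij)),
      fun l => (g l).2⟩
  obtain ⟨N, hN, x, d, g, x', d', g', fr0, fr1⟩ := h.frames
  obtain ⟨-, fO, heq⟩ := chi_der hP h.cd h.mp fr0 fr1 hc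
  have hlt : Module.finrank k (ObS 𝒜 φ (markI c) A₁ u) <
      Module.finrank k (T0 𝒜 φ (markI c) A₁ u) := by
    have hN' : (0 : ℤ) < N := by exact_mod_cast hN
    have h4 := mul_pos hN' (sub_pos.2 hm2)
    have h5 : (Module.finrank k (ObS 𝒜 φ (markI c) A₁ u) : ℤ) <
        Module.finrank k (T0 𝒜 φ (markI c) A₁ u) := by linarith
    exact_mod_cast h5
  have hout := hfam (markI c) (fun a ha => markI_le c ha) (fun a ha b hb => mul_mem_markI ha hb)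
    (fun n => (h.cd.chi_Sec h.mp.u_ne n).1) fO hlt
  obtain ⟨l, w, hw, hH⟩ := hit_of_famOut h2 hP h c hc (markI c) (fun a => mem_markI)
    (by rw [Fintype.card_fin]; exact hm1) hout
  obtain ⟨h6, h7⟩ := hw f
  exact ⟨w, by rw [h7]; exact hcf l h6, hH⟩

/-- F7: the main theorem in characteristic `p`, relative to the deformation lemma. -/
theorem charp_main_of' {k : Type u} [Field k] {R : Type v} [CommRing R] [Algebra k R]
    {𝒜 : ℕ → Submodule k R} [GradedAlgebra 𝒜] {P : R →ₗ[k] R →ₗ[k] R} [IsAlgClosed k] (p : ℕ)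
    [Fact p.Prime] [CharP k p] (hp2 : p ≠ 2) (hP : IsPM 𝒜 P) {e n : ℕ} {y : Fin n → R}
    (hN : IsNoe 𝒜 p e y) (f : R)
    (hf : ∃ h : R, ∃ G : MvPolynomial (Fin n) k, G ≠ 0 ∧ f * h = aeval y G)
    (hfam : ∀ (K : Type v) [Field K] [Algebra k K] (A₀ A₁ : Subalgebra k K) (u : K)
      (φ : R →ₐ[k] K), IsMp 𝒜 A₀ A₁ u φ → FamSt 𝒜 A₀ A₁ u φ) :
    ∃ w : R →ₐ[k] k, w f ≠ 0 ∧ Hit 𝒜 w := by
  have h2 : (2 : k) ≠ 0 := by
    intro h
    have h3 : ((2 : ℕ) : k) = 0 := by exact_mod_cast h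
    rw [CharP.cast_eq_zero_iff k p] at h3
    exact hp2 ((Nat.prime_dvd_prime_iff_eq Fact.out Nat.prime_two).1 h3)
  exact charp_main_of p hP f (exists_curve p hP hN f hf)
    fun K _ _ A₀ A₁ u φ h m h3 h4 => hit_of_gc_of h2 hP h (hfam K A₀ A₁ u φ h.mp) m h3 h4

end Vale.Agent.P292.Mo
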