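import Vale.Agent.P292.Mo.Defs
import Vale.Agent.P292.Mo.DefB
import Vale.Agent.P292.Mo.Scale

/-! Block II.c: from a family over an affine parameter scheme to a Laurent series family. -/

namespace Vale.Agent.P292.Mo.Fm

open TensorProduct
open Vale.Agent.P292.Mo.Sc

section mapL

variable {k : Type*} [Field k]

lemma algebraMap_laurent {B : Type*} [CommRing B] [Algebra k B] (c : k) :
    algebraMap k (LaurentSeries B) c = HahnSeries.C (algebraMap k B c) := by
  rw [HahnSeries.algebraMap_apply', PowerSeries.algebraMap_apply, HahnSeries.ofPowerSeries_C]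

lemma C_mul_coeff {B : Type*} [CommRing B] (c : B) (x : LaurentSeries B) (i : ℤ) :
    (HahnSeries.C c * x).coeff i = c * x.coeff i := by
  rw [HahnSeries.C_mul_eq_smul, HahnSeries.coeff_smul, smul_eq_mul]

/-- extension of coefficients of Laurent series -/
noncomputable def mapR (k B : Type*) [Field k] [CommRing B] [Algebra k B] :
    LaurentSeries k →+* LaurentSeries B where
  toFun x := HahnSeries.map x (algebraMap k B)
  map_one' := HahnSeries.map_one (algebraMap k B).toMonoidWithZeroHom
  map_mul' x y := HahnSeries.map_mul (algebraMap k B).toNonUnitalRingHom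
  map_zero' := by
    ext i
    exact map_zero (algebraMap k B)
  map_add' x y := by
    ext i
    exact map_add (algebraMap k B) (x.coeff i) (y.coeff i)

lemma mapR_coeff {B : Type*} [CommRing B] [Algebra k B] (x : LaurentSeries k) (i : ℤ) :
    (mapR k B x).coeff i = algebraMap k B (x.coeff i) := rfl

/-- extension of coefficients of Laurent series -/
noncomputable def mapL (k B : Type*) [Field k] [CommRing B] [Algebra k B] :
    LaurentSeries k →ₐ[k] LaurentSeries B :=
  { mapR k B with
    commutes' := fun c => by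
      rw [algebraMap_laurent, algebraMap_laurent]
      change mapR k B (HahnSeries.C c) = _
      ext i
      rw [mapR_coeff, HahnSeries.C_apply, HahnSeries.C_apply]
      by_cases hi : i = 0
      · rw [hi, HahnSeries.coeff_single_same, HahnSeries.coeff_single_same]
      · rw [HahnSeries.coeff_single_of_ne hi, HahnSeries.coeff_single_of_ne hi, map_zero] }

lemma mapL_coeff {B : Type*} [CommRing B] [Algebra k B] (x : LaurentSeries k) (i : ℤ) :
    (mapL k B x).coeff i = algebraMap k B (x.coeff i) := rfl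

/-- constant Laurent series -/
noncomputable def constL (k B : Type*) [Field k] [CommRing B] [Algebra k B] :
    B →ₐ[k] LaurentSeries B :=
  { (HahnSeries.C : B →+* LaurentSeries B) with
    commutes' := fun c => (algebraMap_laurent c).symm }

lemma constL_apply {B : Type*} [CommRing B] [Algebra k B] (b : B) :
    constL k B b = HahnSeries.C b := rfl

variable {D : Type*} [CommRing D] [Algebra k D] (f : D →ₐ[k] LaurentSeries k)

/-- specialisation of the parameters to Laurent series -/
noncomputable def Lam (B : Type*) [CommRing B] [Algebra k B] : D ⊗[k] B →ₐ[k] LaurentSeries B :=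
  Algebra.TensorProduct.productMap ((mapL k B).comp f) (constL k B)

lemma Lam_tmul {B : Type*} [CommRing B] [Algebra k B] (d : D) (b : B) :
    Lam f B (d ⊗ₜ b) = mapL k B (f d) * HahnSeries.C b := by
  rw [Lam, Algebra.TensorProduct.productMap_apply_tmul]
  rfl

lemma Lam_coeff_tmul {B : Type*} [CommRing B] [Algebra k B] (d : D) (b : B) (i : ℤ) :
    (Lam f B (d ⊗ₜ b)).coeff i = (f d).coeff i • b := by
  rw [Lam_tmul, mul_comm, C_mul_coeff, mapL_coeff, Algebra.smul_def, mul_comm]

lemma lamB_coeff {K : Type*} [CommRing K] [Algebra k K] (l : K →ₗ[k] k) (y : D ⊗[k] K) (i : ℤ) :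
    (f (lamB D l y)).coeff i = l ((Lam f K y).coeff i) := by
  induction y using TensorProduct.induction_on with
  | zero => simp
  | tmul d b =>
    rw [lamB_tmul, Lam_coeff_tmul, LinearMap.map_smul, smul_eq_mul, Algebra.smul_def, map_mul,
      AlgHom.commutes, algebraMap_laurent, C_mul_coeff, mul_comm]
    rfl
  | add x y hx hy =>
    rw [map_add, map_add, map_add, HahnSeries.coeff_add, HahnSeries.coeff_add, map_add, hx, hy]

lemma Lam_coeff_mem {K : Type*} [CommRing K] [Algebra k K] {V : Submodule k K} {y : D ⊗[k] K}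
    (hy : y ∈ InB D V) (i : ℤ) : (Lam f K y).coeff i ∈ V := by
  refine InB_induction D (p := fun y => (Lam f K y).coeff i ∈ V) ?_ ?_ ?_ hy
  · rw [map_zero]; exact zero_mem _
  · intro d v hv
    rw [Lam_coeff_tmul]
    exact V.smul_mem _ hv
  · intro x y hx hy
    rw [map_add, HahnSeries.coeff_add]
    exact add_mem hx hy

lemma Lam_incB {K : Type*} [CommRing K] [Algebra k K] (S : Subalgebra k K) (y : D ⊗[k] S)
    (i : ℤ) : (Lam f K (incB D S y)).coeff i = (((Lam f S y).coeff i : S) : K) := by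
  induction y using TensorProduct.induction_on with
  | zero => simp
  | tmul d b =>
    rw [incB_tmul, Lam_coeff_tmul, Lam_coeff_tmul]
    rfl
  | add x y hx hy =>
    rw [map_add, map_add, map_add, HahnSeries.coeff_add, HahnSeries.coeff_add, hx, hy]
    rfl

/-- a pole of the parameters gives a pole of the family -/
lemma exists_pole_family {K : Type*} [CommRing K] [Algebra k K] {R : Type*} [CommRing R]
    [Algebra k R] (Ψ : R →ₐ[k] D ⊗[k] K)
    (hD : Algebra.adjoin k {d : D | ∃ r, ∃ l : K →ₗ[k] k, lamB D l (Ψ r) = d} = ⊤)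
    (hf : ∃ a : D, f a ∉ Set.range (HahnSeries.ofPowerSeries ℤ k)) :
    ∃ r, ∃ i : ℤ, i < 0 ∧ (Lam f K (Ψ r)).coeff i ≠ 0 := by
  by_contra hcon
  push Not at hcon
  obtain ⟨a, ha⟩ := hf
  apply ha
  have h : f a ∈ (ofPS k k).range := by
    refine forall_mem_of_adjoin f _ hD _ ?_ a
    rintro _ ⟨r, l, rfl⟩
    rw [mem_range_ofPS]
    intro i hi
    rw [lamB_coeff, hcon r i hi, map_zero]
  exact h

end mapL

section gens

variable {k : Type*} [Field k] {R : Type*} [CommRing R] [Algebra k R] (𝒜 : ℕ → Submodule k R)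
  [GradedAlgebra 𝒜]

/-- homogeneous generators of positive degree -/
lemma exists_generators [hft : Algebra.FiniteType k R]
    (hconn : ∀ r ∈ 𝒜 0, ∃ c : k, r = algebraMap k R c) :
    ∃ s : Finset R, Algebra.adjoin k (s : Set R) = ⊤ ∧ ∀ x ∈ s, ∃ n, 0 < n ∧ x ∈ 𝒜 n := by
  classical
  obtain ⟨t, ht⟩ := hft.out
  let s : Finset R := t.biUnion fun x =>
    ((DirectSum.decompose 𝒜 x).support.filter fun n => 0 < n).image
      fun n => ((DirectSum.decompose 𝒜 x n : 𝒜 n) : R)
  refine ⟨s, ?_, ?_⟩
  · rw [eq_top_iff, ← ht]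
    refine Algebra.adjoin_le fun x hx => ?_
    rw [← DirectSum.sum_support_decompose 𝒜 x]
    refine Subalgebra.sum_mem _ fun n hn => ?_
    rcases Nat.eq_zero_or_pos n with h0 | h0
    · subst h0
      obtain ⟨c, hc⟩ := hconn _ (DirectSum.decompose 𝒜 x 0).2
      rw [hc]
      exact Subalgebra.algebraMap_mem _ c
    · refine Algebra.subset_adjoin ?_
      rw [Finset.mem_coe, Finset.mem_biUnion]
      refine ⟨x, hx, ?_⟩
      rw [Finset.mem_image]
      exact ⟨n, Finset.mem_filter.mpr ⟨hn, h0⟩, rfl⟩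
  · intro x hx
    rw [Finset.mem_biUnion] at hx
    obtain ⟨y, _, hy⟩ := hx
    rw [Finset.mem_image] at hy
    obtain ⟨n, hn, rfl⟩ := hy
    exact ⟨n, (Finset.mem_filter.mp hn).2, (DirectSum.decompose 𝒜 y n).2⟩

end gens

section unit

variable {k : Type*} [Field k] {R : Type*} [CommRing R] [Algebra k R] (𝒜 : ℕ → Submodule k R)
  [GradedAlgebra 𝒜] {B : Type*} [CommRing B] [Algebra k B]

lemma isUnit_single (a : ℤ) : IsUnit (HahnSeries.single a (1 : B) : LaurentSeries B) := by
  refine IsUnit.of_mul_eq_one (HahnSeries.single (-a) (1 : B)) ?_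
  rw [HahnSeries.single_mul_single, add_neg_cancel, mul_one]
  rfl

omit [GradedAlgebra 𝒜] in
/-- base point freeness over Laurent series gives a power of the parameter in the ideal -/
lemma exists_pow_mem {φ : R →ₐ[k] LaurentSeries B} {e : ℕ} {he : 0 < e} {a : ℤ}
    {φ' : R →ₐ[k] PowerSeries B}
    (h : ∀ n, ∀ r ∈ 𝒜 n, ofPS k B (φ' r) = HahnSeries.single (a * n) 1 * expand k e he (φ r))
    (hb : Ideal.span {y | ∃ j : ℕ, 0 < j ∧ ∃ r ∈ 𝒜 j, y = φ r} = ⊤) :
    ∃ L : ℕ, (PowerSeries.X : PowerSeries B) ^ L ∈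
      Ideal.span {y | ∃ j : ℕ, 0 < j ∧ ∃ r ∈ 𝒜 j, y = φ' r} := by
  have h1 : (Ideal.span {y | ∃ j : ℕ, 0 < j ∧ ∃ r ∈ 𝒜 j, y = φ' r}).map
      (algebraMap (PowerSeries B) (LaurentSeries B)) = ⊤ := by
    rw [Ideal.eq_top_iff_one]
    have h2 : (1 : LaurentSeries B) ∈ (Ideal.span {y | ∃ j : ℕ, 0 < j ∧ ∃ r ∈ 𝒜 j, y = φ r}).map
        (expand k e he).toRingHom := by
      rw [hb, Ideal.map_top]
      trivial
    have h3 : (Ideal.span {y | ∃ j : ℕ, 0 < j ∧ ∃ r ∈ 𝒜 j, y = φ r}).map
        (expand k e he).toRingHom ≤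
        (Ideal.span {y | ∃ j : ℕ, 0 < j ∧ ∃ r ∈ 𝒜 j, y = φ' r}).map
        (algebraMap (PowerSeries B) (LaurentSeries B)) := by
      rw [Ideal.map_span, Ideal.span_le]
      rintro _ ⟨_, ⟨j, hj, r, hr, rfl⟩, rfl⟩
      have h4 := h j r hr
      have h5 : (expand k e he).toRingHom (φ r) =
          HahnSeries.single (-(a * j)) (1 : B) * ofPS k B (φ' r) := by
        rw [h4, ← mul_assoc, HahnSeries.single_mul_single, neg_add_cancel, mul_one]
        exact (one_mul _).symm
      rw [SetLike.mem_coe, h5]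
      refine Ideal.mul_mem_left _ _ ?_
      exact Ideal.mem_map_of_mem (algebraMap (PowerSeries B) (LaurentSeries B))
        (Ideal.subset_span ⟨j, hj, r, hr, rfl⟩)
    exact h3 h2
  have h6 : (1 : LaurentSeries B) ∈ (Ideal.span {y | ∃ j : ℕ, 0 < j ∧ ∃ r ∈ 𝒜 j, y = φ' r}).map
      (algebraMap (PowerSeries B) (LaurentSeries B)) := by
    rw [h1]; trivial
  rw [IsLocalization.mem_map_algebraMap_iff (Submonoid.powers (PowerSeries.X : PowerSeries B))]
    at h6
  obtain ⟨⟨y, ⟨_, L, rfl⟩⟩, hy⟩ := h6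
  refine ⟨L, ?_⟩
  rw [one_mul] at hy
  have h7 : (PowerSeries.X : PowerSeries B) ^ L = y :=
    HahnSeries.ofPowerSeries_injective hy
  rw [h7]
  exact y.2

end unit

end Vale.Agent.P292.Mo.Fm
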