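import Mathlib

/-!
# Curves inside an affine algebra that run off to infinity

Block PLACE of the modular part of P292 (note 9318, II.c): a finitely generated algebra over an
algebraically closed field whose localisation at a maximal ideal is not artinian has a
homomorphism to the field of Laurent series that does not land in the power series ring and
does not kill a given function that is nonzero at the maximal ideal.
-/

namespace Vale.Agent.P292.Mo

section Expansion

variable {k : Type*} [Field k] {O : Type*} [CommRing O] [IsDomain O] [Algebra k O]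

/-- Power series expansion along a prime element whose residue ring is the base field. -/
theorem exists_expansion (ϖ : O) (h0 : ϖ ≠ 0) (hu : ¬ IsUnit ϖ)
    (hs : ∀ x : O, ∃ c : k, ϖ ∣ x - algebraMap k O c)
    (hint : ∀ x : O, x ≠ 0 → ∃ n : ℕ, ¬ ϖ ^ n ∣ x) :
    ∃ E : O →ₐ[k] PowerSeries k, Function.Injective E ∧
      ∀ x, ϖ ∣ x → PowerSeries.constantCoeff (E x) = 0 := by
  classical
  have hs' : ∀ x : O, ∃ c : k, ∃ y : O, x = algebraMap k O c + ϖ * y := by
    intro x
    obtain ⟨c, y, hy⟩ := hs x
    exact ⟨c, y, by rw [← hy]; ring⟩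
  choose c y hcy using hs'
  have huniq : ∀ (a b : k) (u v : O), algebraMap k O a + ϖ * u = algebraMap k O b + ϖ * v →
      a = b ∧ u = v := by
    intro a b u v h
    have hab : a = b := by
      by_contra hne
      apply hu
      have hd : ϖ ∣ algebraMap k O (a - b) := ⟨v - u, by rw [map_sub]; linear_combination h⟩
      exact isUnit_of_dvd_unit hd ((IsUnit.mk0 _ (sub_ne_zero.mpr hne)).map (algebraMap k O))
    subst hab
    exact ⟨rfl, mul_left_cancel₀ h0 (add_left_cancel h)⟩
  have hadd : ∀ x x', c (x + x') = c x + c x' ∧ y (x + x') = y x + y x' := by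
    intro x x'
    apply huniq
    rw [← hcy (x + x'), map_add]
    conv_lhs => rw [hcy x, hcy x']
    ring
  have hsmul : ∀ (a : k) x, c (algebraMap k O a * x) = a * c x ∧
      y (algebraMap k O a * x) = algebraMap k O a * y x := by
    intro a x
    apply huniq
    rw [← hcy (algebraMap k O a * x), map_mul]
    conv_lhs => rw [hcy x]
    ring
  have hmul : ∀ x x', c (x * x') = c x * c x' ∧
      y (x * x') = algebraMap k O (c x) * y x' + y x * x' := by
    intro x x'
    apply huniq
    rw [← hcy (x * x'), map_mul]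
    have h1 := hcy x
    have h2 := hcy x'
    calc x * x' = (algebraMap k O (c x) + ϖ * y x) * x' := by rw [← h1]
      _ = algebraMap k O (c x) * x' + ϖ * (y x * x') := by ring
      _ = algebraMap k O (c x) * (algebraMap k O (c x') + ϖ * y x') + ϖ * (y x * x') := by
          rw [← h2]
      _ = _ := by ring
  let E : O → PowerSeries k := fun x => PowerSeries.mk (fun n => c (y^[n] x))
  have hE0 : ∀ x, PowerSeries.coeff 0 (E x) = c x := by intro x; simp [E]
  have hEs : ∀ n x, PowerSeries.coeff (n + 1) (E x) = PowerSeries.coeff n (E (y x)) := by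
    intro n x; simp [E]
  have hErec : ∀ x, E x = PowerSeries.C (c x) + PowerSeries.X * E (y x) := by
    intro x
    ext n
    cases n with
    | zero => simp [E]
    | succ n =>
      rw [hEs, map_add, PowerSeries.coeff_succ_X_mul, PowerSeries.coeff_C]
      simp
  have hEadd : ∀ x x', E (x + x') = E x + E x' := by
    have : ∀ n, ∀ x x', PowerSeries.coeff n (E (x + x')) =
        PowerSeries.coeff n (E x) + PowerSeries.coeff n (E x') := by
      intro n
      induction n with
      | zero => intro x x'; rw [hE0, hE0, hE0, (hadd x x').1]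
      | succ n ih => intro x x'; rw [hEs, hEs, hEs, (hadd x x').2, ih]
    intro x x'; ext n; rw [this, map_add]
  have hEsmul : ∀ (a : k) x, E (algebraMap k O a * x) = PowerSeries.C a * E x := by
    have : ∀ n, ∀ (a : k) x, PowerSeries.coeff n (E (algebraMap k O a * x)) =
        a * PowerSeries.coeff n (E x) := by
      intro n
      induction n with
      | zero => intro a x; rw [hE0, hE0, (hsmul a x).1]
      | succ n ih => intro a x; rw [hEs, hEs, (hsmul a x).2, ih]
    intro a x; ext n; rw [this, PowerSeries.coeff_C_mul]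
  have hEmul : ∀ x x', E (x * x') = E x * E x' := by
    have : ∀ n, ∀ x x', PowerSeries.coeff n (E (x * x')) =
        PowerSeries.coeff n (E x * E x') := by
      intro n
      induction n with
      | zero =>
        intro x x'
        have h1 := hE0 x
        have h2 := hE0 x'
        rw [PowerSeries.coeff_zero_eq_constantCoeff_apply] at h1 h2
        rw [hE0, (hmul x x').1, PowerSeries.coeff_zero_eq_constantCoeff_apply, map_mul, h1, h2]
      | succ n ih =>
        intro x x'
        rw [hEs, (hmul x x').2, hEadd, hEsmul, map_add, ih]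
        conv_rhs => rw [hErec x, add_mul, map_add, PowerSeries.coeff_C_mul, hEs, mul_assoc,
          PowerSeries.coeff_succ_X_mul]
        rw [PowerSeries.coeff_C_mul]
    intro x x'; ext n; rw [this]
  have hEC : ∀ a : k, E (algebraMap k O a) = PowerSeries.C a := by
    intro a
    have h1 : E 1 = 1 := by
      have hc1 := huniq (c 1) 1 (y 1) 0 (by rw [← hcy 1]; simp)
      rw [hErec 1, hc1.1, hc1.2]
      have hE00 : E 0 = 0 := by
        have := hEadd 0 0
        rw [add_zero] at this
        simpa using this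
      rw [hE00]; simp
    have := hEsmul a 1
    rwa [mul_one, h1, mul_one] at this
  refine ⟨{ toFun := E
            map_one' := by rw [← map_one (algebraMap k O), hEC, map_one]
            map_mul' := hEmul
            map_zero' := by rw [← map_zero (algebraMap k O), hEC, map_zero]
            map_add' := hEadd
            commutes' := fun a => by rw [hEC]; rfl }, ?_, ?_⟩
  · rw [injective_iff_map_eq_zero]
    intro x hx
    by_contra hne
    obtain ⟨n, hn⟩ := hint x hne
    apply hn
    have hx' : E x = 0 := hx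
    have key : ∀ n, x = ϖ ^ n * y^[n] x := by
      intro n
      induction n with
      | zero => simp
      | succ n ih =>
        have hc : c (y^[n] x) = 0 := by
          have : PowerSeries.coeff n (E x) = 0 := by rw [hx']; simp
          simpa [E] using this
        have := hcy (y^[n] x)
        rw [hc, map_zero, zero_add] at this
        rw [Function.iterate_succ_apply', pow_succ, mul_assoc, ← this]
        exact ih
    exact ⟨_, key n⟩
  · rintro x ⟨z, hz⟩
    have := huniq (c x) 0 (y x) z (by rw [← hcy x, hz]; simp)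
    show PowerSeries.constantCoeff (E x) = 0
    rw [← PowerSeries.coeff_zero_eq_constantCoeff_apply, hE0, this.1]

end Expansion

section Val

variable {k K : Type*} [Field k] [Field K] [Algebra k K]

open Polynomial

/-- Valuation of a polynomial in an element of valuation larger than one. -/
theorem val_aeval {Γ : Type*} [LinearOrderedCommGroupWithZero Γ] (v : Valuation K Γ)
    (hc : ∀ c : k, c ≠ 0 → v (algebraMap k K c) = 1) (x : K) (hx : 1 < v x)
    (p : k[X]) (hp : p ≠ 0) : v (aeval x p) = v x ^ p.natDegree := by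
  rw [aeval_eq_sum_range, Finset.sum_range_succ]
  have hlead : v (p.coeff p.natDegree • x ^ p.natDegree) = v x ^ p.natDegree := by
    rw [Algebra.smul_def, map_mul, map_pow, hc _ (by simpa using hp), one_mul]
  rw [add_comm, Valuation.map_add_eq_of_lt_left, hlead]
  rw [hlead]
  apply Valuation.map_sum_lt
  · exact pow_ne_zero _ (zero_lt_one.trans hx).ne'
  · intro i hi
    rw [Finset.mem_range] at hi
    by_cases h0 : p.coeff i = 0
    · rw [h0, zero_smul, map_zero]
      exact pow_pos (zero_lt_one.trans hx) _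
    · rw [Algebra.smul_def, map_mul, map_pow, hc _ h0, one_mul]
      exact pow_lt_pow_right₀ hx hi

theorem val_aeval_le {Γ : Type*} [LinearOrderedCommGroupWithZero Γ] (v : Valuation K Γ)
    (hc : ∀ c : k, c ≠ 0 → v (algebraMap k K c) = 1) (x : K) (hx : 1 < v x)
    (p : k[X]) (M : ℕ) (hM : p.natDegree < M) : v (aeval x p) < v x ^ M := by
  by_cases hp : p = 0
  · rw [hp, map_zero, map_zero]
    exact pow_pos (zero_lt_one.trans hx) _
  · rw [val_aeval v hc x hx p hp]
    exact pow_lt_pow_right₀ hx hM

/-- If a polynomial with constant coefficients has a value of valuation less than one then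
so has a linear factor. -/
theorem exists_val_sub_lt [IsAlgClosed k] {Γ : Type*} [LinearOrderedCommGroupWithZero Γ]
    (v : Valuation K Γ)
    (hc : ∀ c : k, c ≠ 0 → v (algebraMap k K c) = 1) (y : K) :
    ∀ (n : ℕ) (q : k[X]), q.natDegree = n → q ≠ 0 → v (aeval y q) < 1 →
      ∃ c : k, v (y - algebraMap k K c) < 1 := by
  intro n
  induction n with
  | zero =>
    intro q hq h0 hv
    rw [eq_C_of_natDegree_eq_zero hq, aeval_C] at hv
    have : q.coeff 0 ≠ 0 := by
      intro h
      apply h0
      rw [eq_C_of_natDegree_eq_zero hq, h, map_zero]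
    rw [hc _ this] at hv
    exact absurd hv (lt_irrefl _)
  | succ n ih =>
    intro q hq h0 hv
    obtain ⟨a, ha⟩ := IsAlgClosed.exists_root q (by
      rw [degree_eq_natDegree h0, hq]; exact_mod_cast Nat.succ_ne_zero n)
    obtain ⟨r, hr⟩ := dvd_iff_isRoot.mpr ha
    by_cases hlt : v (y - algebraMap k K a) < 1
    · exact ⟨a, hlt⟩
    · have hr0 : r ≠ 0 := by rintro rfl; rw [mul_zero] at hr; exact h0 hr
      apply ih r _ hr0
      · rw [hr, map_mul, map_mul] at hv
        have h1 : 1 ≤ v (y - algebraMap k K a) := not_lt.mp hlt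
        have h2 : v (aeval y (X - C a)) = v (y - algebraMap k K a) := by simp
        rw [h2] at hv
        refine lt_of_le_of_lt ?_ hv
        calc v (aeval y r) = 1 * v (aeval y r) := (one_mul _).symm
          _ ≤ _ := mul_le_mul_left h1 _
      · have := congrArg natDegree hr
        rw [natDegree_mul (X_sub_C_ne_zero a) hr0, natDegree_X_sub_C, hq] at this
        omega

/-- Algebraic of degree at most `n` over `k[x]`: some power of the value with bounded exponent
is a power of the value of `x`. -/
theorem exists_val_pow {Γ : Type*} [LinearOrderedCommGroupWithZero Γ]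
    (v : Valuation K Γ)
    (hc : ∀ c : k, c ≠ 0 → v (algebraMap k K c) = 1) (x : K) (hx : 1 < v x) (n : ℕ)
    (y : K) (hy : y ≠ 0) (p : k[X][X]) (hp : p ≠ 0) (hpn : p.natDegree ≤ n)
    (h : p.sum (fun i c => aeval x c * y ^ i) = 0) :
    ∃ m : ℤ, v y ^ n.factorial = (v x)⁻¹ ^ m := by
  have hx0 : v x ≠ 0 := (zero_lt_one.trans hx).ne'
  have hy0 : v y ≠ 0 := (Valuation.ne_zero_iff v).mpr hy
  have hz : ∀ i ∈ p.support, v (aeval x (p.coeff i) * y ^ i) =
      v x ^ (p.coeff i).natDegree * v y ^ i := by
    intro i hi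
    rw [map_mul, map_pow, val_aeval v hc x hx _ (mem_support_iff.mp hi)]
  obtain ⟨i, hi, hmax⟩ := p.support.exists_max_image
    (fun i => v (aeval x (p.coeff i) * y ^ i)) (support_nonempty.mpr hp)
  have hex : ∃ j ∈ p.support, j ≠ i ∧ v (aeval x (p.coeff j) * y ^ j) =
      v (aeval x (p.coeff i) * y ^ i) := by
    by_contra hcon
    push Not at hcon
    have hlt : v (∑ j ∈ p.support.erase i, aeval x (p.coeff j) * y ^ j) <
        v (aeval x (p.coeff i) * y ^ i) := by
      apply Valuation.map_sum_lt
      · rw [hz i hi]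
        exact mul_ne_zero (pow_ne_zero _ hx0) (pow_ne_zero _ hy0)
      · intro j hj
        rw [Finset.mem_erase] at hj
        exact lt_of_le_of_ne (hmax j hj.2) (hcon j hj.2 hj.1)
    have hsum : aeval x (p.coeff i) * y ^ i +
        ∑ j ∈ p.support.erase i, aeval x (p.coeff j) * y ^ j = 0 := by
      rw [Finset.add_sum_erase p.support (fun j => aeval x (p.coeff j) * y ^ j) hi]
      exact h
    have := Valuation.map_add_eq_of_lt_left v hlt
    rw [hsum, map_zero, hz i hi] at this
    exact mul_ne_zero (pow_ne_zero _ hx0) (pow_ne_zero _ hy0) this.symm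
  obtain ⟨j, hj, hji, hval⟩ := hex
  rw [hz i hi, hz j hj] at hval
  have key : ∀ i j : ℕ, i ≤ n → j ≤ n → i < j → ∀ a b : ℕ,
      v x ^ a * v y ^ i = v x ^ b * v y ^ j → ∃ m : ℤ, v y ^ n.factorial = (v x)⁻¹ ^ m := by
    intro i j hi hj hij a b hab
    obtain ⟨d, hd⟩ := Nat.exists_eq_add_of_lt hij
    obtain ⟨e, he⟩ : (d + 1) ∣ n.factorial := Nat.dvd_factorial (by omega) (by omega)
    have h1 : v y ^ (d + 1) = (v x)⁻¹ ^ ((b : ℤ) - a) := by
      have h2 : v y ^ j = v y ^ i * v y ^ (d + 1) := by rw [← pow_add]; congr 1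
      rw [h2] at hab
      have h3 : v x ^ a = v x ^ b * v y ^ (d + 1) := by
        apply mul_right_cancel₀ (pow_ne_zero i hy0)
        rw [hab, mul_assoc, mul_comm (v y ^ (d + 1))]
      rw [inv_zpow', zpow_neg, ← zpow_neg, neg_sub, zpow_sub₀ hx0, zpow_natCast, zpow_natCast, h3]
      field_simp
    refine ⟨((b : ℤ) - a) * e, ?_⟩
    rw [he, pow_mul, h1, zpow_mul, zpow_natCast]
  have hin : i ≤ n := (le_natDegree_of_mem_supp i hi).trans hpn
  have hjn : j ≤ n := (le_natDegree_of_mem_supp j hj).trans hpn
  rcases lt_or_gt_of_ne hji with hlt | hlt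
  · exact key j i hjn hin hlt _ _ hval
  · exact key i j hin hjn hlt _ _ hval.symm

/-- Every integral element is congruent to a constant. -/
theorem exists_const [IsAlgClosed k] {Γ : Type*} [LinearOrderedCommGroupWithZero Γ]
    (v : Valuation K Γ)
    (hc : ∀ c : k, c ≠ 0 → v (algebraMap k K c) = 1) (x : K) (hx : 1 < v x)
    (y : K) (hy : v y ≤ 1) (p : k[X][X]) (hp : p ≠ 0)
    (h : p.sum (fun i c => aeval x c * y ^ i) = 0) :
    ∃ c : k, v (y - algebraMap k K c) < 1 := by
  have hx0 : v x ≠ 0 := (zero_lt_one.trans hx).ne'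
  have hxx : x ≠ 0 := (Valuation.ne_zero_iff v).mp hx0
  obtain ⟨i, hi, hmax⟩ := p.support.exists_max_image
    (fun i => (p.coeff i).natDegree) (support_nonempty.mpr hp)
  set M := (p.coeff i).natDegree with hM
  let q : k[X] := ∑ j ∈ p.support, monomial j ((p.coeff j).coeff M)
  have hqc : q.coeff i = (p.coeff i).coeff M := by
    simp only [q, finsetSum_coeff, coeff_monomial]
    rw [Finset.sum_ite_eq' p.support i, if_pos hi]
  have hq : q ≠ 0 := by
    intro h0
    rw [h0, coeff_zero] at hqc
    exact mem_support_iff.mp hi (leadingCoeff_eq_zero.mp hqc.symm)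
  refine exists_val_sub_lt v hc y q.natDegree q rfl hq ?_
  have haq : aeval y q = ∑ j ∈ p.support, algebraMap k K ((p.coeff j).coeff M) * y ^ j := by
    simp only [q, map_sum, aeval_monomial]
  have hdiff : aeval y q * x ^ M = - ∑ j ∈ p.support,
      aeval x (p.coeff j - monomial M ((p.coeff j).coeff M)) * y ^ j := by
    have h' : ∑ j ∈ p.support, aeval x (p.coeff j) * y ^ j = 0 := h
    simp only [map_sub, aeval_monomial, sub_mul, Finset.sum_sub_distrib]
    rw [h', zero_sub, neg_neg, haq, Finset.sum_mul]
    exact Finset.sum_congr rfl fun j _ => by ring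
  have hlt : v (aeval y q * x ^ M) < v x ^ M := by
    rw [hdiff, Valuation.map_neg]
    apply Valuation.map_sum_lt
    · exact pow_ne_zero _ hx0
    · intro j hj
      rw [map_mul, map_pow]
      refine lt_of_le_of_lt (mul_le_of_le_one_right' (pow_le_one' hy j)) ?_
      by_cases hz : p.coeff j - monomial M ((p.coeff j).coeff M) = 0
      · rw [hz, map_zero, map_zero]
        exact pow_pos (zero_lt_one.trans hx) _
      · rw [val_aeval v hc x hx _ hz]
        apply pow_lt_pow_right₀ hx
        refine lt_of_le_of_ne ?_ ?_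
        · refine (natDegree_sub_le _ _).trans (max_le (hmax j hj) (natDegree_monomial_le _))
        · intro heq
          have : (p.coeff j - monomial M ((p.coeff j).coeff M)).coeff M = 0 := by simp
          apply hz
          rw [← leadingCoeff_eq_zero, leadingCoeff, heq]
          exact this
  rw [map_mul, map_pow] at hlt
  have hpos : 0 < v x ^ M := pow_pos (zero_lt_one.trans hx) _
  by_contra hcon
  have h1 : 1 ≤ v (aeval y q) := not_lt.mp hcon
  exact absurd hlt (not_lt.mpr (le_mul_of_one_le_left' h1))

/-- A field extension of `k` algebraic of bounded degree over `k[x]`, and an element `T` not in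
`k` such that `T` is integral wherever `x` is: there is an embedding in the Laurent series for
which `T` has a pole. -/
theorem exists_place [IsAlgClosed k] (x T : K) (n : ℕ)
    (hn : ∀ y : K, ∃ p : k[X][X], p ≠ 0 ∧ p.natDegree ≤ n ∧
      p.sum (fun i c => aeval x c * y ^ i) = 0)
    (hT : ∀ V : ValuationSubring K, (∀ c : k, algebraMap k K c ∈ V) → x ∈ V → T ∈ V)
    (hTk : ∀ c : k, algebraMap k K c ≠ T) :
    ∃ F : K →ₐ[k] LaurentSeries k, ∀ P : PowerSeries k, F T ≠ HahnSeries.ofPowerSeries ℤ k P := by
  classical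
  -- the valuation ring
  obtain ⟨V, hkV, hTV⟩ : ∃ V : ValuationSubring K, (∀ c : k, algebraMap k K c ∈ V) ∧ T ∉ V := by
    have hmem : T ∉ (integralClosure k K).toSubring := by
      intro h
      have hint : IsIntegral k T := h
      have h1 := IsAlgClosed.degree_eq_one_of_irreducible k (minpoly.irreducible hint)
      obtain ⟨c, hc⟩ := (minpoly.mem_range_of_degree_eq_one k T h1)
      exact hTk c hc
    have : IsIntegrallyClosedIn (integralClosure k K).toSubring K :=
      inferInstanceAs (IsIntegrallyClosedIn (integralClosure k K) K)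
    obtain ⟨V, hV, hx⟩ := Subring.exists_le_valuationSubring_of_isIntegrallyClosedIn hmem
    exact ⟨V, fun c => hV (algebraMap_mem (integralClosure k K) c), hx⟩
  have hxV : x ∉ V := fun h => hTV (hT V hkV h)
  set v := V.valuation with hv
  have hc : ∀ c : k, c ≠ 0 → v (algebraMap k K c) = 1 := by
    intro c hc0
    apply le_antisymm
    · exact (V.valuation_le_one_iff _).mpr (hkV c)
    · have h1 : v (algebraMap k K c⁻¹) ≤ 1 := (V.valuation_le_one_iff _).mpr (hkV c⁻¹)
      have h2 : v (algebraMap k K c) * v (algebraMap k K c⁻¹) = 1 := by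
        rw [← map_mul, ← map_mul, mul_inv_cancel₀ hc0, map_one, map_one]
      calc (1 : V.ValueGroup) = v (algebraMap k K c) * v (algebraMap k K c⁻¹) := h2.symm
        _ ≤ v (algebraMap k K c) * 1 := by gcongr
        _ = _ := mul_one _
  have hx : 1 < v x := by
    by_contra h
    exact hxV ((V.valuation_le_one_iff _).mp (not_lt.mp h))
  have hx0 : v x ≠ 0 := (zero_lt_one.trans hx).ne'
  set N := n.factorial with hN
  have hNpos : 0 < N := Nat.factorial_pos n
  set u := (v x)⁻¹ with hu
  have hu0 : 0 < u := by rw [hu]; exact inv_pos.mpr (zero_lt_one.trans hx)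
  have hu1 : u < 1 := inv_lt_one_of_one_lt₀ hx
  have hpow : ∀ y : K, y ≠ 0 → ∃ m : ℤ, v y ^ N = u ^ m := by
    intro y hy
    obtain ⟨p, hp, hpn, h⟩ := hn y
    exact exists_val_pow v hc x hx n y hy p hp hpn h
  have hres : ∀ y : K, v y ≤ 1 → ∃ c : k, v (y - algebraMap k K c) < 1 := by
    intro y hy
    obtain ⟨p, hp, hpn, h⟩ := hn y
    exact exists_const v hc x hx y hy p hp h
  -- the uniformiser
  have hS : ∃ m : ℕ, 0 < m ∧ ∃ y : K, y ≠ 0 ∧ v y ^ N = u ^ m := by
    refine ⟨N, hNpos, x⁻¹, inv_ne_zero ((Valuation.ne_zero_iff v).mp hx0), ?_⟩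
    rw [map_inv₀]
  obtain ⟨hm0, w, hw0, hw⟩ := Nat.find_spec hS
  set m0 := Nat.find hS with hm0def
  have hle : ∀ a b : K, v a ^ N ≤ v b ^ N → v a ≤ v b := by
    intro a b h
    exact (pow_le_pow_iff_left₀ zero_le zero_le hNpos.ne').mp h
  have hvw1 : v w < 1 := by
    by_contra h
    have h1 : 1 ≤ v w ^ N := one_le_pow₀ (not_lt.mp h)
    rw [hw] at h1
    exact absurd (pow_lt_one₀ zero_le hu1 hm0.ne') (not_lt.mpr h1)
  have hmin : ∀ y : K, v y < 1 → v y ≤ v w := by
    intro y hy
    by_cases hy0 : y = 0
    · rw [hy0, map_zero]; exact zero_le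
    obtain ⟨m, hm⟩ := hpow y hy0
    apply hle
    rw [hm, hw]
    have hmpos : 0 < m := by
      by_contra hneg
      have h1 : 1 ≤ u ^ m := one_le_zpow_of_nonpos₀ hu0 hu1.le (not_lt.mp hneg)
      rw [← hm] at h1
      exact absurd (pow_lt_one₀ zero_le hy hNpos.ne') (not_lt.mpr h1)
    obtain ⟨m', rfl⟩ := Int.eq_ofNat_of_zero_le hmpos.le
    rw [zpow_natCast] at hm ⊢
    have := Nat.find_min' hS ⟨by exact_mod_cast hmpos, y, hy0, hm⟩
    exact pow_le_pow_right_of_le_one' hu1.le this
  let algV : Algebra k V := ((algebraMap k K).codRestrict V.toSubring hkV).toAlgebra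
  have halgV : ∀ c : k, ((algebraMap k V c : V) : K) = algebraMap k K c := fun c => rfl
  have hwV : w ∈ V := (V.valuation_le_one_iff _).mp hvw1.le
  let ϖ : V := ⟨w, hwV⟩
  have hdvd : ∀ z : V, v (z : K) < 1 → ϖ ∣ z := by
    intro z hz
    have h1 : (z : K) / w ∈ V := by
      rw [← V.valuation_le_one_iff, map_div₀]
      exact div_le_one_of_le₀ (hmin _ hz) zero_le
    exact ⟨⟨(z : K) / w, h1⟩, Subtype.ext (by
      show (z : K) = w * (z / w)
      field_simp)⟩
  have hdvd' : ∀ z : V, ϖ ∣ z → v (z : K) < 1 := by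
    rintro z ⟨t, rfl⟩
    show v (w * (t : K)) < 1
    rw [map_mul]
    exact mul_lt_one_of_lt_of_le hvw1 (V.valuation_le_one t)
  obtain ⟨E, hEinj, hE0⟩ := exists_expansion (k := k) ϖ
    (by intro h; exact hw0 (congrArg Subtype.val h))
    (by
      intro h
      have := hdvd' 1 h.dvd
      rw [show ((1 : V) : K) = 1 from rfl, map_one] at this
      exact lt_irrefl _ this)
    (by
      intro z
      obtain ⟨c, hc'⟩ := hres z (V.valuation_le_one z)
      exact ⟨c, hdvd _ hc'⟩)
    (by
      intro z hz
      have hz' : (z : K) ≠ 0 := fun h => hz (Subtype.ext h)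
      obtain ⟨m, hm⟩ := hpow z hz'
      refine ⟨m.toNat + 1, ?_⟩
      rintro ⟨t, ht⟩
      have h1 : v (z : K) ≤ v w ^ (m.toNat + 1) := by
        rw [ht]
        show v (w ^ (m.toNat + 1) * (t : K)) ≤ _
        rw [map_mul, map_pow]
        exact mul_le_of_le_one_right' (V.valuation_le_one t)
      have h2 : v (z : K) ^ N ≤ u ^ (m0 * (m.toNat + 1)) := by
        calc v (z : K) ^ N ≤ (v w ^ (m.toNat + 1)) ^ N := pow_le_pow_left₀ zero_le h1 N
          _ = (v w ^ N) ^ (m.toNat + 1) := by rw [← pow_mul, ← pow_mul, mul_comm]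
          _ = _ := by rw [hw, ← pow_mul]
      rw [hm, ← zpow_natCast] at h2
      have h3 := (zpow_le_zpow_iff_right_of_lt_one₀ hu0 hu1).mp h2
      have h4 : (m.toNat : ℤ) + 1 ≤ ((m0 * (m.toNat + 1) : ℕ) : ℤ) := by
        have : m.toNat + 1 ≤ m0 * (m.toNat + 1) := Nat.le_mul_of_pos_left _ hm0
        exact_mod_cast this
      have h5 := Int.self_le_toNat m
      omega)
  let E' : V →+* LaurentSeries k := (HahnSeries.ofPowerSeries ℤ k).comp E.toRingHom
  have hE' : Function.Injective E' := HahnSeries.ofPowerSeries_injective.comp hEinj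
  let F : K →+* LaurentSeries k := IsFractionRing.lift hE'
  have hF : ∀ z : V, F (z : K) = HahnSeries.ofPowerSeries ℤ k (E z) := by
    intro z
    exact IsFractionRing.lift_algebraMap hE' z
  refine ⟨{ F with commutes' := ?_ }, ?_⟩
  · intro c
    show F (algebraMap k K c) = _
    rw [← halgV c, hF, AlgHom.commutes]
    rfl
  · intro P hP
    have hP' : F T = HahnSeries.ofPowerSeries ℤ k P := hP
    have hTinv : v T⁻¹ < 1 := by
      rw [map_inv₀]
      apply inv_lt_one_of_one_lt₀
      by_contra h
      exact hTV ((V.valuation_le_one_iff _).mp (not_lt.mp h))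
    have hTiV : T⁻¹ ∈ V := (V.valuation_le_one_iff _).mp hTinv.le
    have hT0 : T ≠ 0 := by rintro rfl; exact hTV V.zero_mem
    have h0 := hE0 ⟨T⁻¹, hTiV⟩ (hdvd _ hTinv)
    have h1 : HahnSeries.ofPowerSeries ℤ k (P * E ⟨T⁻¹, hTiV⟩) = HahnSeries.ofPowerSeries ℤ k 1 := by
      rw [map_mul, ← hP', ← hF ⟨T⁻¹, hTiV⟩, ← map_mul, mul_inv_cancel₀ hT0, map_one, map_one]
    have h2 := congrArg PowerSeries.constantCoeff (HahnSeries.ofPowerSeries_injective h1)
    rw [map_mul, h0, mul_zero, map_one] at h2
    exact zero_ne_one h2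

end Val

section Curve

open Polynomial

universe u v

/-- A domain of finite type that is not the base field has a quotient domain which is a curve:
finite over a polynomial ring in one variable. -/
theorem exists_finite_over_line {k : Type u} [Field k] [IsAlgClosed k] {B : Type v} [CommRing B]
    [IsDomain B] [Algebra k B] [Algebra.FiniteType k B]
    (hB : ¬ Function.Surjective (algebraMap k B)) :
    ∃ (Q : Ideal B) (_ : Q.IsPrime) (φ : k[X] →ₐ[k] (B ⧸ Q)), Function.Injective φ ∧
      φ.toRingHom.Finite := by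
  obtain ⟨s, g, hginj, hgfin⟩ := exists_finite_inj_algHom_of_fg k B
  obtain _ | t := s
  · exfalso
    apply hB
    have hsur : Function.Surjective (algebraMap k (MvPolynomial (Fin 0) k)) := fun q =>
      ⟨_, (MvPolynomial.eq_C_of_isEmpty q).symm⟩
    have hint : Algebra.IsIntegral k B := by
      constructor
      intro b
      have h1 : g.toRingHom.IsIntegralElem b := RingHom.Finite.to_isIntegral hgfin b
      obtain ⟨p, hp, hpb⟩ := h1
      obtain ⟨q, hq, hqd, hqm⟩ := lifts_and_natDegree_eq_and_monic
        (f := algebraMap k (MvPolynomial (Fin 0) k)) (p := p)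
        ((lifts_iff_coeff_lifts p).mpr fun n => by
          obtain ⟨c, hc⟩ := hsur (p.coeff n)
          exact ⟨c, hc⟩) hp
      refine ⟨q, hqm, ?_⟩
      rw [← hpb, ← hq, eval₂_map]
      congr 1
      ext c
      simp
    exact (IsAlgClosed.algebraMap_bijective_of_isIntegral (k := k) (K := B)).2
  · let π : MvPolynomial (Fin (t + 1)) k →ₐ[k] k[X] :=
      MvPolynomial.aeval (fun i => if i = 0 then (X : k[X]) else 0)
    have hπ0 : π (MvPolynomial.X 0) = X := by simp [π]
    have hπi : ∀ i, i ≠ 0 → π (MvPolynomial.X i) = 0 := by intro i hi; simp [π, hi]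
    let σ : k[X] →ₐ[k] MvPolynomial (Fin (t + 1)) k := aeval (MvPolynomial.X 0)
    have hσ : ∀ p, π (σ p) = p := by
      intro p
      have : π.comp σ = AlgHom.id k k[X] := by
        ext
        simp [σ, hπ0]
      exact DFunLike.congr_fun this p
    have hprime : (RingHom.ker π).IsPrime := RingHom.ker_isPrime _
    let _ := g.toRingHom.toAlgebra
    have : Module.Finite (MvPolynomial (Fin (t + 1)) k) B := hgfin
    have halg : ∀ F, algebraMap (MvPolynomial (Fin (t + 1)) k) B F = g F := fun F => rfl
    obtain ⟨Q, -, hQ, hQc⟩ := Ideal.exists_ideal_over_prime_of_isIntegral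
      (R := MvPolynomial (Fin (t + 1)) k) (S := B) (RingHom.ker π) ⊥ (by
        intro F hF
        have : g F = 0 := hF
        rw [(injective_iff_map_eq_zero g).mp hginj F this]
        exact Ideal.zero_mem _)
    have hQ' : ∀ F, g F ∈ Q ↔ π F = 0 := by
      intro F
      rw [← halg, ← Ideal.mem_comap, hQc, RingHom.mem_ker]
    let φ : k[X] →ₐ[k] (B ⧸ Q) := aeval (Ideal.Quotient.mk Q (g (MvPolynomial.X 0)))
    have hφ : ∀ F, φ (π F) = Ideal.Quotient.mk Q (g F) := by
      intro F
      have : φ.comp π = (Ideal.Quotient.mkₐ k Q).comp g := by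
        apply MvPolynomial.algHom_ext
        intro i
        by_cases hi : i = 0
        · subst hi
          simp [φ, hπ0]
        · have h1 : Ideal.Quotient.mk Q (g (MvPolynomial.X i)) = 0 :=
            Ideal.Quotient.eq_zero_iff_mem.mpr ((hQ' _).mpr (hπi i hi))
          simp [φ, hπi i hi, h1]
      exact DFunLike.congr_fun this F
    refine ⟨Q, hQ, φ, ?_, ?_⟩
    · rw [injective_iff_map_eq_zero]
      intro p hp
      rw [← hσ p, hφ, Ideal.Quotient.eq_zero_iff_mem, hQ', hσ] at hp
      exact hp
    · have h1 : (φ.toRingHom.comp π.toRingHom).Finite := by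
        have : φ.toRingHom.comp π.toRingHom = (Ideal.Quotient.mk Q).comp g.toRingHom :=
          RingHom.ext fun F => hφ F
        rw [this]
        exact RingHom.Finite.comp (RingHom.Finite.of_surjective _ Ideal.Quotient.mk_surjective)
          hgfin
      exact RingHom.Finite.of_comp_finite h1

theorem exists_rel {k : Type u} [Field k] {C : Type v} [CommRing C] [IsDomain C] [Algebra k C]
    (φ : k[X] →ₐ[k] C) (hφ : φ.toRingHom.Finite) :
    ∃ n : ℕ, ∀ y : FractionRing C, ∃ p : k[X][X], p ≠ 0 ∧ p.natDegree ≤ n ∧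
      p.sum (fun i c => aeval (algebraMap C (FractionRing C) (φ X)) c * y ^ i) = 0 := by
  classical
  let _ := φ.toRingHom.toAlgebra
  have hfin : Module.Finite k[X] C := hφ
  have hsm : ∀ (p : k[X]) (c : C), p • c = φ p * c := fun p c => Algebra.smul_def p c
  refine ⟨Module.finrank k[X] C, fun y => ?_⟩
  set n := Module.finrank k[X] C
  obtain ⟨a, b, hb, hab⟩ := IsFractionRing.div_surjective (A := C) y
  have hb0 : b ≠ 0 := nonZeroDivisors.ne_zero hb
  have hbK : algebraMap C (FractionRing C) b ≠ 0 := by
    rw [Ne, IsFractionRing.to_map_eq_zero_iff]; exact hb0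
  have hdep : ¬ LinearIndependent k[X] (fun i : Fin (n + 1) => a ^ (i : ℕ) * b ^ (n - (i : ℕ))) := by
    intro hli
    have := hli.fintype_card_le_finrank
    rw [Fintype.card_fin] at this
    omega
  rw [Fintype.not_linearIndependent_iff] at hdep
  obtain ⟨g, hg, i0, hi0⟩ := hdep
  let p : k[X][X] := ∑ i : Fin (n + 1), monomial (i : ℕ) (g i)
  have hcoeff : ∀ i : Fin (n + 1), p.coeff i = g i := by
    intro i
    simp only [p, finsetSum_coeff, coeff_monomial]
    rw [Finset.sum_eq_single i]
    · simp
    · intro j _ hj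
      rw [if_neg]
      exact fun h => hj (Fin.ext h)
    · simp
  have hdeg : p.natDegree ≤ n := by
    apply natDegree_sum_le_of_forall_le
    intro i _
    exact (natDegree_monomial_le _).trans (Nat.lt_succ_iff.mp i.2)
  refine ⟨p, ?_, hdeg, ?_⟩
  · intro h
    apply hi0
    rw [← hcoeff i0, h, coeff_zero]
  · have haev : ∀ c : k[X], aeval (algebraMap C (FractionRing C) (φ X)) c =
        algebraMap C (FractionRing C) (φ c) := by
      intro c
      have : (IsScalarTower.toAlgHom k C (FractionRing C)).comp φ =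
          aeval (algebraMap C (FractionRing C) (φ X)) := by
        ext
        simp
      exact (DFunLike.congr_fun this c).symm
    rw [sum_over_range' p (by intro i; rw [map_zero, zero_mul]) (n + 1) (by omega),
      Finset.sum_range]
    have h1 : algebraMap C (FractionRing C) b ^ n * ∑ i : Fin (n + 1),
        aeval (algebraMap C (FractionRing C) (φ X)) (p.coeff i) * y ^ (i : ℕ) = 0 := by
      have h2 := congrArg (algebraMap C (FractionRing C)) hg
      rw [map_zero, map_sum] at h2
      rw [← h2, Finset.mul_sum]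
      refine Finset.sum_congr rfl fun i _ => ?_
      rw [haev, hcoeff, hsm, map_mul, map_mul, map_pow, map_pow, ← hab]
      have hi : (i : ℕ) ≤ n := Nat.lt_succ_iff.mp i.2
      obtain ⟨d, hd⟩ := Nat.exists_eq_add_of_le hi
      have hd' : n - (i : ℕ) = d := by omega
      have hbn : algebraMap C (FractionRing C) b ^ n =
          algebraMap C (FractionRing C) b ^ (i : ℕ) * algebraMap C (FractionRing C) b ^ d := by
        rw [← pow_add, ← hd]
      rw [hd', hbn, div_pow]
      field_simp
    exact (mul_eq_zero.mp h1).resolve_left (pow_ne_zero _ hbK)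

theorem mem_of_finite {k : Type u} [Field k] {C : Type v} [CommRing C] [IsDomain C] [Algebra k C]
    (φ : k[X] →ₐ[k] C) (hφ : φ.toRingHom.Finite) (V : ValuationSubring (FractionRing C))
    (hk : ∀ c : k, algebraMap k (FractionRing C) c ∈ V)
    (hx : algebraMap C (FractionRing C) (φ X) ∈ V) (c : C) :
    algebraMap C (FractionRing C) c ∈ V := by
  have hmem : ∀ q : k[X], algebraMap C (FractionRing C) (φ q) ∈ V := by
    intro q
    induction q using Polynomial.induction_on with
    | C a =>
      have : φ (Polynomial.C a) = algebraMap k C a := φ.commutes a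
      rw [this, ← IsScalarTower.algebraMap_apply]
      exact hk a
    | add p q hp hq => rw [map_add, map_add]; exact V.add_mem _ _ hp hq
    | monomial n a h =>
      rw [pow_succ, ← mul_assoc, map_mul, map_mul]
      exact V.mul_mem _ _ h hx
  let θ : k[X] →+* V := ((algebraMap C (FractionRing C)).comp φ.toRingHom).codRestrict
    V.toSubring hmem
  obtain ⟨p, hp, hpc⟩ := RingHom.Finite.to_isIntegral hφ c
  have hint : IsIntegral V (algebraMap C (FractionRing C) c) := by
    refine ⟨p.map θ, hp.map θ, ?_⟩
    rw [eval₂_map]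
    have : (algebraMap V (FractionRing C)).comp θ =
        (algebraMap C (FractionRing C)).comp φ.toRingHom := RingHom.ext fun _ => rfl
    rw [this, ← hom_eval₂, hpc, map_zero]
  obtain ⟨y, hy⟩ := IsIntegrallyClosed.isIntegral_iff.mp hint
  rw [← hy]
  exact y.2

/-- **Block PLACE.** A finitely generated algebra over an algebraically closed field whose
localisation at the maximal ideal `m` is not artinian has a homomorphism to the Laurent series
with a pole, and `h ∉ m` is not killed. -/
theorem exists_pole {k : Type u} [Field k] [IsAlgClosed k] {A : Type v} [CommRing A]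
    [Algebra k A] [Algebra.FiniteType k A] (m : Ideal A) [m.IsMaximal]
    (hm : ¬ IsArtinianRing (Localization.AtPrime m)) (h : A) (hh : h ∉ m) :
    ∃ f : A →ₐ[k] LaurentSeries k, f h ≠ 0 ∧
      ∃ a : A, f a ∉ Set.range (HahnSeries.ofPowerSeries ℤ k) := by
  classical
  have hnoeth : IsNoetherianRing A := Algebra.FiniteType.isNoetherianRing k A
  have hnoeth' : IsNoetherianRing (Localization.AtPrime m) :=
    IsLocalization.isNoetherianRing m.primeCompl _ hnoeth
  -- a prime strictly below `m`
  obtain ⟨p0, hp0, hpm, hpne⟩ : ∃ p0 : Ideal A, p0.IsPrime ∧ p0 ≤ m ∧ p0 ≠ m := by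
    rw [isArtinianRing_iff_krullDimLE_zero, Ring.krullDimLE_zero_iff] at hm
    push Not at hm
    obtain ⟨I, hI, hIm⟩ := hm
    refine ⟨I.comap (algebraMap A (Localization.AtPrime m)), Ideal.IsPrime.comap _, ?_, ?_⟩
    · have h1 : I ≤ IsLocalRing.maximalIdeal _ := IsLocalRing.le_maximalIdeal hI.ne_top
      have h2 := Ideal.comap_mono (f := algebraMap A (Localization.AtPrime m)) h1
      exact h2.trans (le_of_eq Localization.AtPrime.under_maximalIdeal)
    · intro heq
      apply hIm
      have h1 : Ideal.map (algebraMap A (Localization.AtPrime m))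
          (I.comap (algebraMap A (Localization.AtPrime m))) = I :=
        IsLocalization.map_under m.primeCompl _ I
      rw [heq, Localization.AtPrime.map_eq_maximalIdeal] at h1
      rw [← h1]
      infer_instance
  have hhp : h ∉ p0 := fun h1 => hh (hpm h1)
  let A' := A ⧸ p0
  let h' : A' := Ideal.Quotient.mk p0 h
  have hh' : h' ≠ 0 := fun h1 => hhp (Ideal.Quotient.eq_zero_iff_mem.mp h1)
  have hle : Submonoid.powers h' ≤ nonZeroDivisors A' :=
    powers_le_nonZeroDivisors_of_noZeroDivisors hh'
  let B := Localization.Away h'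
  have hBdom : IsDomain B := IsLocalization.isDomain_localization hle
  have hA'ft : Algebra.FiniteType k A' := inferInstance
  have hBft : Algebra.FiniteType k B := by
    have : Algebra.FiniteType A' B := inferInstance
    exact Algebra.FiniteType.trans hA'ft this
  let j : A →ₐ[k] B := (IsScalarTower.toAlgHom k A' B).comp (Ideal.Quotient.mkₐ k p0)
  have hjker : ∀ a, j a = 0 → a ∈ p0 := by
    intro a ha
    have h1 : algebraMap A' B (Ideal.Quotient.mk p0 a) = 0 := ha
    have h2 := IsLocalization.injective B hle (h1.trans (map_zero _).symm)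
    exact Ideal.Quotient.eq_zero_iff_mem.mp h2
  have hjh : IsUnit (j h) := IsLocalization.Away.algebraMap_isUnit h'
  have hjsurj : ∀ b : B, ∃ (a : A) (n : ℕ), b * j h ^ n = j a := by
    intro b
    obtain ⟨⟨a', s⟩, hs⟩ := IsLocalization.surj (Submonoid.powers h') b
    obtain ⟨n, hn⟩ := s.2
    obtain ⟨a, rfl⟩ := Ideal.Quotient.mk_surjective a'
    refine ⟨a, n, ?_⟩
    have h1 : j h ^ n = algebraMap A' B (s : A') := by
      rw [← hn, map_pow]; rfl
    rw [h1]
    exact hs
  have hB : ¬ Function.Surjective (algebraMap k B) := by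
    intro hsur
    apply hpne
    have hpmax : p0.IsMaximal := by
      have hfield : IsField B := by
        refine ⟨⟨0, 1, zero_ne_one⟩, mul_comm, ?_⟩
        intro b hb
        obtain ⟨c, rfl⟩ := hsur b
        have hc : c ≠ 0 := by rintro rfl; exact hb (map_zero _)
        exact ⟨algebraMap k B c⁻¹, by rw [← map_mul, mul_inv_cancel₀ hc, map_one]⟩
      let _ := hfield.toField
      have hker : RingHom.ker j.toRingHom = p0 := by
        ext a
        constructor
        · intro ha; exact hjker a ha
        · intro ha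
          show algebraMap A' B (Ideal.Quotient.mk p0 a) = 0
          rw [Ideal.Quotient.eq_zero_iff_mem.mpr ha, map_zero]
      rw [← hker]
      have hsurj' : Function.Surjective j.toRingHom := by
        intro b
        obtain ⟨c, rfl⟩ := hsur b
        exact ⟨algebraMap k A c, j.commutes c⟩
      exact RingHom.ker_isMaximal_of_surjective j.toRingHom hsurj'
    exact hpmax.eq_of_le (Ideal.IsMaximal.ne_top inferInstance) hpm
  obtain ⟨Q, hQ, φ, hφinj, hφfin⟩ := exists_finite_over_line hB
  obtain ⟨n, hn⟩ := exists_rel φ hφfin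
  let K := FractionRing (B ⧸ Q)
  let ι : (B ⧸ Q) →ₐ[k] K := IsScalarTower.toAlgHom k (B ⧸ Q) K
  have hι : Function.Injective ι := IsFractionRing.injective (B ⧸ Q) K
  let f0 : A →ₐ[k] K := ι.comp ((Ideal.Quotient.mkₐ k Q).comp j)
  have hf0h : f0 h ≠ 0 := by
    have h1 : IsUnit (f0 h) := (hjh.map (Ideal.Quotient.mkₐ k Q)).map ι
    exact h1.ne_zero
  obtain ⟨a, ha⟩ : ∃ a : A, ∀ c : k, algebraMap k K c ≠ f0 a := by
    by_contra hcon
    push Not at hcon
    have h1 : ∀ a : A, ∃ c : k, Ideal.Quotient.mk Q (j a) = algebraMap k (B ⧸ Q) c := by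
      intro a
      obtain ⟨c, hc⟩ := hcon a
      refine ⟨c, hι ?_⟩
      rw [AlgHom.commutes]
      exact hc.symm
    obtain ⟨ch, hch⟩ := h1 h
    have hch0 : ch ≠ 0 := by
      rintro rfl
      rw [map_zero] at hch
      have := hjh.map (Ideal.Quotient.mk Q)
      rw [hch] at this
      exact not_isUnit_zero this
    obtain ⟨b, hb⟩ := Ideal.Quotient.mk_surjective (φ X)
    obtain ⟨a, n, han⟩ := hjsurj b
    obtain ⟨ca, hca⟩ := h1 a
    have h2 : φ X = algebraMap k (B ⧸ Q) (ca / ch ^ n) := by
      have h3 : φ X * algebraMap k (B ⧸ Q) (ch ^ n) = algebraMap k (B ⧸ Q) ca := by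
        rw [map_pow, ← hch, ← hb, ← map_pow, ← map_mul, han, hca]
      have h4 : algebraMap k (B ⧸ Q) (ca / ch ^ n) * algebraMap k (B ⧸ Q) (ch ^ n) =
          algebraMap k (B ⧸ Q) ca := by
        rw [← map_mul, div_mul_cancel₀ _ (pow_ne_zero _ hch0)]
      have h5 : algebraMap k (B ⧸ Q) (ch ^ n) ≠ 0 := by
        rw [Ne, map_eq_zero]
        exact pow_ne_zero _ hch0
      exact mul_right_cancel₀ h5 (h3.trans h4.symm)
    have h3 : φ (X - Polynomial.C (ca / ch ^ n)) = 0 := by
      rw [map_sub, h2]
      have : φ (Polynomial.C (ca / ch ^ n)) = algebraMap k (B ⧸ Q) (ca / ch ^ n) := φ.commutes _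
      rw [this, sub_self]
    exact X_sub_C_ne_zero _ (hφinj (h3.trans (map_zero _).symm))
  obtain ⟨F, hF⟩ := exists_place (algebraMap (B ⧸ Q) K (φ X)) (f0 a) n hn
    (fun V hk hx => mem_of_finite φ hφfin V hk hx _) ha
  refine ⟨F.comp f0, ?_, a, ?_⟩
  · intro h1
    exact hf0h ((map_eq_zero F).mp h1)
  · rintro ⟨P, hP⟩
    exact hF P hP.symm

end Curve

end Vale.Agent.P292.Mo
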