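import Vale.Agent.P292.Mo.Fam
import Vale.Agent.P292.Mo.Count
import Vale.Agent.P292.Mo.Bpf
import Vale.Agent.P292.Mo.Place
import Vale.Agent.P292.Mo.Bubble

/-! Block II.c: from a nontrivial family with fixed values at many marks to a curve of degree at
most two through the value at some mark. -/

namespace Vale.Agent.P292.Mo

open TensorProduct
open Sc Fm Ct

universe u v w x

section local_

variable {k : Type u} [Field k] {R : Type v} [CommRing R] [Algebra k R]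
  {𝒜 : ℕ → Submodule k R} [GradedAlgebra 𝒜] {K : Type w} [Field K] [Algebra k K]
  {A₀ A₁ : Subalgebra k K} {u : K} {φ : R →ₐ[k] K}

/-- From a Laurent series family (values in the first chart, sections, fixed values at the marks,
a pole, base point free) to a curve of degree one or two through the value at some mark. -/
theorem hit_of_laurent [IsAlgClosed k] (h2 : (2 : k) ≠ 0) [Algebra.FiniteType k R]
    (hconn : ∀ r ∈ 𝒜 0, ∃ c : k, r = algebraMap k R c)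
    (hLB : ∀ y : R →ₐ[k] k, (∃ n : ℕ, 0 < n ∧ ∃ r ∈ 𝒜 n, y r ≠ 0) →
      ∀ d : ℕ, (∀ n, ∀ r ∈ 𝒜 n, y r ≠ 0 → d ∣ n) → d = 1)
    (cd : IsCD A₀ A₁) (hu : u ≠ 0) {ι : Type*} [Fintype ι] (c : ι → (A₀ →ₐ[k] k))
    (hinj : Function.Injective c) (ex : ι → (A₀ →ₐ[k] PowerSeries k))
    (hexinj : ∀ l, Function.Injective (ex l))
    (hc : ∀ l x, PowerSeries.constantCoeff (ex l x) = c l x)
    (hsurj : ∀ l (n : ℕ) (f : PowerSeries k), ∃ x, (PowerSeries.X : PowerSeries k) ^ n ∣ ex l x - f)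
    (hcard : idx A₁ u < 3 * (Fintype.card ι : ℤ)) (w : ι → (R →ₐ[k] k))
    (hw : ∀ l, ∃ n : ℕ, 0 < n ∧ ∃ r ∈ 𝒜 n, w l r ≠ 0)
    (F : R →ₐ[k] LaurentSeries A₀)
    (hsec : ∀ n, ∀ r ∈ 𝒜 n, ∀ i, (((F r).coeff i : A₀) : K) ∈ Sec A₀ A₁ u n)
    (hmark : ∀ l r (i : ℤ), c l ((F r).coeff i) = if i = 0 then w l r else 0)
    (hpole : ∃ r, F r ∉ Set.range (HahnSeries.ofPowerSeries ℤ A₀))
    (hb : Ideal.span {y | ∃ j : ℕ, 0 < j ∧ ∃ r ∈ 𝒜 j, y = F r} = ⊤) :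
    ∃ l, Hit 𝒜 (w l) := by
  classical
  obtain ⟨s, hs, hdeg⟩ := exists_generators (k := k) 𝒜 hconn
  obtain ⟨e, he, μ, φ', hμ, hφ', y, hys, n, hn, hyn, hy0⟩ :=
    exists_scaled_of_pole 𝒜 F s hs hdeg hpole
  have hm : ∀ l, ∀ {n : ℕ} {r : R}, r ∈ 𝒜 n → ∀ j : ℕ,
      c l (PowerSeries.coeff j (φ' r)) = if j = μ * n then w l r else 0 :=
    fun l _ _ hr j => mark_scaled 𝒜 hφ' (c l) (w l) (hmark l) hr j
  -- the reduction
  let Ψ : R →ₐ[k] A₀ :=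
    { (PowerSeries.constantCoeff (R := A₀)).comp φ'.toRingHom with
      commutes' := fun a => by
        change PowerSeries.constantCoeff (φ' (algebraMap k R a)) = _
        rw [AlgHom.commutes, PowerSeries.algebraMap_apply, PowerSeries.constantCoeff_C] }
  have hΨ : ∀ r, Ψ r = PowerSeries.constantCoeff (φ' r) := fun r => rfl
  have hΨ0 : ∀ l, ∀ n, 0 < n → ∀ r ∈ 𝒜 n, c l (Ψ r) = 0 := by
    intro l n hn r hr
    have h1 := hm l hr 0
    rw [PowerSeries.coeff_zero_eq_constantCoeff_apply, if_neg (by positivity)] at h1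
    exact h1
  -- orders at the marks
  have hord : ∀ l, ∃ (β : ℕ) (x : R →ₐ[k] k), 0 < β ∧
      (∀ n, ∀ r ∈ 𝒜 n, (PowerSeries.X : PowerSeries k) ^ (β * n) ∣ ((ex l).comp Ψ) r) ∧
      (∀ n, ∀ r ∈ 𝒜 n, x r = PowerSeries.coeff (β * n) (((ex l).comp Ψ) r)) ∧
      ∃ r ∈ s, ∃ n, 0 < n ∧ r ∈ 𝒜 n ∧ x r ≠ 0 := by
    intro l
    refine exists_order 𝒜 s hs hdeg hLB ((ex l).comp Ψ) ⟨y, hys, fun h => hy0 ?_⟩ ?_
    · exact hexinj l (by rw [map_zero]; exact h)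
    · intro n hn r hr
      change PowerSeries.constantCoeff (ex l (Ψ r)) = 0
      rw [hc, hΨ0 l n hn r hr]
  choose β x hβ0 hβd hβc hβx using hord
  -- the count
  have hsecΨ : ((Ψ y : A₀) : K) ∈ Sec A₀ A₁ u n := by
    rw [hΨ, ← PowerSeries.coeff_zero_eq_constantCoeff_apply, coeff_scaled 𝒜 hφ' hyn]
    by_cases hdv : (e : ℤ) ∣ (((0 : ℕ) : ℤ) - μ * n : ℤ)
    · obtain ⟨i, hi⟩ := hdv
      rw [hi, expand_coeff_mul]
      exact hsec n y hyn i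
    · rw [expand_coeff_of_not_dvd _ _ _ _ hdv]
      exact zero_mem _
  have hcount := sum_order_le cd hu hsecΨ (fun h => hy0 (Subtype.ext h)) c hinj ex hc hsurj
    (fun l => β l * n) (fun l => hβd l n y hyn)
  rw [← Finset.sum_mul] at hcount
  have hsum : ((∑ l, β l : ℕ) : ℤ) ≤ idx A₁ u := by
    have hn' : (0 : ℤ) < n := by exact_mod_cast hn
    have h1 : (((∑ l, β l) * n : ℕ) : ℤ) = n * ((∑ l, β l : ℕ) : ℤ) := by push_cast; ring
    rw [h1] at hcount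
    exact le_of_mul_le_mul_left hcount hn'
  have hsmall : ∃ l, β l ≤ 2 := by
    by_contra hcon
    push Not at hcon
    have h1 : ∑ _l : ι, 3 ≤ ∑ l, β l := Finset.sum_le_sum fun l _ => hcon l
    rw [Finset.sum_const, Finset.card_univ, smul_eq_mul] at h1
    have h2 : (Fintype.card ι : ℤ) * 3 ≤ ((∑ l, β l : ℕ) : ℤ) := by exact_mod_cast h1
    linarith
  obtain ⟨l, hl⟩ := hsmall
  refine ⟨l, ?_⟩
  -- the local family
  have hloc : ∀ r, PowerSeries.mapAlgHom (ex l) (φ' r) = PowerSeries.map (ex l : A₀ →+* _) (φ' r) :=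
    fun r => rfl
  refine bubble h2 𝒜 hLB ((PowerSeries.mapAlgHom (ex l)).comp φ') (w l) (hw l) μ hμ ?_ ?_ ?_
  · intro j r hr
    ext i
    rw [AlgHom.comp_apply, hloc, PowerSeries.coeff_map, PowerSeries.coeff_map]
    change PowerSeries.constantCoeff (ex l (PowerSeries.coeff i (φ' r))) = _
    rw [hc, hm l hr i, PowerSeries.coeff_mul_C, PowerSeries.coeff_X_pow]
    by_cases hi : i = μ * j
    · rw [if_pos hi, if_pos hi, one_mul]
    · rw [if_neg hi, if_neg hi, zero_mul]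
  · obtain ⟨L, hL⟩ := exists_pow_mem 𝒜 hφ' hb
    refine ⟨L, ?_⟩
    have h1 := Ideal.mem_map_of_mem (PowerSeries.map (ex l : A₀ →+* PowerSeries k)) hL
    rw [Ideal.map_span, map_pow, PowerSeries.map_X] at h1
    refine Ideal.span_mono ?_ h1
    rintro _ ⟨_, ⟨j, hj, r, hr, rfl⟩, rfl⟩
    exact ⟨j, hj, r, hr, rfl⟩
  · obtain ⟨r, _, j, hj, hr, hr0⟩ := hβx l
    refine ⟨j, hj, r, hr, β l * j, ?_, ?_⟩
    · exact Nat.mul_lt_mul_of_pos_right (by omega) hj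
    · rw [AlgHom.comp_apply, hloc, ← PowerSeries.coeff_zero_eq_constantCoeff_apply,
        PowerSeries.coeff_map]
      change PowerSeries.coeff (β l * j) (ex l (PowerSeries.coeff 0 (φ' r))) ≠ 0
      rw [PowerSeries.coeff_zero_eq_constantCoeff_apply]
      rw [hβc l j r hr] at hr0
      exact hr0

end local_

section family

variable {k : Type u} [Field k] {R : Type v} [CommRing R] [Algebra k R]
  {𝒜 : ℕ → Submodule k R} [GradedAlgebra 𝒜] {K : Type w} [Field K] [Algebra k K]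
  {A₀ A₁ : Subalgebra k K} {u : K} {φ : R →ₐ[k] K} {D : Type x} [CommRing D] [Algebra k D]

omit [GradedAlgebra 𝒜] in
lemma evT_incB (e : D →ₐ[k] k) (S : Subalgebra k K) (y : D ⊗[k] S) :
    evT e K (incB D S y) = ((evT e S y : S) : K) := by
  induction y using TensorProduct.induction_on with
  | zero => simp
  | tmul d b =>
    rw [incB_tmul, evT_tmul, evT_tmul]
    rfl
  | add x y hx hy => rw [map_add, map_add, map_add, hx, hy]; rfl

/-- a homomorphism with homogeneous values in a subalgebra -/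
lemma hit_mem_subB (Ψ : R →ₐ[k] D ⊗[k] K) (S : Subalgebra k K)
    (h : ∀ n, ∀ r ∈ 𝒜 n, Ψ r ∈ InB D (Subalgebra.toSubmodule S)) (r : R) : Ψ r ∈ subB D S := by
  classical
  rw [← DirectSum.sum_support_decompose 𝒜 r, map_sum]
  refine Subalgebra.sum_mem _ fun n _ => ?_
  rw [mem_subB]
  exact h n _ (DirectSum.decompose 𝒜 r n).2

/-- **Block II.c.** From a nontrivial family with fixed values at the marks to a curve of degree at
most two through the value at some mark. -/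
theorem hit_of_data [IsAlgClosed k] (h2 : (2 : k) ≠ 0) [Algebra.FiniteType k R]
    (hconn : ∀ r ∈ 𝒜 0, ∃ c : k, r = algebraMap k R c)
    (hLB : ∀ y : R →ₐ[k] k, (∃ n : ℕ, 0 < n ∧ ∃ r ∈ 𝒜 n, y r ≠ 0) →
      ∀ d : ℕ, (∀ n, ∀ r ∈ 𝒜 n, y r ≠ 0 → d ∣ n) → d = 1)
    (cd : IsCD A₀ A₁) (mp : IsMp 𝒜 A₀ A₁ u φ) [IsFractionRing A₀ K]
    (P1 : ∀ V : ValuationSubring K, (∀ c : k, algebraMap k K c ∈ V) →
      (∀ a ∈ A₀, a ∈ V) ∨ (∀ a ∈ A₁, a ∈ V))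
    (P2 : ∀ 𝔭 : Ideal A₀, 𝔭.IsPrime → 𝔭 ≠ ⊥ → Function.Surjective (algebraMap k (A₀ ⧸ 𝔭)))
    {ι : Type*} [Fintype ι] (c : ι → (A₀ →ₐ[k] k))
    (hinj : Function.Injective c) (ex : ι → (A₀ →ₐ[k] PowerSeries k))
    (hexinj : ∀ l, Function.Injective (ex l))
    (hc : ∀ l x, PowerSeries.constantCoeff (ex l x) = c l x)
    (hsurj : ∀ l (n : ℕ) (f : PowerSeries k), ∃ x, (PowerSeries.X : PowerSeries k) ^ n ∣ ex l x - f)
    (hcard : idx A₁ u < 3 * (Fintype.card ι : ℤ)) (w : ι → (R →ₐ[k] k))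
    (hw : ∀ l r, ∃ h : φ r ∈ A₀, w l r = c l ⟨φ r, h⟩)
    (I : Submodule k K) (hI : ∀ a ∈ I, ∃ h : a ∈ A₀, ∀ l, c l ⟨a, h⟩ = 0)
    [Algebra.FiniteType k D] (e : D →ₐ[k] k)
    (hart : ∀ (m : Ideal D) [m.IsMaximal], m = RingHom.ker e →
      ¬ IsArtinianRing (Localization.AtPrime m))
    (Ψ : R →ₐ[k] D ⊗[k] K) (hsec : ∀ n, ∀ r ∈ 𝒜 n, Ψ r ∈ InB D (Sec A₀ A₁ u n))
    (hmark : ∀ r, Ψ r - 1 ⊗ₜ φ r ∈ InB D I) (he : ∀ r, evT e K (Ψ r) = φ r)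
    (hD : Algebra.adjoin k {d : D | ∃ r, ∃ l : K →ₗ[k] k, lamB D l (Ψ r) = d} = ⊤) :
    ∃ l, Hit 𝒜 (w l) := by
  classical
  -- the family on the first chart
  have hsec0 : ∀ n, ∀ r ∈ 𝒜 n, Ψ r ∈ InB D (Subalgebra.toSubmodule A₀) := fun n r hr =>
    InB_mono D (fun a ha => (mem_Sec.mp ha).1) (hsec n r hr)
  obtain ⟨Ψ0, hΨ0⟩ := exists_factor Ψ (hit_mem_subB Ψ A₀ hsec0)
  -- the family on the second chart
  let Ψu : R →ₐ[k] D ⊗[k] K := Sc.twist 𝒜 Ψ (1 ⊗ₜ u)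
  have hΨu : ∀ n, ∀ r ∈ 𝒜 n, Ψu r = (1 ⊗ₜ (u ^ n)) * Ψ r := by
    intro n r hr
    change Sc.twist 𝒜 Ψ (1 ⊗ₜ u) r = _
    rw [Sc.twist_apply 𝒜 Ψ _ hr, Algebra.TensorProduct.tmul_pow, one_pow]
  have hsec1 : ∀ n, ∀ r ∈ 𝒜 n, Ψu r ∈ InB D (Subalgebra.toSubmodule A₁) := by
    intro n r hr
    rw [hΨu n r hr]
    refine InB_induction D
      (p := fun y => (1 ⊗ₜ (u ^ n)) * y ∈ InB D (Subalgebra.toSubmodule A₁)) ?_ ?_ ?_ (hsec n r hr)
    · rw [mul_zero]; exact zero_mem _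
    · intro b v hv
      rw [Algebra.TensorProduct.tmul_mul_tmul]
      exact tmul_mem_InB D _ (mem_Sec.mp hv).2
    · intro x y hx hy
      rw [mul_add]; exact add_mem hx hy
  obtain ⟨Ψ1, hΨ1⟩ := exists_factor Ψu (hit_mem_subB Ψu A₁ hsec1)
  -- base point freeness certificate
  let a₀ : Ideal (D ⊗[k] A₀) := Ideal.span {y | ∃ j : ℕ, 0 < j ∧ ∃ r ∈ 𝒜 j, y = Ψ0 r}
  let a₁ : Ideal (D ⊗[k] A₁) := Ideal.span {y | ∃ j : ℕ, 0 < j ∧ ∃ r ∈ 𝒜 j, y = Ψ1 r}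
  have h01 : a₁.map (Algebra.TensorProduct.map (AlgHom.id k D) A₁.val) ≤
      a₀.map (Algebra.TensorProduct.map (AlgHom.id k D) A₀.val) := by
    rw [Ideal.map_span, Ideal.span_le]
    rintro _ ⟨_, ⟨j, hj, r, hr, rfl⟩, rfl⟩
    have h1 : (Algebra.TensorProduct.map (AlgHom.id k D) A₁.val) (Ψ1 r) =
        (1 ⊗ₜ (u ^ j)) * (Algebra.TensorProduct.map (AlgHom.id k D) A₀.val) (Ψ0 r) := by
      have h2 : incB D A₁ (Ψ1 r) = (1 ⊗ₜ (u ^ j)) * incB D A₀ (Ψ0 r) := by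
        rw [hΨ1, hΨ0, hΨu j r hr]
      exact h2
    rw [SetLike.mem_coe, h1]
    exact Ideal.mul_mem_left _ _ (Ideal.mem_map_of_mem _ (Ideal.subset_span ⟨j, hj, r, hr, rfl⟩))
  have he0 : a₀.map (evT e A₀) = ⊤ := by
    obtain ⟨n, hn, r, hr, hr0, hrA⟩ := mp.unit0
    refine Ideal.eq_top_of_isUnit_mem _ (Ideal.mem_map_of_mem _
      (Ideal.subset_span ⟨n, hn, r, hr, rfl⟩ : Ψ0 r ∈ a₀)) ?_
    refine IsUnit.of_mul_eq_one ⟨(φ r)⁻¹, hrA⟩ (Subtype.ext ?_)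
    change ((evT e A₀ (Ψ0 r) : A₀) : K) * (φ r)⁻¹ = 1
    rw [← evT_incB, hΨ0, he, mul_inv_cancel₀ hr0]
  have he1 : a₁.map (evT e A₁) = ⊤ := by
    obtain ⟨n, hn, r, hr, hr0, hrA⟩ := mp.unit1
    refine Ideal.eq_top_of_isUnit_mem _ (Ideal.mem_map_of_mem _
      (Ideal.subset_span ⟨n, hn, r, hr, rfl⟩ : Ψ1 r ∈ a₁)) ?_
    refine IsUnit.of_mul_eq_one ⟨(u ^ n * φ r)⁻¹, hrA⟩ (Subtype.ext ?_)
    change ((evT e A₁ (Ψ1 r) : A₁) : K) * (u ^ n * φ r)⁻¹ = 1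
    rw [← evT_incB, hΨ1, hΨu n r hr, map_mul, evT_tmul, he, map_one, map_one, one_mul,
      mul_inv_cancel₀ (mul_ne_zero (pow_ne_zero _ mp.u_ne) hr0)]
  have P2' : ∀ p : Ideal A₀, p.IsPrime → p ≠ ⊥ →
      ∀ a : A₀, ∃ c : k, a - algebraMap k A₀ c ∈ p := by
    intro p hp hp0 a
    obtain ⟨c, hc⟩ := P2 p hp hp0 (Ideal.Quotient.mk p a)
    refine ⟨c, ?_⟩
    rw [← Ideal.Quotient.eq_zero_iff_mem, map_sub, ← hc]
    exact sub_self _
  obtain ⟨h, heh, hmem⟩ := exists_bpf_cert A₀ A₁ P1 P2' e a₀ a₁ h01 he0 he1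
  -- the Laurent family
  have hsurj_e : Function.Surjective e := fun a => ⟨algebraMap k D a, by
    rw [AlgHom.commutes]; rfl⟩
  have hmax : (RingHom.ker e).IsMaximal := RingHom.ker_isMaximal_of_surjective e hsurj_e
  obtain ⟨f, hfh, hfa⟩ := exists_pole (k := k) (RingHom.ker e) (hart _ rfl) h heh
  let F : R →ₐ[k] LaurentSeries A₀ := (Lam f A₀).comp Ψ0
  have hF : ∀ r i, (((F r).coeff i : A₀) : K) = (Lam f K (Ψ r)).coeff i := by
    intro r i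
    rw [← hΨ0, Lam_incB]
    rfl
  have hwφ : ∀ l r (h : φ r ∈ A₀), w l r = c l ⟨φ r, h⟩ := by
    intro l r h
    obtain ⟨h', h''⟩ := hw l r
    exact h''
  refine hit_of_laurent h2 hconn hLB cd mp.u_ne c hinj ex hexinj hc hsurj hcard w ?_ F ?_ ?_ ?_ ?_
  · intro l
    obtain ⟨n, hn, r, hr, hr0, hrA⟩ := mp.unit0
    have hrA0 : φ r ∈ A₀ := (mem_Sec.mp (mp.sec n r hr)).1
    refine ⟨n, hn, r, hr, ?_⟩
    rw [hwφ l r hrA0]
    intro h0
    have h1 : (⟨φ r, hrA0⟩ : A₀) * ⟨(φ r)⁻¹, hrA⟩ = 1 := Subtype.ext (mul_inv_cancel₀ hr0)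
    have h2 := congrArg (c l) h1
    rw [map_mul, h0, zero_mul, map_one] at h2
    exact zero_ne_one h2
  · intro n r hr i
    rw [hF]
    exact Lam_coeff_mem f (hsec n r hr) i
  · intro l r i
    have h1 := Lam_coeff_mem f (hmark r) i
    rw [map_sub, HahnSeries.coeff_sub, ← hF, Lam_coeff_tmul, map_one] at h1
    obtain ⟨h3, h4⟩ := hI _ h1
    obtain ⟨hrA0, hwr⟩ := hw l r
    have h5 : (⟨(((F r).coeff i : A₀) : K) - (1 : LaurentSeries k).coeff i • φ r, h3⟩ : A₀) =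
        (F r).coeff i - (1 : LaurentSeries k).coeff i • (⟨φ r, hrA0⟩ : A₀) := rfl
    have h6 := h4 l
    rw [h5, map_sub, map_smul, ← hwr, sub_eq_zero] at h6
    rw [h6]
    by_cases hi : i = 0
    · rw [if_pos hi, hi, HahnSeries.coeff_one, if_pos rfl, one_smul]
    · rw [if_neg hi, HahnSeries.coeff_one, if_neg hi, zero_smul]
  · obtain ⟨r, i, hi, hri⟩ := exists_pole_family f Ψ hD hfa
    refine ⟨r, fun hr => hri ?_⟩
    rw [mem_range_ofPowerSeries] at hr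
    rw [← hF, hr i hi]
    rfl
  · have h1 : Lam f A₀ (h ⊗ₜ 1) ∈ a₀.map (Lam f A₀) := Ideal.mem_map_of_mem _ hmem
    have h3 : IsUnit (Lam f A₀ (h ⊗ₜ 1)) := by
      rw [Lam_tmul, map_one, mul_one]
      exact (IsUnit.mk0 (f h) hfh).map (mapL k A₀)
    have h4 := Ideal.eq_top_of_isUnit_mem _ h1 h3
    rw [← h4, Ideal.map_span]
    congr 1
    ext y
    constructor
    · rintro ⟨j, hj, r, hr, rfl⟩
      exact ⟨_, ⟨j, hj, r, hr, rfl⟩, rfl⟩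
    · rintro ⟨_, ⟨j, hj, r, hr, rfl⟩, rfl⟩
      exact ⟨j, hj, r, hr, rfl⟩

end family

end Vale.Agent.P292.Mo
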