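import Mathlib

/-! # P292, Mori step, block II.b: relative dimensions and the index of pairs of subspaces. -/

namespace Vale.Agent.P292.Mo

open Module Submodule

section basics

variable {k V : Type*} [Field k] [AddCommGroup V] [Module k V]

/-- `L / (L ∩ D)` is finite dimensional. -/
def Fc (D L : Submodule k V) : Prop := Module.Finite k (L.map D.mkQ)

/-- The dimension of `L / (L ∩ D)`. -/
noncomputable def cod (D L : Submodule k V) : ℕ := finrank k (L.map D.mkQ)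

theorem Fc.mono_right {D L L' : Submodule k V} (h : Fc D L) (hL : L' ≤ L) : Fc D L' := by
  have : Module.Finite k (L.map D.mkQ) := h
  exact Submodule.finiteDimensional_of_le (Submodule.map_mono hL)

theorem factor_map {D D' : Submodule k V} (hD : D ≤ D') (L : Submodule k V) :
    (L.map D.mkQ).map (Submodule.factor hD) = L.map D'.mkQ := by
  rw [← Submodule.map_comp]
  congr 1

theorem Fc.mono_left {D D' L : Submodule k V} (h : Fc D L) (hD : D ≤ D') : Fc D' L := by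
  have : Module.Finite k (L.map D.mkQ) := h
  rw [Fc, ← factor_map hD L]
  infer_instance

/-- `cod` only depends on `D ∩ L`. -/
theorem cod_eq_of_inf {D D' L : Submodule k V} (hD : D ≤ D') (h : D' ⊓ L ≤ D) :
    cod D L = cod D' L ∧ (Fc D L ↔ Fc D' L) := by
  have hinj : Function.Injective
      ((Submodule.factor hD).domRestrict (L.map D.mkQ)) := by
    rw [← LinearMap.ker_eq_bot, LinearMap.ker_eq_bot']
    rintro ⟨x, hx⟩ h0
    obtain ⟨l, hl, rfl⟩ := hx
    rw [LinearMap.domRestrict_apply] at h0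
    have h1 : D'.mkQ l = 0 := h0
    rw [mkQ_apply, Submodule.Quotient.mk_eq_zero] at h1
    have h2 : l ∈ D := h ⟨h1, hl⟩
    apply Subtype.ext
    change D.mkQ l = 0
    rw [mkQ_apply, Submodule.Quotient.mk_eq_zero]
    exact h2
  let e := LinearEquiv.ofInjective _ hinj
  have hr : LinearMap.range ((Submodule.factor hD).domRestrict (L.map D.mkQ)) =
      L.map D'.mkQ := by
    rw [← factor_map hD L, LinearMap.range_domRestrict]
  constructor
  · rw [cod, cod, ← hr]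
    exact LinearEquiv.finrank_eq e
  · rw [Fc, Fc, ← hr]
    exact ⟨fun _ => Module.Finite.equiv e, fun _ => Module.Finite.equiv e.symm⟩

theorem cod_sup {D L : Submodule k V} : cod D (L ⊔ D) = cod D L ∧ (Fc D (L ⊔ D) ↔ Fc D L) := by
  have h : (L ⊔ D).map D.mkQ = L.map D.mkQ := by
    rw [Submodule.map_sup]
    have : D.map D.mkQ = ⊥ := by
      rw [Submodule.mkQ_map_self]
    rw [this, sup_bot_eq]
  rw [cod, cod, Fc, Fc, h]
  exact ⟨rfl, Iff.rfl⟩

/-- Additivity of relative dimensions. -/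
theorem cod_add {D E L : Submodule k V} (hDE : D ≤ E) (hEL : E ≤ L) (h1 : Fc D E) (h2 : Fc E L) :
    Fc D L ∧ cod D L = cod D E + cod E L := by
  have f1 : Module.Finite k (E.map D.mkQ) := h1
  have f2 : Module.Finite k (L.map E.mkQ) := h2
  let g : ↥(L.map D.mkQ) →ₗ[k] V ⧸ E := (Submodule.factor hDE).domRestrict (L.map D.mkQ)
  have hr : LinearMap.range g = L.map E.mkQ := by
    rw [← factor_map hDE L, LinearMap.range_domRestrict]
  have hk : (LinearMap.ker g).map (L.map D.mkQ).subtype = E.map D.mkQ := by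
    ext x
    constructor
    · rintro ⟨⟨y, hy⟩, h, rfl⟩
      obtain ⟨l, hl, rfl⟩ := hy
      have h3 : E.mkQ l = 0 := h
      rw [mkQ_apply, Submodule.Quotient.mk_eq_zero] at h3
      exact ⟨l, h3, rfl⟩
    · rintro ⟨e, he, rfl⟩
      refine ⟨⟨D.mkQ e, ⟨e, hEL he, rfl⟩⟩, ?_, rfl⟩
      change E.mkQ e = 0
      rw [mkQ_apply, Submodule.Quotient.mk_eq_zero]
      exact he
  have ek : LinearMap.ker g ≃ₗ[k] ↥(E.map D.mkQ) := by
    rw [← hk]
    exact Submodule.equivMapOfInjective _ (Submodule.injective_subtype _) _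
  have f3 : Module.Finite k (LinearMap.ker g) := Module.Finite.equiv ek.symm
  have f4 : Module.Finite k (LinearMap.range g) := by rw [hr]; exact f2
  have f5 : Module.Finite k (L.map D.mkQ) := by
    have : Module.Finite k (↥(L.map D.mkQ) ⧸ LinearMap.ker g) :=
      Module.Finite.equiv g.quotKerEquivRange.symm
    exact Module.Finite.of_submodule_quotient (LinearMap.ker g)
  refine ⟨f5, ?_⟩
  have h3 := LinearMap.finrank_range_add_finrank_ker g
  rw [cod, cod, cod, ← h3, hr, LinearEquiv.finrank_eq ek, add_comm]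

theorem Fc.of_add {D E L : Submodule k V} (hDE : D ≤ E) (hEL : E ≤ L) (h : Fc D L) :
    Fc D E ∧ Fc E L := ⟨h.mono_right hEL, h.mono_left hDE⟩

theorem fc_self (L : Submodule k V) : Fc L L := by
  have : L.map L.mkQ = ⊥ := Submodule.mkQ_map_self L
  rw [Fc, this]
  infer_instance

theorem Fc.of_le {D L : Submodule k V} (h : L ≤ D) : Fc D L := (fc_self D).mono_right h

theorem cod_of_le {D L : Submodule k V} (h : L ≤ D) : cod D L = 0 := by
  have h1 : L.map D.mkQ = ⊥ := by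
    rw [eq_bot_iff, ← Submodule.mkQ_map_self D]
    exact Submodule.map_mono h
  rw [cod, h1, finrank_bot]

theorem cod_bot (L : Submodule k V) : cod ⊥ L = finrank k L ∧ (Fc ⊥ L ↔ Module.Finite k L) := by
  have hinj : Function.Injective ((⊥ : Submodule k V).mkQ) := by
    rw [← LinearMap.ker_eq_bot, Submodule.ker_mkQ]
  let e := Submodule.equivMapOfInjective _ hinj L
  exact ⟨(LinearEquiv.finrank_eq e).symm,
    ⟨fun h => by
      have : Module.Finite k (L.map (⊥ : Submodule k V).mkQ) := h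
      exact Module.Finite.equiv e.symm,
    fun _ => Module.Finite.equiv e⟩⟩

theorem cod_top (D : Submodule k V) : cod D ⊤ = finrank k (V ⧸ D) ∧
    (Fc D ⊤ ↔ Module.Finite k (V ⧸ D)) := by
  have h1 : (⊤ : Submodule k V).map D.mkQ = ⊤ := by
    rw [Submodule.map_top, Submodule.range_mkQ]
  constructor
  · rw [cod, h1, finrank_top]
  · rw [Fc, h1]
    exact ⟨fun _ => Module.Finite.equiv (Submodule.topEquiv (R := k) (M := V ⧸ D)),
      fun _ => inferInstance⟩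

/-- The index of two commensurable subspaces. -/
noncomputable def ind (L L' : Submodule k V) : ℤ := cod L' L - cod L L'

/-- Commensurable subspaces. -/
def Com (L L' : Submodule k V) : Prop := Fc L' L ∧ Fc L L'

theorem Com.symm {L L' : Submodule k V} (h : Com L L') : Com L' L := ⟨h.2, h.1⟩

theorem ind_symm (L L' : Submodule k V) : ind L' L = - ind L L' := by
  rw [ind, ind]; ring

theorem ind_self (L : Submodule k V) : ind L L = 0 := by rw [ind, sub_self]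

theorem fc_inf {D E L : Submodule k V} (h1 : Fc D L) (h2 : Fc E L) : Fc (D ⊓ E) L := by
  have f1 : Module.Finite k (L.map D.mkQ) := h1
  have f2 : Module.Finite k (L.map E.mkQ) := h2
  -- `D ∩ E ∩ L ⊆ D ∩ L ⊆ L`
  have h3 : Fc (D ⊓ L) L := ((cod_eq_of_inf (L := L) (inf_le_left : D ⊓ L ≤ D) le_rfl).2).2 h1
  have h4 : Fc (D ⊓ E ⊓ L) (D ⊓ L) := by
    have h5 : Fc E (D ⊓ L) := h2.mono_right inf_le_right
    have h6 : D ⊓ E ⊓ L ≤ E := inf_le_left.trans inf_le_right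
    refine ((cod_eq_of_inf (L := D ⊓ L) h6 ?_).2).2 h5
    intro x hx
    exact ⟨⟨hx.2.1, hx.1⟩, hx.2.2⟩
  have h7 : D ⊓ E ⊓ L ≤ D ⊓ L := fun x hx => ⟨hx.1.1, hx.2⟩
  exact ((cod_add h7 inf_le_right h4 h3).1).mono_left inf_le_left

/-- The index computed with a common subspace of finite codimension. -/
theorem ind_eq {D L L' : Submodule k V} (h : D ≤ L) (h' : D ≤ L') (f : Fc D L) (f' : Fc D L') :
    ind L L' = cod D L - cod D L' := by
  have e1 : cod L' L = cod (L ⊓ L') L :=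
    ((cod_eq_of_inf (inf_le_right : L ⊓ L' ≤ L') (by rw [inf_comm])).1).symm
  have e2 : cod L L' = cod (L ⊓ L') L' :=
    ((cod_eq_of_inf (inf_le_left : L ⊓ L' ≤ L) le_rfl).1).symm
  have g1 := (cod_add (le_inf h h') (inf_le_left : L ⊓ L' ≤ L)
    (f.mono_right inf_le_left) (f.mono_left (le_inf h h'))).2
  have g2 := (cod_add (le_inf h h') (inf_le_right : L ⊓ L' ≤ L')
    (f'.mono_right inf_le_right) (f'.mono_left (le_inf h h'))).2
  rw [ind, e1, e2, g1, g2]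
  push_cast
  ring

theorem Com.exists_common {L₁ L₂ L₃ : Submodule k V} (h1 : Com L₁ L₂) (h2 : Com L₂ L₃) :
    ∃ D, D ≤ L₁ ∧ D ≤ L₂ ∧ D ≤ L₃ ∧ Fc D L₁ ∧ Fc D L₂ ∧ Fc D L₃ := by
  have f2 : Fc (L₁ ⊓ L₃) L₂ := fc_inf h1.2 h2.1
  have f2' : Fc (L₁ ⊓ L₃ ⊓ L₂) L₂ :=
    ((cod_eq_of_inf (L := L₂) (inf_le_left : L₁ ⊓ L₃ ⊓ L₂ ≤ L₁ ⊓ L₃) le_rfl).2).2 f2
  have key : ∀ L : Submodule k V, Fc L₂ L → L₁ ⊓ L₃ ⊓ L₂ ≤ L → Fc (L₁ ⊓ L₃ ⊓ L₂) L := by
    intro L hL hD
    have g1 : Fc (L ⊓ L₂) L :=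
      ((cod_eq_of_inf (L := L) (inf_le_right : L ⊓ L₂ ≤ L₂) (by rw [inf_comm])).2).2 hL
    exact (cod_add (le_inf hD inf_le_right) inf_le_left (f2'.mono_right inf_le_right) g1).1
  exact ⟨L₁ ⊓ L₃ ⊓ L₂, inf_le_left.trans inf_le_left, inf_le_right, inf_le_left.trans inf_le_right,
    key L₁ h1.1 (inf_le_left.trans inf_le_left), f2', key L₃ h2.2 (inf_le_left.trans inf_le_right)⟩

theorem Com.trans {L₁ L₂ L₃ : Submodule k V} (h1 : Com L₁ L₂) (h2 : Com L₂ L₃) : Com L₁ L₃ := by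
  obtain ⟨D, d1, d2, d3, f1, f2, f3⟩ := h1.exists_common h2
  exact ⟨f1.mono_left d3, f3.mono_left d1⟩

theorem ind_add {L₁ L₂ L₃ : Submodule k V} (h1 : Com L₁ L₂) (h2 : Com L₂ L₃) :
    ind L₁ L₃ = ind L₁ L₂ + ind L₂ L₃ := by
  obtain ⟨D, d1, d2, d3, f1, f2, f3⟩ := h1.exists_common h2
  rw [ind_eq d1 d3 f1 f3, ind_eq d1 d2 f1 f2, ind_eq d2 d3 f2 f3]
  ring

/-! ### Euler characteristics -/

/-- The pair has finite cohomology. -/
def Fred (L M : Submodule k V) : Prop :=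
  Module.Finite k ↥(L ⊓ M) ∧ Module.Finite k (V ⧸ (L ⊔ M))

/-- The Euler characteristic of a pair of subspaces. -/
noncomputable def chi (L M : Submodule k V) : ℤ := finrank k ↥(L ⊓ M) - finrank k (V ⧸ (L ⊔ M))

theorem chi_of_le {L L' M : Submodule k V} (hL : L' ≤ L) (f : Fc L' L) :
    (Fred L M ↔ Fred L' M) ∧ (Fred L' M → chi L M = chi L' M + cod L' L) := by
  have a1 : (cod (L' ⊓ M) (L ⊓ M) : ℤ) = cod L' (L ⊓ M) ∧
      (Fc (L' ⊓ M) (L ⊓ M) ↔ Fc L' (L ⊓ M)) := by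
    have := cod_eq_of_inf (L := L ⊓ M) (inf_le_left : L' ⊓ M ≤ L')
      (fun x hx => ⟨hx.1, hx.2.2⟩)
    exact ⟨by exact_mod_cast this.1, this.2⟩
  have a2 := cod_sup (D := L') (L := L ⊓ M)
  have a3 := cod_sup (D := L' ⊔ M) (L := L)
  have e3 : L ⊔ (L' ⊔ M) = L ⊔ M := by
    rw [← sup_assoc, sup_eq_left.2 hL]
  rw [e3] at a3
  have e4 : (L' ⊔ M) ⊓ L = (L ⊓ M) ⊔ L' := by
    rw [sup_comm (L ⊓ M), inf_comm L M]
    exact sup_inf_assoc_of_le M hL
  have a4 := cod_eq_of_inf (D := (L ⊓ M) ⊔ L') (D' := L' ⊔ M) (L := L)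
    (sup_le (inf_le_right.trans le_sup_right) le_sup_left) e4.le
  have f1 : Fc L' ((L ⊓ M) ⊔ L') := f.mono_right (sup_le inf_le_left hL)
  have f2 : Fc ((L ⊓ M) ⊔ L') L := f.mono_left le_sup_right
  have a5 := cod_add (le_sup_right : L' ≤ (L ⊓ M) ⊔ L') (sup_le inf_le_left hL) f1 f2
  have g1 : Fc (L' ⊓ M) (L ⊓ M) := a1.2.2 (a2.2.1 f1)
  have g2 : Fc (L' ⊔ M) (L ⊔ M) := a3.2.2 (a4.2.1 f2)
  have b1 := cod_bot (L ⊓ M)
  have b1' := cod_bot (L' ⊓ M)
  have b2 := cod_top (L ⊔ M)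
  have b2' := cod_top (L' ⊔ M)
  have hF : Fred L M ↔ Fred L' M := by
    constructor
    · rintro ⟨h1, h2⟩
      refine ⟨b1'.2.1 ((b1.2.2 h1).mono_right (inf_le_inf_right M hL)), ?_⟩
      exact b2'.2.1 (cod_add (sup_le_sup_right hL M) le_top g2 (b2.2.2 h2)).1
    · rintro ⟨h1, h2⟩
      refine ⟨b1.2.1 (cod_add bot_le (inf_le_inf_right M hL) (b1'.2.2 h1) g1).1, ?_⟩
      exact b2.2.1 ((b2'.2.2 h2).mono_left (sup_le_sup_right hL M))
  refine ⟨hF, fun h => ?_⟩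
  have h' := hF.2 h
  have c1 := (cod_add bot_le (inf_le_inf_right M hL) (b1'.2.2 h.1) g1).2
  have c2 := (cod_add (sup_le_sup_right hL M) le_top g2 (b2.2.2 h'.2)).2
  rw [b1.1, b1'.1] at c1
  rw [b2.1, b2'.1] at c2
  have d1 := a1.1
  have d2 := a2.1
  have d3 := a3.1
  have d4 := a4.1
  have d5 := a5.2
  rw [chi, chi]
  omega

theorem chi_eq_ind {L L' M : Submodule k V} (h : Com L L') (hF : Fred L' M) :
    Fred L M ∧ chi L M = chi L' M + ind L L' := by
  have f1 : Fc (L ⊓ L') L := ((cod_eq_of_inf (L := L) (inf_le_right : L ⊓ L' ≤ L')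
    (by rw [inf_comm])).2).2 h.1
  have f2 : Fc (L ⊓ L') L' := ((cod_eq_of_inf (L := L') (inf_le_left : L ⊓ L' ≤ L)
    le_rfl).2).2 h.2
  have c1 := chi_of_le (M := M) (inf_le_left : L ⊓ L' ≤ L) f1
  have c2 := chi_of_le (M := M) (inf_le_right : L ⊓ L' ≤ L') f2
  have g := c2.1.1 hF
  refine ⟨c1.1.2 g, ?_⟩
  have e1 := c1.2 g
  have e2 := c2.2 g
  have e3 := ind_eq (inf_le_left : L ⊓ L' ≤ L) (inf_le_right : L ⊓ L' ≤ L') f1 f2
  omega

theorem chi_comm (L M : Submodule k V) : chi L M = chi M L := by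
  rw [chi, chi, inf_comm, sup_comm]

theorem Fred.comm {L M : Submodule k V} (h : Fred L M) : Fred M L := by
  rw [Fred, inf_comm, sup_comm]
  exact h

/-! ### transport -/

variable {W : Type*} [AddCommGroup W] [Module k W]

theorem cod_map (g : V ≃ₗ[k] W) (D L : Submodule k V) :
    cod (D.map (g : V →ₗ[k] W)) (L.map (g : V →ₗ[k] W)) = cod D L ∧
      (Fc (D.map (g : V →ₗ[k] W)) (L.map (g : V →ₗ[k] W)) ↔ Fc D L) := by
  let e : (V ⧸ D) ≃ₗ[k] (W ⧸ D.map (g : V →ₗ[k] W)) := Submodule.Quotient.equiv D _ g rfl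
  have h : (L.map D.mkQ).map (e : (V ⧸ D) →ₗ[k] (W ⧸ D.map (g : V →ₗ[k] W))) =
      (L.map (g : V →ₗ[k] W)).map (D.map (g : V →ₗ[k] W)).mkQ := by
    rw [← Submodule.map_comp, ← Submodule.map_comp]
    congr 1
  let e' : ↥(L.map D.mkQ) ≃ₗ[k]
      ↥((L.map (g : V →ₗ[k] W)).map (D.map (g : V →ₗ[k] W)).mkQ) := by
    rw [← h]
    exact e.submoduleMap _
  exact ⟨(LinearEquiv.finrank_eq e').symm, ⟨fun h => by
    have : Module.Finite k _ := h
    exact Module.Finite.equiv e'.symm, fun h => by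
    have : Module.Finite k _ := h
    exact Module.Finite.equiv e'⟩⟩

theorem ind_map (g : V ≃ₗ[k] W) (L L' : Submodule k V) :
    ind (L.map (g : V →ₗ[k] W)) (L'.map (g : V →ₗ[k] W)) = ind L L' := by
  rw [ind, ind, (cod_map g _ _).1, (cod_map g _ _).1]

theorem Com.map (g : V ≃ₗ[k] W) {L L' : Submodule k V} (h : Com L L') :
    Com (L.map (g : V →ₗ[k] W)) (L'.map (g : V →ₗ[k] W)) :=
  ⟨(cod_map g _ _).2.2 h.1, (cod_map g _ _).2.2 h.2⟩

theorem chi_map (g : V ≃ₗ[k] W) (L M : Submodule k V) :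
    (Fred (L.map (g : V →ₗ[k] W)) (M.map (g : V →ₗ[k] W)) ↔ Fred L M) ∧
    chi (L.map (g : V →ₗ[k] W)) (M.map (g : V →ₗ[k] W)) = chi L M := by
  have h1 : L.map (g : V →ₗ[k] W) ⊓ M.map (g : V →ₗ[k] W) = (L ⊓ M).map (g : V →ₗ[k] W) :=
    (Submodule.map_inf _ g.injective).symm
  have h2 : L.map (g : V →ₗ[k] W) ⊔ M.map (g : V →ₗ[k] W) = (L ⊔ M).map (g : V →ₗ[k] W) :=
    (Submodule.map_sup _ _ _).symm
  let e1 : ↥(L ⊓ M) ≃ₗ[k] ↥((L ⊓ M).map (g : V →ₗ[k] W)) := g.submoduleMap _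
  let e2 : (V ⧸ (L ⊔ M)) ≃ₗ[k] (W ⧸ (L ⊔ M).map (g : V →ₗ[k] W)) :=
    Submodule.Quotient.equiv _ _ g rfl
  constructor
  · rw [Fred, Fred, h1, h2]
    exact ⟨fun ⟨a, b⟩ => ⟨Module.Finite.equiv e1.symm, Module.Finite.equiv e2.symm⟩,
      fun ⟨a, b⟩ => ⟨Module.Finite.equiv e1, Module.Finite.equiv e2⟩⟩
  · rw [chi, chi, h1, h2, LinearEquiv.finrank_eq e1, LinearEquiv.finrank_eq e2]

end basics

end Vale.Agent.P292.Mo
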