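import Vale.Agent.P292.Mo.CrvBase

/-!
# The curve data (P292, block F3a): reduction to the rings over the line
-/

namespace Vale.Agent.P292.Mo

open Polynomial

universe u w

section

variable {k : Type u} [Field k] {K : Type w} [Field K] [Algebra k K] {t : K}

/-- The coefficients of the minimal polynomial of an integral element. -/
theorem cd_minpoly (B : Subalgebra k K)
    (hBF : ∀ x ∈ B, x ∈ IntermediateField.adjoin k {t})
    (hfr : ∀ x ∈ IntermediateField.adjoin k {t}, ∃ a ∈ B, ∃ b ∈ B, b ≠ 0 ∧ x = a / b)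
    (hpir : IsPrincipalIdealRing B) {x : K} (hx : x ∈ IC B) (i : ℕ) :
    (((minpoly (IntermediateField.adjoin k {t}) x).coeff i :
      IntermediateField.adjoin k {t}) : K) ∈ B := by
  classical
  let F := IntermediateField.adjoin k {t}
  let algBF : Algebra B F := (({ toFun := fun x => ⟨x, hBF x x.2⟩
                                 map_one' := rfl
                                 map_mul' := fun _ _ => rfl
                                 map_zero' := rfl
                                 map_add' := fun _ _ => rfl } : B →+* F)).toAlgebra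
  have halg : ∀ x : B, ((algebraMap B F x : F) : K) = x := fun _ => rfl
  have tower : IsScalarTower B F K := IsScalarTower.of_algebraMap_eq fun _ => rfl
  have hinjBF : Function.Injective (algebraMap B F) := fun x y h => by
    apply Subtype.ext
    have := congrArg Subtype.val h
    exact this
  have hfrac : IsFractionRing B F := by
    refine ⟨?_, ?_, ?_⟩
    · rintro ⟨y, hy⟩
      have hy0 : y ≠ 0 := nonZeroDivisors.ne_zero hy
      rw [isUnit_iff_ne_zero]
      intro h
      exact hy0 (hinjBF (h.trans (map_zero _).symm))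
    · rintro ⟨x, hx⟩
      obtain ⟨a, ha, b, hb, hb0, hab⟩ := hfr x hx
      refine ⟨(⟨a, ha⟩, ⟨⟨b, hb⟩, ?_⟩), ?_⟩
      · rw [mem_nonZeroDivisors_iff_ne_zero]
        intro h
        exact hb0 (congrArg Subtype.val h)
      · apply Subtype.ext
        show x * b = a
        rw [hab]
        field_simp
    · intro x y h
      exact ⟨1, by rw [hinjBF h]⟩
  have hdom : IsDomain B := inferInstance
  have hded : IsDedekindDomain B := inferInstance
  have hic : IsIntegrallyClosed B := inferInstance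
  have hint : IsIntegral B x := hx
  have h := minpoly.isIntegrallyClosed_eq_field_fractions' F (R := B) hint
  rw [h, Polynomial.coeff_map, halg]
  exact ((minpoly B x).coeff i).2

/-- Common denominators. -/
theorem cd_den {B : Subalgebra k K}
    (hfr : ∀ x ∈ IntermediateField.adjoin k {t}, ∃ a ∈ B, ∃ b ∈ B, b ≠ 0 ∧ x = a / b)
    {n : ℕ} (x : Fin n → IntermediateField.adjoin k {t}) :
    ∃ d ∈ B, d ≠ 0 ∧ ∀ i, d * (x i : K) ∈ B := by
  classical
  choose a ha b hb hb0 hab using fun i => hfr (x i) (x i).2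
  refine ⟨∏ i, b i, Subalgebra.prod_mem _ fun i _ => hb i,
    Finset.prod_ne_zero_iff.2 fun i _ => hb0 i, ?_⟩
  intro i
  rw [hab i, ← Finset.mul_prod_erase Finset.univ b (Finset.mem_univ i)]
  have h1 : b i * (∏ j ∈ Finset.univ.erase i, b j) * (a i / b i) =
      (∏ j ∈ Finset.univ.erase i, b j) * a i := by
    have := hb0 i
    field_simp
  rw [h1]
  exact Subalgebra.mul_mem _ (Subalgebra.prod_mem _ fun j _ => hb j) (ha i)

/-- Denominators in the big field. -/
theorem cd_denK {B : Subalgebra k K}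
    (hBF : ∀ x ∈ B, x ∈ IntermediateField.adjoin k {t})
    (hfr : ∀ x ∈ IntermediateField.adjoin k {t}, ∃ a ∈ B, ∃ b ∈ B, b ≠ 0 ∧ x = a / b)
    {n : ℕ} (ω : Module.Basis (Fin n) (IntermediateField.adjoin k {t}) K)
    (hω : ∀ x : K, x ∈ IC B ↔ ∀ i, ((ω.repr x i : K)) ∈ B) (x : K) :
    ∃ d ∈ B, d ≠ 0 ∧ d * x ∈ IC B := by
  obtain ⟨d, hd, hd0, h⟩ := cd_den hfr (fun i => ω.repr x i)
  refine ⟨d, hd, hd0, ?_⟩
  rw [hω]
  intro i
  have h1 : d * x = (⟨d, hBF d hd⟩ : IntermediateField.adjoin k {t}) • x := rfl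
  rw [h1, map_smul, Finsupp.smul_apply, smul_eq_mul]
  exact h i

theorem cd_le_IC {B : Subalgebra k K} {x : K} (hx : x ∈ B) : x ∈ IC B :=
  isIntegral_algebraMap (R := B) (x := ⟨x, hx⟩)

theorem cd_sum {n : ℕ} (ω : Module.Basis (Fin n) (IntermediateField.adjoin k {t}) K) (x : K) :
    x = ∑ i, (ω.repr x i : K) * ω i := by
  conv_lhs => rw [← ω.sum_repr x]
  refine Finset.sum_congr rfl fun i _ => ?_
  rw [Algebra.smul_def]
  rfl

/-- Finiteness of a quotient. -/
theorem cd_fd {V W : Type*} [AddCommGroup V] [Module k V] [AddCommGroup W] [Module k W]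
    [FiniteDimensional k V] (U : Submodule k W) (f : V →ₗ[k] W)
    (h : ∀ x, ∃ v, x - f v ∈ U) : FiniteDimensional k (W ⧸ U) := by
  refine Module.Finite.of_surjective (U.mkQ.comp f) ?_
  intro y
  obtain ⟨x, rfl⟩ := U.mkQ_surjective y
  obtain ⟨v, hv⟩ := h x
  refine ⟨v, ?_⟩
  rw [LinearMap.comp_apply, eq_comm, ← sub_eq_zero, ← map_sub, Submodule.mkQ_apply,
    Submodule.Quotient.mk_eq_zero]
  exact hv

/-- The map `v ↦ ∑ v_i ω_i`. -/
noncomputable def cdMap {n : ℕ} (ω : Fin n → K) (S : Submodule k K) : (Fin n → S) →ₗ[k] K :=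
  ∑ i, (LinearMap.mulRight k (ω i)).comp (S.subtype.comp (LinearMap.proj i))

theorem cdMap_apply {n : ℕ} (ω : Fin n → K) (S : Submodule k K) (v : Fin n → S) :
    cdMap ω S v = ∑ i, (v i : K) * ω i := by
  simp [cdMap]

/-- F3a, from the facts about the line. -/
theorem isCD_of [IsAlgClosed k] (ht : Transcendental k t)
    [FiniteDimensional (IntermediateField.adjoin k {t}) K]
    [Algebra.IsSeparable (IntermediateField.adjoin k {t}) K] {g : Polynomial k} (hg : g ≠ 0)
    (hquot : ∀ d : K, d ∈ B1 t g → d ≠ 0 → ∃ S : Submodule k K, FiniteDimensional k S ∧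
      ∀ x ∈ B1 t g, ∃ s ∈ S, ∃ c ∈ B1 t g, x = s + d * c)
    (hadd : ∀ x ∈ IntermediateField.adjoin k {t}, ∃ b0 ∈ B0 t g, ∃ b1 ∈ B1 t g, x = b0 + b1)
    (hinf : ∀ x : K, x ∈ B0 t g → x ∈ B1 t g → ∃ c : k, x = algebraMap k K c) :
    IsCD (IC (B0 t g)) (IC (B1 t g)) := by
  classical
  have hinfk : Infinite k := inferInstance
  obtain ⟨-, ω, hωm, hω⟩ := crv_basis0 (K := K) ht hg
  obtain ⟨-, ω', hωm', hω'⟩ := crv_basis1 (K := K) ht hg
  have hBF1 := crv_B1_le t g
  have hfr1 := crv_B1_frac ht hg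
  refine ⟨?_, ?_, ?_, ?_⟩
  · -- the intersection is `k`
    have hle : Subalgebra.toSubmodule (IC (B0 t g)) ⊓ Subalgebra.toSubmodule (IC (B1 t g)) ≤
        Submodule.span k {(1 : K)} := by
      rintro x ⟨h0, h1⟩
      have hco : ∀ i, ∃ c : k, (((minpoly (IntermediateField.adjoin k {t}) x).coeff i :
          IntermediateField.adjoin k {t}) : K) = algebraMap k K c := fun i =>
        hinf _ (cd_minpoly (B0 t g) (crv_B0_le (crv_ne ht hg)) (crv_B0_frac t g)
          (crv_B0_pir (crv_ne ht hg)) h0 i)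
          (cd_minpoly (B1 t g) hBF1 hfr1 (crv_B1_pir ht hg) h1 i)
      have hlift : minpoly (IntermediateField.adjoin k {t}) x ∈
          Polynomial.lifts (algebraMap k (IntermediateField.adjoin k {t})) := by
        rw [Polynomial.lifts_iff_coeff_lifts]
        intro i
        obtain ⟨c, hc⟩ := hco i
        exact ⟨c, Subtype.ext hc.symm⟩
      have hintF : IsIntegral (IntermediateField.adjoin k {t}) x :=
        Algebra.IsIntegral.isIntegral x
      obtain ⟨q, hq, -, hqm⟩ := Polynomial.lifts_and_degree_eq_and_monic hlift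
        (minpoly.monic hintF)
      have hxk : IsIntegral k x := by
        refine ⟨q, hqm, ?_⟩
        have h2 := minpoly.aeval (IntermediateField.adjoin k {t}) x
        rw [← hq, Polynomial.aeval_map_algebraMap] at h2
        exact h2
      have hdeg := IsAlgClosed.degree_eq_one_of_irreducible k (minpoly.irreducible hxk)
      obtain ⟨c, hc⟩ := minpoly.mem_range_of_degree_eq_one k x hdeg
      rw [Submodule.mem_span_singleton]
      exact ⟨c, by rw [← hc, Algebra.smul_def, mul_one]⟩
    exact Submodule.finiteDimensional_of_le hle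
  · -- the sum has finite codimension
    have hden : ∃ d ∈ B1 t g, d ≠ 0 ∧ ∀ i, d * ω i ∈ IC (B1 t g) := by
      choose d hd hd0 h using fun i => cd_denK hBF1 hfr1 ω' hω' (ω i)
      refine ⟨∏ i, d i, Subalgebra.prod_mem _ fun i _ => hd i,
        Finset.prod_ne_zero_iff.2 fun i _ => hd0 i, ?_⟩
      intro i
      rw [← Finset.mul_prod_erase Finset.univ d (Finset.mem_univ i), mul_comm (d i), mul_assoc]
      exact Subalgebra.mul_mem _ (cd_le_IC (Subalgebra.prod_mem _ fun j _ => hd j)) (h i)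
    obtain ⟨d, hd, hd0, hdω⟩ := hden
    obtain ⟨S, hS, hSq⟩ := hquot d hd hd0
    refine cd_fd _ (cdMap (fun i => ω i) S) fun x => ?_
    choose b0 hb0 b1 hb1 hb using fun i => hadd (ω.repr x i) (ω.repr x i).2
    choose s hs c hc hsc using fun i => hSq (b1 i) (hb1 i)
    refine ⟨fun i => ⟨s i, hs i⟩, ?_⟩
    rw [cdMap_apply]
    have e : x - ∑ i, s i * ω i = ∑ i, b0 i * ω i + ∑ i, c i * (d * ω i) := by
      conv_lhs => rw [cd_sum ω x]
      rw [← Finset.sum_sub_distrib, ← Finset.sum_add_distrib]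
      refine Finset.sum_congr rfl fun i _ => ?_
      rw [hb i, hsc i]
      ring
    show x - ∑ i, s i * ω i ∈ _
    rw [e]
    refine Submodule.add_mem_sup ?_ ?_
    · exact Subalgebra.sum_mem _ fun i _ => Subalgebra.mul_mem _ (cd_le_IC (hb0 i)) (hωm i)
    · exact Subalgebra.sum_mem _ fun i _ => Subalgebra.mul_mem _ (cd_le_IC (hc i)) (hdω i)
  · -- the quotients of the second ring
    intro a ha ha0
    obtain ⟨d, hd, hd0, hda⟩ := cd_denK hBF1 hfr1 ω' hω' a⁻¹
    obtain ⟨S, hS, hSq⟩ := hquot d hd hd0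
    have hS' : FiniteDimensional k ↥(S ⊓ Subalgebra.toSubmodule (B1 t g)) :=
      Submodule.finiteDimensional_of_le inf_le_left
    have hmem : ∀ v, cdMap (fun i => ω' i) (S ⊓ Subalgebra.toSubmodule (B1 t g)) v ∈
        Subalgebra.toSubmodule (IC (B1 t g)) := by
      intro v
      rw [cdMap_apply]
      exact Subalgebra.sum_mem _ fun i _ => Subalgebra.mul_mem _ (cd_le_IC (v i).2.2) (hωm' i)
    refine cd_fd _ (LinearMap.codRestrict _ (cdMap (fun i => ω' i)
      (S ⊓ Subalgebra.toSubmodule (B1 t g))) hmem) fun x => ?_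
    have hx := (hω' x).1 x.2
    choose s hs c hc hsc using fun i => hSq _ (hx i)
    have hsB : ∀ i, s i ∈ S ⊓ Subalgebra.toSubmodule (B1 t g) := by
      intro i
      refine ⟨hs i, ?_⟩
      have : s i = (ω'.repr (x : K) i : K) - d * c i := by rw [hsc i]; ring
      rw [this]
      exact Subalgebra.sub_mem _ (hx i) (Subalgebra.mul_mem _ hd (hc i))
    refine ⟨fun i => ⟨s i, hsB i⟩, ?_⟩
    rw [Submodule.mem_comap, Submodule.mem_map]
    refine ⟨∑ i, c i * (d * a⁻¹ * ω' i), ?_, ?_⟩
    · exact Subalgebra.sum_mem _ fun i _ => Subalgebra.mul_mem _ (cd_le_IC (hc i))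
        (Subalgebra.mul_mem _ hda (hωm' i))
    · show a * ∑ i, c i * (d * a⁻¹ * ω' i) = (x : K) - cdMap (fun i => ω' i)
        (S ⊓ Subalgebra.toSubmodule (B1 t g)) (fun i => ⟨s i, hsB i⟩)
      rw [cdMap_apply]
      conv_rhs => rw [cd_sum ω' (x : K)]
      rw [← Finset.sum_sub_distrib, Finset.mul_sum]
      refine Finset.sum_congr rfl fun i _ => ?_
      show a * (c i * (d * a⁻¹ * ω' i)) = (ω'.repr (x : K) i : K) * ω' i - s i * ω' i
      rw [hsc i]
      field_simp
      ring
  · -- fractions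
    intro x
    obtain ⟨d, hd, hd0, hdx⟩ := cd_denK hBF1 hfr1 ω' hω' x
    exact ⟨d * x, hdx, d, cd_le_IC hd, hd0, by field_simp⟩

end

end Vale.Agent.P292.Mo
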