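import Vale.Agent.P292.Mo.Index

/-! # P292, Mori step, block II.b: lattices over a one-dimensional ring and determinants. -/

namespace Vale.Agent.P292.Mo

open Module Submodule

section pi

variable {k : Type*} [Field k] {ι : Type*} [Fintype ι] [DecidableEq ι] {V : Type*}
  [AddCommGroup V] [Module k V]

/-- Products of subspaces. -/
def pis (L : ι → Submodule k V) : Submodule k (ι → V) := Submodule.pi Set.univ L

omit [Fintype ι] [DecidableEq ι] in
theorem mem_pis {L : ι → Submodule k V} {v : ι → V} : v ∈ pis L ↔ ∀ i, v i ∈ L i := by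
  simp [pis, Submodule.mem_pi]

/-- The product of subspaces as a product of spaces. -/
def pisEquiv (L : ι → Submodule k V) : (∀ i, ↥(L i)) ≃ₗ[k] ↥(pis L) where
  toFun f := ⟨fun i => (f i : V), mem_pis.2 fun i => (f i).2⟩
  invFun f i := ⟨f.1 i, mem_pis.1 f.2 i⟩
  map_add' _ _ := rfl
  map_smul' _ _ := rfl
  left_inv _ := rfl
  right_inv _ := rfl

theorem pis_map_mkQ (D L : ι → Submodule k V) :
    ((pis L).map (pis D).mkQ).map
      ((Submodule.quotientPi D : ((ι → V) ⧸ Submodule.pi Set.univ D) ≃ₗ[k] ∀ i, V ⧸ D i) :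
        ((ι → V) ⧸ Submodule.pi Set.univ D) →ₗ[k] ∀ i, V ⧸ D i) =
    Submodule.pi Set.univ fun i => (L i).map (D i).mkQ := by
  ext x
  constructor
  · rintro ⟨_, ⟨v, hv, rfl⟩, rfl⟩
    rw [Submodule.mem_pi]
    intro i _
    exact ⟨v i, mem_pis.1 hv i, rfl⟩
  · intro hx
    rw [Submodule.mem_pi] at hx
    choose v hv hvx using fun i => hx i (Set.mem_univ i)
    refine ⟨(pis D).mkQ v, ⟨v, mem_pis.2 hv, rfl⟩, ?_⟩
    funext i
    exact hvx i

theorem cod_pis (D L : ι → Submodule k V) (h : ∀ i, Fc (D i) (L i)) :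
    Fc (pis D) (pis L) ∧ cod (pis D) (pis L) = ∑ i, cod (D i) (L i) := by
  let e : ((ι → V) ⧸ pis D) ≃ₗ[k] ∀ i, V ⧸ D i := Submodule.quotientPi D
  let e1 : ↥((pis L).map (pis D).mkQ) ≃ₗ[k] ↥(((pis L).map (pis D).mkQ).map
    (e : ((ι → V) ⧸ pis D) →ₗ[k] ∀ i, V ⧸ D i)) := e.submoduleMap _
  let e2 : (∀ i, ↥((L i).map (D i).mkQ)) ≃ₗ[k]
      ↥(Submodule.pi Set.univ fun i => (L i).map (D i).mkQ) :=
    { toFun := fun f => ⟨fun i => (f i : V ⧸ D i), fun i _ => (f i).2⟩
      invFun := fun f i => ⟨f.1 i, f.2 i (Set.mem_univ i)⟩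
      map_add' := fun _ _ => rfl
      map_smul' := fun _ _ => rfl
      left_inv := fun _ => rfl
      right_inv := fun _ => rfl }
  have h1 : ((pis L).map (pis D).mkQ).map (e : ((ι → V) ⧸ pis D) →ₗ[k] ∀ i, V ⧸ D i) =
    Submodule.pi Set.univ fun i => (L i).map (D i).mkQ := pis_map_mkQ D L
  have hf : ∀ i, Module.Finite k ↥((L i).map (D i).mkQ) := h
  rw [h1] at e1
  have f2 : Module.Finite k ↥((pis L).map (pis D).mkQ) :=
    Module.Finite.equiv (e2.trans e1.symm)
  refine ⟨f2, ?_⟩
  rw [cod, LinearEquiv.finrank_eq (e1.trans e2.symm), finrank_pi_fintype]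
  rfl

theorem com_pis {L L' : ι → Submodule k V} (h : ∀ i, Com (L i) (L' i)) :
    Com (pis L) (pis L') ∧ ind (pis L) (pis L') = ∑ i, ind (L i) (L' i) := by
  have h1 := cod_pis L' L (fun i => (h i).1)
  have h2 := cod_pis L L' (fun i => (h i).2)
  refine ⟨⟨h1.1, h2.1⟩, ?_⟩
  rw [ind, h1.2, h2.2]
  push_cast
  rw [← Finset.sum_sub_distrib]
  rfl

omit [Fintype ι] [DecidableEq ι] in
theorem inf_pis (L M : ι → Submodule k V) : pis L ⊓ pis M = pis fun i => L i ⊓ M i := by
  ext v
  simp only [Submodule.mem_inf, mem_pis]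
  exact ⟨fun h i => ⟨h.1 i, h.2 i⟩, fun h => ⟨fun i => (h i).1, fun i => (h i).2⟩⟩

omit [Fintype ι] [DecidableEq ι] in
theorem sup_pis (L M : ι → Submodule k V) : pis L ⊔ pis M = pis fun i => L i ⊔ M i := by
  ext v
  rw [Submodule.mem_sup, mem_pis]
  constructor
  · rintro ⟨y, hy, z, hz, rfl⟩ i
    exact Submodule.add_mem_sup (mem_pis.1 hy i) (mem_pis.1 hz i)
  · intro h
    choose y hy z hz hyz using fun i => Submodule.mem_sup.1 (h i)
    exact ⟨y, mem_pis.2 hy, z, mem_pis.2 hz, funext hyz⟩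

theorem chi_pis {L M : ι → Submodule k V} (h : ∀ i, Fred (L i) (M i)) :
    Fred (pis L) (pis M) ∧ chi (pis L) (pis M) = ∑ i, chi (L i) (M i) := by
  have f1 : ∀ i, Module.Finite k ↥(L i ⊓ M i) := fun i => (h i).1
  have f2 : ∀ i, Module.Finite k (V ⧸ (L i ⊔ M i)) := fun i => (h i).2
  let e : ((ι → V) ⧸ pis fun i => L i ⊔ M i) ≃ₗ[k] ∀ i, V ⧸ (L i ⊔ M i) :=
    Submodule.quotientPi _
  rw [Fred, chi, inf_pis, sup_pis]
  refine ⟨⟨Module.Finite.equiv (pisEquiv _), Module.Finite.equiv e.symm⟩, ?_⟩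
  rw [← LinearEquiv.finrank_eq (pisEquiv _), LinearEquiv.finrank_eq e, finrank_pi_fintype,
    finrank_pi_fintype]
  push_cast
  rw [← Finset.sum_sub_distrib]
  rfl

end pi

section ring

variable {k K : Type*} [Field k] [Field K] [Algebra k K]

/-- A one-dimensional ring `A` with fraction field `K`: every nonzero principal ideal has finite
codimension. -/
structure OneDim (A : Subalgebra k K) : Prop where
  frac : ∀ x : K, ∃ a ∈ A, a ≠ 0 ∧ a * x ∈ A
  fin : ∀ a ∈ A, a ≠ 0 → Fc ((Subalgebra.toSubmodule A).map (LinearMap.mulLeft k a))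
    (Subalgebra.toSubmodule A)

/-- Multiplication by a nonzero element. -/
noncomputable def mulE (k : Type*) {K : Type*} [Field k] [Field K] [Algebra k K] (c : K)
    (hc : c ≠ 0) : K ≃ₗ[k] K :=
  LinearEquiv.ofLinearMap (LinearMap.mulLeft k c) (LinearMap.mulLeft k c⁻¹)
    (by ext x; simp [hc]) (by ext x; simp [hc])

theorem coe_mulE (c : K) (hc : c ≠ 0) :
    ((mulE k c hc : K ≃ₗ[k] K) : K →ₗ[k] K) = LinearMap.mulLeft k c := rfl

/-- The scaled subspace. -/
def sc (c : K) (L : Submodule k K) : Submodule k K := L.map (LinearMap.mulLeft k c)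

theorem mem_sc {c : K} {L : Submodule k K} {x : K} : x ∈ sc c L ↔ ∃ y ∈ L, c * y = x := by
  simp [sc, Submodule.mem_map]

theorem sc_sc (c d : K) (L : Submodule k K) : sc c (sc d L) = sc (c * d) L := by
  ext x
  simp only [mem_sc]
  constructor
  · rintro ⟨y, ⟨z, hz, rfl⟩, rfl⟩
    exact ⟨z, hz, by ring⟩
  · rintro ⟨z, hz, rfl⟩
    exact ⟨d * z, ⟨z, hz, rfl⟩, by ring⟩

theorem sc_one (L : Submodule k K) : sc 1 L = L := by
  ext x
  simp [mem_sc]

theorem ind_sc (c : K) (hc : c ≠ 0) (L L' : Submodule k K) :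
    ind (sc c L) (sc c L') = ind L L' := ind_map (mulE k c hc) L L'

theorem com_sc {c : K} (hc : c ≠ 0) {L L' : Submodule k K} (h : Com L L') :
    Com (sc c L) (sc c L') := Com.map (mulE k c hc) h

theorem fc_sc {c : K} (hc : c ≠ 0) {L L' : Submodule k K} :
    Fc (sc c L) (sc c L') ↔ Fc L L' := (cod_map (mulE k c hc) L L').2

theorem chi_sc {c : K} (hc : c ≠ 0) (L M : Submodule k K) :
    (Fred (sc c L) (sc c M) ↔ Fred L M) ∧ chi (sc c L) (sc c M) = chi L M :=
  chi_map (mulE k c hc) L M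

variable (A : Subalgebra k K)

theorem sc_le {a : K} (ha : a ∈ A) : sc a (Subalgebra.toSubmodule A) ≤ Subalgebra.toSubmodule A := by
  intro x hx
  obtain ⟨y, hy, rfl⟩ := mem_sc.1 hx
  exact A.mul_mem ha hy

/-- The degree of `c`, i.e. the index of `c A` in `A` (minus the number of zeros of `c`). -/
noncomputable def dg (c : K) : ℤ := ind (sc c (Subalgebra.toSubmodule A)) (Subalgebra.toSubmodule A)

variable {A}

theorem OneDim.com (hA : OneDim A) {c : K} (hc : c ≠ 0) :
    Com (sc c (Subalgebra.toSubmodule A)) (Subalgebra.toSubmodule A) := by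
  obtain ⟨b, hb, hb0, hbc⟩ := hA.frac c
  have ha0 : b * c ≠ 0 := mul_ne_zero hb0 hc
  have h1 : Com (sc (b * c) (Subalgebra.toSubmodule A)) (Subalgebra.toSubmodule A) :=
    ⟨Fc.of_le (sc_le A hbc), hA.fin _ hbc ha0⟩
  have h2 : Com (sc b (Subalgebra.toSubmodule A)) (Subalgebra.toSubmodule A) :=
    ⟨Fc.of_le (sc_le A hb), hA.fin _ hb hb0⟩
  have h3 := com_sc hc h2
  rw [sc_sc, mul_comm c b] at h3
  exact h3.symm.trans h1

theorem OneDim.dg_mul (hA : OneDim A) {c d : K} (hc : c ≠ 0) (hd : d ≠ 0) :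
    dg A (c * d) = dg A c + dg A d := by
  have h1 := com_sc hc (hA.com hd)
  rw [sc_sc] at h1
  have h2 := ind_add h1 (hA.com hc)
  have h3 := ind_sc (k := k) c hc (sc d (Subalgebra.toSubmodule A)) (Subalgebra.toSubmodule A)
  rw [sc_sc] at h3
  rw [dg, h2, h3]
  exact add_comm _ _

theorem dg_one : dg A (1 : K) = 0 := by
  rw [dg, sc_one, ind_self]

theorem OneDim.dg_pow (hA : OneDim A) {c : K} (hc : c ≠ 0) (n : ℕ) :
    dg A (c ^ n) = n * dg A c := by
  induction n with
  | zero => rw [pow_zero, dg_one]; simp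
  | succ n ih =>
    rw [pow_succ, hA.dg_mul (pow_ne_zero n hc) hc, ih]
    push_cast
    ring

theorem OneDim.dg_prod (hA : OneDim A) {ι : Type*} (s : Finset ι) (f : ι → K)
    (hf : ∀ i ∈ s, f i ≠ 0) : dg A (∏ i ∈ s, f i) = ∑ i ∈ s, dg A (f i) := by
  classical
  induction s using Finset.induction_on with
  | empty => simp [dg_one]
  | insert a s ha ih =>
    rw [Finset.prod_insert ha, Finset.sum_insert ha, hA.dg_mul (hf a (Finset.mem_insert_self _ _))
      (Finset.prod_ne_zero_iff.2 fun i hi => hf i (Finset.mem_insert_of_mem hi)),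
      ih fun i hi => hf i (Finset.mem_insert_of_mem hi)]

/-- The number of zeros of `a` in `A` is `- dg A a`. -/
theorem dg_of_mem {a : K} (ha : a ∈ A) :
    dg A a = - cod (sc a (Subalgebra.toSubmodule A)) (Subalgebra.toSubmodule A) := by
  rw [dg, ind, cod_of_le (sc_le A ha)]
  simp

/-- Units of `A` have degree zero. -/
theorem dg_unit {a : K} (ha : a ∈ A) (ha' : a⁻¹ ∈ A) (h0 : a ≠ 0) : dg A a = 0 := by
  have h1 : sc a (Subalgebra.toSubmodule A) = Subalgebra.toSubmodule A := by
    refine le_antisymm (sc_le A ha) fun x hx => mem_sc.2 ⟨a⁻¹ * x, A.mul_mem ha' hx, ?_⟩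
    rw [mul_inv_cancel_left₀ h0]
  rw [dg, h1, ind_self]

end ring

section gl

variable {k K : Type*} [Field k] [Field K] [Algebra k K] {ι : Type*} [Fintype ι] [DecidableEq ι]

/-- The action of a matrix. -/
def act (k : Type*) [Field k] {K : Type*} [Field K] [Algebra k K] {ι : Type*} [Fintype ι]
    (T : Matrix ι ι K) : (ι → K) →ₗ[k] (ι → K) := (Matrix.mulVecLin T).restrictScalars k

omit [DecidableEq ι] in
theorem act_apply (T : Matrix ι ι K) (v : ι → K) : act k T v = T.mulVec v := rfl

omit [DecidableEq ι] in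
theorem act_mul (S T : Matrix ι ι K) : act k (S * T) = act k S ∘ₗ act k T := by
  ext v i
  simp [act_apply, Matrix.mulVec_mulVec]

/-- The action of an invertible matrix. -/
noncomputable def actE (k : Type*) [Field k] {K : Type*} [Field K] [Algebra k K] {ι : Type*}
    [Fintype ι] [DecidableEq ι] (T : Matrix ι ι K) (hT : T.det ≠ 0) : (ι → K) ≃ₗ[k] (ι → K) :=
  LinearEquiv.ofLinearMap (act k T) (act k T⁻¹)
    (LinearMap.ext fun v => by
      rw [← act_mul, Matrix.mul_nonsing_inv T (Ne.isUnit hT), act_apply, Matrix.one_mulVec,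
        LinearMap.id_apply])
    (LinearMap.ext fun v => by
      rw [← act_mul, Matrix.nonsing_inv_mul T (Ne.isUnit hT), act_apply, Matrix.one_mulVec,
        LinearMap.id_apply])

theorem coe_actE (T : Matrix ι ι K) (hT : T.det ≠ 0) :
    ((actE k T hT : (ι → K) ≃ₗ[k] (ι → K)) : (ι → K) →ₗ[k] (ι → K)) = act k T := rfl

variable {A : Subalgebra k K}

/-- The lattice `A ^ ι`. -/
def lat (ι : Type*) (A : Subalgebra k K) : Submodule k (ι → K) :=
  pis fun _ => Subalgebra.toSubmodule A

theorem act_diagonal (d : ι → K) (L : Submodule k K) :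
    (pis fun _ : ι => L).map (act k (Matrix.diagonal d)) = pis fun i => sc (d i) L := by
  ext v
  rw [Submodule.mem_map, mem_pis]
  constructor
  · rintro ⟨w, hw, rfl⟩ i
    exact mem_sc.2 ⟨w i, mem_pis.1 hw i, by rw [act_apply, Matrix.mulVec_diagonal]⟩
  · intro h
    choose w hw hwv using fun i => mem_sc.1 (h i)
    exact ⟨w, mem_pis.2 hw, by
      funext i
      rw [act_apply, Matrix.mulVec_diagonal, hwv]⟩

/-- The index statement for the matrix `T`. -/
def IndP (ι : Type*) [Fintype ι] [DecidableEq ι] (A : Subalgebra k K) (T : Matrix ι ι K) : Prop :=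
  Com ((lat ι A).map (act k T)) (lat ι A) ∧
      ind ((lat ι A).map (act k T)) (lat ι A) = dg A T.det

theorem indP_diagonal (hA : OneDim A) (d : ι → K) (hd : (Matrix.diagonal d).det ≠ 0) :
    IndP ι A (Matrix.diagonal d) := by
  rw [Matrix.det_diagonal] at hd
  have hd' : ∀ i, d i ≠ 0 := fun i => Finset.prod_ne_zero_iff.1 hd i (Finset.mem_univ i)
  have h1 := com_pis (L := fun i => sc (d i) (Subalgebra.toSubmodule A))
    (L' := fun _ => Subalgebra.toSubmodule A) (fun i => hA.com (hd' i))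
  have h2 : (lat ι A).map (act k (Matrix.diagonal d)) =
      pis fun i => sc (d i) (Subalgebra.toSubmodule A) := act_diagonal d _
  have h3 : dg A (Matrix.diagonal d).det = ∑ i, dg A (d i) := by
    rw [Matrix.det_diagonal]
    exact hA.dg_prod _ _ fun i _ => hd' i
  unfold IndP
  rw [h2, h3]
  exact h1

theorem act_transvection {i j : ι} (c : K) (v : ι → K) (l : ι) :
    act k (Matrix.transvection i j c) v l = v l + if l = i then c * v j else 0 := by
  rw [act_apply, Matrix.transvection, Matrix.add_mulVec, Matrix.one_mulVec, Pi.add_apply,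
    Matrix.single_mulVec]
  split_ifs with h
  · subst h
    simp
  · simp [h]

theorem indP_transvection (hA : OneDim A) {i j : ι} (hij : i ≠ j) (c : K) :
    IndP ι A (Matrix.transvection i j c) := by
  unfold IndP
  rw [Matrix.det_transvection_of_ne i j hij, dg_one]
  obtain ⟨b, hb, hb0, hbc⟩ := hA.frac c
  let D : Submodule k (ι → K) :=
    pis (Function.update (fun _ => Subalgebra.toSubmodule A) j (sc b (Subalgebra.toSubmodule A)))
  have hDj : ∀ v ∈ D, v j ∈ sc b (Subalgebra.toSubmodule A) := fun v hv => by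
    have := mem_pis.1 hv j
    rwa [Function.update_self] at this
  have hDl : D ≤ lat ι A := by
    intro v hv
    refine mem_pis.2 fun l => ?_
    by_cases hl : l = j
    · subst hl
      exact sc_le A hb (hDj v hv)
    · have := mem_pis.1 hv l
      rwa [Function.update_of_ne hl] at this
  have hDc : ∀ v, v ∈ D ↔ (v j ∈ sc b (Subalgebra.toSubmodule A) ∧ ∀ l, l ≠ j → v l ∈ A) := by
    intro v
    constructor
    · intro hv
      exact ⟨hDj v hv, fun l _ => mem_pis.1 (hDl hv) l⟩
    · rintro ⟨h1, h2⟩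
      refine mem_pis.2 fun l => ?_
      by_cases hl : l = j
      · subst hl
        rwa [Function.update_self]
      · rw [Function.update_of_ne hl]
        exact h2 l hl
  have hfc : Fc D (lat ι A) := by
    refine (cod_pis _ _ fun l => ?_).1
    by_cases hl : l = j
    · subst hl
      rw [Function.update_self]
      exact hA.fin b hb hb0
    · rw [Function.update_of_ne hl]
      exact fc_self _
  have hle : ∀ c' : K, b * c' ∈ A → D.map (act k (Matrix.transvection i j c')) ≤ D := by
    rintro c' hc' _ ⟨v, hv, rfl⟩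
    rw [hDc]
    have hv' := (hDc v).1 hv
    constructor
    · rw [act_transvection, if_neg (Ne.symm hij), add_zero]
      exact hv'.1
    · intro l hl
      rw [act_transvection]
      refine A.add_mem (hv'.2 l hl) ?_
      split_ifs
      · obtain ⟨y, hy, hyv⟩ := mem_sc.1 hv'.1
        rw [← hyv, show c' * (b * y) = (b * c') * y by ring]
        exact A.mul_mem hc' hy
      · exact A.zero_mem
  have hinv : ∀ v : ι → K, act k (Matrix.transvection i j c)
      (act k (Matrix.transvection i j (-c)) v) = v := by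
    intro v
    have h1 : act k (Matrix.transvection i j c * Matrix.transvection i j (-c)) v = v := by
      rw [Matrix.transvection_mul_transvection_same i j hij, add_neg_cancel,
        Matrix.transvection_zero, act_apply, Matrix.one_mulVec]
    rwa [act_mul] at h1
  have heq : D.map (act k (Matrix.transvection i j c)) = D := by
    refine le_antisymm (hle c hbc) fun v hv => ?_
    have h1 : act k (Matrix.transvection i j (-c)) v ∈ D :=
      hle (-c) (by rw [mul_neg]; exact A.neg_mem hbc) ⟨v, hv, rfl⟩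
    exact ⟨_, h1, hinv v⟩
  have hdet : (Matrix.transvection i j c).det ≠ 0 := by
    rw [Matrix.det_transvection_of_ne i j hij]
    exact one_ne_zero
  have hcm := cod_map (actE k (Matrix.transvection i j c) hdet) D (lat ι A)
  rw [coe_actE, heq] at hcm
  have hD2 : D ≤ (lat ι A).map (act k (Matrix.transvection i j c)) := by
    rw [← heq]
    exact Submodule.map_mono hDl
  have hf2 : Fc D ((lat ι A).map (act k (Matrix.transvection i j c))) := hcm.2.2 hfc
  refine ⟨⟨hf2.mono_left hDl, hfc.mono_left hD2⟩, ?_⟩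
  rw [ind_eq hD2 hDl hf2 hfc, hcm.1, sub_self]

theorem IndP.mul (hA : OneDim A) {S T : Matrix ι ι K} (hS : S.det ≠ 0) (hT : T.det ≠ 0)
    (h1 : IndP ι A S) (h2 : IndP ι A T) : IndP ι A (S * T) := by
  have e1 : (lat ι A).map (act k (S * T)) = ((lat ι A).map (act k T)).map (act k S) := by
    rw [act_mul, Submodule.map_comp]
  have c1 := Com.map (actE k S hS) h2.1
  rw [coe_actE, ← e1] at c1
  have i1 := ind_map (actE k S hS) ((lat ι A).map (act k T)) (lat ι A)
  rw [coe_actE, ← e1] at i1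
  refine ⟨c1.trans h1.1, ?_⟩
  rw [ind_add c1 h1.1, i1, h1.2, h2.2, Matrix.det_mul, hA.dg_mul hS hT, add_comm]

/-- **The index of a lattice is given by the determinant.** -/
theorem ind_lat (hA : OneDim A) (T : Matrix ι ι K) (hT : T.det ≠ 0) : IndP ι A T :=
  Matrix.diagonal_transvection_induction_of_det_ne_zero (IndP ι A) T hT
    (fun d hd => indP_diagonal hA d hd) (fun t => indP_transvection hA t.hij t.c)
    (fun _ _ hS hT h1 h2 => IndP.mul hA hS hT h1 h2)

end gl

end Vale.Agent.P292.Mo
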