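import Vale.Agent.P292.Mo.Charp_main
import Vale.Agent.P292.Mo.Sp.Final

/-! # P292, the Mori step: rational curves of degree at most two through the general point. -/

namespace Vale.Agent.P292.Mo

open MvPolynomial

universe u

/-- Every contact Fano manifold has a curve of degree one or two through its generic point. -/
theorem exists_isAnch_of_contactFano {R : Type u} [CommRing R] [Algebra ℂ R]
    {𝒜 : ℕ → Submodule ℂ R} [GradedAlgebra 𝒜] {P : R →ₗ[ℂ] R →ₗ[ℂ] R}
    (hX : IsContactFano 𝒜 P) (hdim : 2 ≤ Algebra.trdeg ℂ R) :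
    ∃ (Ω : Type u) (_ : Field Ω) (_ : IsAlgClosed Ω) (_ : Algebra ℂ Ω) (d : ℕ)
      (φ : R →ₐ[ℂ] MvPolynomial (Fin 2) Ω), (d = 1 ∨ d = 2) ∧ IsAnch 𝒜 d φ := by
  refine exists_isAnch_of_mori hX hdim ?_
  intro k _ _ p _ hp2 hp0 S _ _ ℬ _ Q hP e n y hN f hf
  have hprime : Fact p.Prime := ⟨(CharP.char_is_prime_or_zero k p).resolve_right hp0⟩
  exact charp_main p hp2 hP hN f hf

end Vale.Agent.P292.Mo
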