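import Vale.Agent.P292.Mo.Defs

/-! # Frobenius twist of the structure of a vector space: definitions. -/

namespace Vale.Agent.P292.Mo

universe u w

variable {k : Type u} [Field k]

/-- The field `K` with the `k`-structure twisted by the `j`-th power of Frobenius. -/
def Tw (p j : ℕ) (K : Type w) : Type w := K

instance (p j : ℕ) (K : Type w) [Field K] : Field (Tw p j K) := inferInstanceAs (Field K)

/-- The twisted `k`-structure. -/
noncomputable instance (p j : ℕ) [Fact p.Prime] [CharP k p] (K : Type w) [Field K] [Algebra k K] :
    Algebra k (Tw p j K) :=
  ((algebraMap k K).comp (iterateFrobenius k p j)).toAlgebra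

end Vale.Agent.P292.Mo
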